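import Vale.Agent.P183CF.Form
import Vale.Agent.P240.R2.H112.Nm
import Mathlib.FieldTheory.ChevalleyWarning

/-!
Singular vectors and hyperbolic pairs.
-/

set_option autoImplicit false
set_option linter.all false

namespace Vale.Agent.P183CF

open Module

/-- a ternary quadratic form over a finite field has a nontrivial zero -/
lemma ternary {F : Type*} [Field F] [Finite F] (a b c d e f : F) :
    ∃ x y z : F, ¬ (x = 0 ∧ y = 0 ∧ z = 0) ∧
      a * x * x + b * y * y + c * z * z + d * x * y + e * x * z + f * y * z = 0 := by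
  classical
  have := Fintype.ofFinite F
  obtain ⟨p, hp⟩ := CharP.exists F
  have hpp : p.Prime := CharP.char_is_prime F p
  open MvPolynomial in
  let P : MvPolynomial (Fin 3) F := C a * (X 0 * X 0) + C b * (X 1 * X 1) + C c * (X 2 * X 2) +
    C d * (X 0 * X 1) + C e * (X 0 * X 2) + C f * (X 1 * X 2)
  have h1 : ∀ (t : F) (i j : Fin 3),
      (MvPolynomial.C t * (MvPolynomial.X i * MvPolynomial.X j) :
        MvPolynomial (Fin 3) F).totalDegree ≤ 2 := by
    intro t i j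
    refine (MvPolynomial.totalDegree_mul _ _).trans ?_
    rw [MvPolynomial.totalDegree_C, zero_add]
    refine (MvPolynomial.totalDegree_mul _ _).trans ?_
    rw [MvPolynomial.totalDegree_X, MvPolynomial.totalDegree_X]
  have h2 : ∀ P Q : MvPolynomial (Fin 3) F, P.totalDegree ≤ 2 → Q.totalDegree ≤ 2 →
      (P + Q).totalDegree ≤ 2 := fun P Q h h' =>
    (MvPolynomial.totalDegree_add _ _).trans (max_le h h')
  have h3 : P.totalDegree < Fintype.card (Fin 3) := by
    rw [Fintype.card_fin]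
    exact Nat.lt_succ_of_le (h2 _ _ (h2 _ _ (h2 _ _ (h2 _ _ (h2 _ _ (h1 _ _ _) (h1 _ _ _))
      (h1 _ _ _)) (h1 _ _ _)) (h1 _ _ _)) (h1 _ _ _))
  have h4 := char_dvd_card_solutions p h3
  by_contra hcon
  push Not at hcon
  have h5 : Fintype.card {x : Fin 3 → F // MvPolynomial.eval x P = 0} = 1 := by
    rw [Fintype.card_eq_one_iff]
    refine ⟨⟨0, by simp [P]⟩, ?_⟩
    rintro ⟨x, hx⟩
    apply Subtype.ext
    by_contra hne
    refine hcon (x 0) (x 1) (x 2) (fun h0 h1 h2 => hne ?_) ?_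
    · ext i
      fin_cases i <;> simp [h0, h1, h2]
    · simp only [P, map_add, map_mul, MvPolynomial.eval_C, MvPolynomial.eval_X] at hx
      linear_combination hx
  rw [h5] at h4
  exact hpp.one_lt.ne' (Nat.dvd_one.1 h4)

namespace Form

variable {F V : Type*} [Field F] [AddCommGroup V] [Module F V] (φ : Form F V)

lemma exists_tr (h : ∃ x, φ.σ x ≠ x) : ∃ θ : F, θ + φ.σ θ = 1 := by
  obtain ⟨x, hx⟩ := h
  have h1 : x - φ.σ x ≠ 0 := sub_ne_zero.2 hx.symm
  have h2 : φ.σ x - x ≠ 0 := sub_ne_zero.2 hx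
  refine ⟨x / (x - φ.σ x), ?_⟩
  rw [map_div₀, map_sub, σσ']
  field_simp
  ring

/-- in the unitary case the form parameter is the largest one -/
lemma mem_Λ_of_ne (h : ∃ x, φ.σ x ≠ x) {t : F} (ht : t + φ.ε * φ.σ t = 0) : t ∈ φ.Λ := by
  obtain ⟨θ, hθ⟩ := φ.exists_tr h
  have := φ.Λ_min (θ * t)
  rw [map_mul] at this
  convert this using 1
  linear_combination (-t) * hθ + φ.σ θ * ht

lemma Q_eq_zero_of_ne (h : ∃ x, φ.σ x ≠ x) {x : V} (hx : φ.b x x = 0) : φ.Q x = 0 :=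
  φ.md_eq_zero.2 (φ.mem_Λ_of_ne h (by rw [← φ.b_self, hx]))

variable [Finite F]

lemma exists_norm (h : ∃ x, φ.σ x ≠ x) {a : F} (ha : φ.σ a = a) : ∃ c, φ.σ c * c = a := by
  obtain ⟨c, hc⟩ := P240.R2.H112.exists_norm (φ.σ : RingAut F) Nat.prime_two
    (by ext x; exact φ.σσ x) (by
      obtain ⟨x, hx⟩ := h
      intro e
      exact hx (by rw [e]; rfl)) ha
  refine ⟨c, ?_⟩
  rw [Finset.prod_range_succ, Finset.prod_range_succ, Finset.prod_range_zero, pow_zero, pow_one,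
    one_mul, mul_comm] at hc
  exact hc

variable [FiniteDimensional F V]

/-- a subspace of dimension at least three contains a nonzero singular vector -/
theorem exists_sing (X : Submodule F V) (hX : 3 ≤ finrank F X) : ∃ x ∈ X, x ≠ 0 ∧ φ.Q x = 0 := by
  by_cases h : ∃ x, φ.σ x ≠ x
  · have hne : X ≠ ⊥ := by
      rintro rfl
      simp at hX
    obtain ⟨x, hx, hx0⟩ := Submodule.exists_mem_ne_zero_of_ne_bot hne
    by_cases hxx : φ.b x x = 0
    · exact ⟨x, hx, hx0, φ.Q_eq_zero_of_ne h hxx⟩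
    have h1 := φ.finrank_inf_perp X (F ∙ x)
    rw [finrank_span_singleton hx0] at h1
    have hne' : X ⊓ φ.perp (F ∙ x) ≠ ⊥ := by
      intro e
      rw [e, finrank_bot] at h1
      omega
    obtain ⟨y, ⟨hy, hy1⟩, hy0⟩ := Submodule.exists_mem_ne_zero_of_ne_bot hne'
    have hxy : φ.b x y = 0 := φ.mem_perp_singleton.1 hy1
    have hσ : ∀ z, φ.σ (φ.b z z) = φ.ε * φ.b z z := fun z => by
      conv_rhs => rw [φ.herm z z]
      simp
    obtain ⟨c, hc⟩ := φ.exists_norm h (a := - φ.b y y / φ.b x x) (by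
      rw [map_div₀, map_neg, hσ, hσ]
      have := φ.ε_ne
      field_simp)
    refine ⟨c • x + y, X.add_mem (X.smul_mem c hx) hy, ?_, φ.Q_eq_zero_of_ne h ?_⟩
    · intro e
      have h2 := congrArg (φ.b x) e
      simp only [map_add, map_smul, hxy, smul_eq_mul, map_zero, add_zero] at h2
      rcases mul_eq_zero.1 h2 with h3 | h3
      · rw [h3, zero_smul, zero_add] at e
        exact hy0 e
      · exact hxx h3
    · simp only [map_add, map_smul, LinearMap.add_apply, b_smul_left, hxy, φ.b_symm_zero hxy,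
        smul_eq_mul]
      field_simp at hc
      linear_combination hc
  · push Not at h
    obtain ⟨v, hv⟩ := exists_linearIndependent_of_le_finrank hX
    obtain ⟨x, y, z, h0, h1⟩ := ternary (φ.q (v 0)) (φ.q (v 1)) (φ.q (v 2)) (φ.b (v 0) (v 1))
      (φ.b (v 0) (v 2)) (φ.b (v 1) (v 2))
    refine ⟨x • (v 0).1 + y • (v 1).1 + z • (v 2).1, X.add_mem (X.add_mem (X.smul_mem _ (v 0).2)
      (X.smul_mem _ (v 1).2)) (X.smul_mem _ (v 2).2), ?_, ?_⟩
    · intro e
      have h2 := Fintype.linearIndependent_iff.1 hv ![x, y, z] (by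
        apply Subtype.ext
        simpa [Fin.sum_univ_three] using e)
      exact h0 ⟨h2 0, h2 1, h2 2⟩
    · rw [Q_add, Q_add, Q_smul, Q_smul, Q_smul]
      simp only [← map_add φ.md]
      rw [← map_zero φ.md, ← h1]
      congr 1
      simp only [map_add, map_smul, LinearMap.add_apply, b_smul_left, h, smul_eq_mul]
      ring

omit [Finite F] [FiniteDimensional F V] in
/-- a singular vector and a vector not orthogonal to it span a hyperbolic plane -/
lemma exists_hyp {X : Submodule F V} {e y : V} (he : e ∈ X) (hy : y ∈ X) (hQ : φ.Q e = 0)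
    (h : φ.b e y ≠ 0) : ∃ f ∈ X, φ.Q f = 0 ∧ φ.b e f = 1 := by
  let z := (φ.b e y)⁻¹ • y
  have hz : φ.b e z = 1 := by simp [z, h]
  refine ⟨z - (φ.ε * φ.q z) • e, X.sub_mem (X.smul_mem _ hy) (X.smul_mem _ he), ?_, ?_⟩
  · rw [Q_sub, φ.Q_smul_zero hQ, map_smul, φ.herm e z, hz]
    simp [Q, mul_comm, mul_assoc]
  · simp [hz, φ.b_self_zero hQ]

/-- a subspace that is much larger than its radical contains a hyperbolic pair -/
lemma exists_pair (X : Submodule F V)
    (h : finrank F (X ⊓ φ.perp X : Submodule F V) + 3 ≤ finrank F X) :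
    ∃ e ∈ X, ∃ f ∈ X, φ.Q e = 0 ∧ φ.Q f = 0 ∧ φ.b e f = 1 := by
  obtain ⟨C, hC⟩ := Submodule.exists_isCompl (X ⊓ φ.perp X)
  have h1 := Submodule.finrank_add_eq_of_isCompl hC
  have h2 := Submodule.finrank_sup_add_finrank_inf_eq X C
  have h3 := Submodule.finrank_le (X ⊔ C)
  obtain ⟨e, ⟨he, heC⟩, he0, hQ⟩ := φ.exists_sing (X ⊓ C) (by omega)
  have : ∃ y ∈ X, φ.b e y ≠ 0 := by
    by_contra hcon
    push Not at hcon
    have : e ∈ (X ⊓ φ.perp X) ⊓ C := ⟨⟨he, φ.mem_perp'.2 hcon⟩, heC⟩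
    rw [hC.inf_eq_bot, Submodule.mem_bot] at this
    exact he0 this
  obtain ⟨y, hy, hey⟩ := this
  obtain ⟨f, hf, hf1, hf2⟩ := φ.exists_hyp he hy hQ hey
  exact ⟨e, he, f, hf, hQ, hf1, hf2⟩

variable {φ}

/-- a hyperbolic pair orthogonal to a small subspace -/
lemma Nd.exists_pair {U W : Submodule F V} (hW : φ.Nd W) (hU : U ≤ W)
    (h : 2 * finrank F U + 3 ≤ finrank F W) :
    ∃ e ∈ W ⊓ φ.perp U, ∃ f ∈ W ⊓ φ.perp U, φ.Q e = 0 ∧ φ.Q f = 0 ∧ φ.b e f = 1 := by
  apply φ.exists_pair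
  have h1 : W ⊓ φ.perp U ⊓ φ.perp (W ⊓ φ.perp U) ≤ U := by
    exact (inf_le_inf_right _ inf_le_left).trans (hW.finrank_rad hU).le
  have h2 := Submodule.finrank_mono h1
  have h3 := φ.finrank_inf_perp W U
  omega

omit [Finite F] [FiniteDimensional F V] in
lemma Q_pair {e f : V} (he : φ.Q e = 0) (hf : φ.Q f = 0) (h : φ.b e f = 1) (t : F) :
    φ.Q (e + t • f) = φ.md t := by
  rw [Q_add, he, φ.Q_smul_zero hf]
  simp [h]

omit [Finite F] [FiniteDimensional F V] in
lemma pair_notMem {U : Submodule F V} {e f u : V} (hf : f ∈ φ.perp U) (hQ : φ.Q f = 0)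
    (h : φ.b e f = 1) (t : F) (hu : φ.b u f = 0) : u + (e + t • f) ∉ U := by
  intro hm
  have := hf _ hm
  simp [hu, h, φ.b_self_zero hQ] at this

/-- **Vectors with prescribed inner products and prescribed value of `Q`.** -/
theorem Nd.exists_dual {U W : Submodule F V} (hW : φ.Nd W) (hU : U ≤ W)
    (h : 2 * finrank F U + 5 ≤ finrank F W) (g : Dual F V) (t : F ⧸ φ.Λ) :
    ∃ u ∈ W, u ∉ U ∧ φ.Q u = t ∧ ∀ y ∈ U, φ.b u y = g y := by
  obtain ⟨u, hu, hu1⟩ := hW.riesz g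
  have h1 : finrank F (U ⊔ F ∙ u : Submodule F V) ≤ finrank F U + 1 :=
    (Submodule.finrank_add_le_finrank_add_finrank _ _).trans
      (Nat.add_le_add_left (finrank_span_le_card ({u} : Set V) |>.trans (by simp)) _)
  obtain ⟨e, ⟨he, he1⟩, f, ⟨hf, hf1⟩, hQe, hQf, hef⟩ := hW.exists_pair (U := U ⊔ F ∙ u)
    (sup_le hU ((Submodule.span_singleton_le_iff_mem _ _).2 hu)) (by omega)
  rw [perp_sup] at he1 hf1
  have hue : φ.b u e = 0 := φ.mem_perp_singleton.1 he1.2
  have huf : φ.b u f = 0 := φ.mem_perp_singleton.1 hf1.2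
  obtain ⟨s, hs⟩ := φ.md_surj (t - φ.Q u)
  refine ⟨u + (e + s • f), W.add_mem hu (W.add_mem he (W.smul_mem _ hf)),
    pair_notMem hf1.1 hQf hef s huf, ?_, fun y hy => ?_⟩
  · rw [Q_add, Q_pair hQe hQf hef, hs]
    simp [hue, huf]
  · simp [hu1 y (hU hy), φ.mem_perp'.1 he1.1 y hy, φ.mem_perp'.1 hf1.1 y hy]

end Form

end Vale.Agent.P183CF
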