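import Vale.Agent.P183CF.Witt

/-!
The group `EW W` is perfect and quasi-simple, and acts absolutely irreducibly on `W`.
-/

set_option autoImplicit false
set_option linter.all false

namespace Vale.Agent.P183CF

open Module

namespace Form

variable {F V : Type*} [Field F] [AddCommGroup V] [Module F V] {φ : Form F V}
  [Finite F] [FiniteDimensional F V] {W : Submodule F V}

/-- a vector with a prescribed value of `Q` and prescribed inner products, in the other order -/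
lemma Nd.exists_dual' (hW : φ.Nd W) {U : Submodule F V} (hU : U ≤ W)
    (h : 2 * finrank F U + 5 ≤ finrank F W) (z : V) (t : F ⧸ φ.Λ) :
    ∃ u ∈ W, u ∉ U ∧ φ.Q u = t ∧ ∀ y ∈ U, φ.b y u = φ.b y z := by
  obtain ⟨u, hu, h1, h2, h3⟩ := hW.exists_dual hU h (φ.b z) t
  exact ⟨u, hu, h1, h2, fun y hy => by rw [φ.herm u y, φ.herm z y, h3 y hy]⟩

/-- a vector orthogonal to a small subspace with a prescribed value of `Q` -/
lemma Nd.exists_orth (hW : φ.Nd W) {U : Submodule F V} (hU : U ≤ W)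
    (h : 2 * finrank F U + 5 ≤ finrank F W) (t : F ⧸ φ.Λ) :
    ∃ u ∈ W, u ∉ U ∧ φ.Q u = t ∧ ∀ y ∈ U, φ.b y u = 0 := by
  simpa using hW.exists_dual' hU h 0 t

/-- a subgroup normalised by `EW W` that contains one general Eichler-Siegel transformation contains
`EW W` -/
theorem EW_le_of_rho (hW : φ.Nd W) (hd : 11 ≤ finrank F W) {N : Subgroup (V ≃ₗ[F] V)}
    (hN : ∀ g ∈ φ.EW W, ∀ x ∈ N, g * x * g⁻¹ ∈ N) {u v : V} {l : F} (h : φ.RD u v l) (hu : u ∈ W)
    (hv : v ∈ W) (hu0 : u ≠ 0) (hv0 : v ∉ F ∙ u) (hm : rho h ∈ N) : φ.EW W ≤ N := by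
  have h1 : ∀ {u' v' : V} (h' : φ.RD u' v' l), u' ∈ W → v' ∈ W → u' ≠ 0 → v' ∉ F ∙ u' →
      rho h' ∈ N := by
    intro u' v' h' hu' hv' hu0' hv0'
    obtain ⟨g, hg, e1, e2⟩ := trans2 hW hd hu hu' hv hv' hu0 hu0' hv0 hv0'
      (h.sing.trans h'.sing.symm) (h.val.trans h'.val.symm) (h.orth.trans h'.orth.symm)
    have := hN g hg _ hm
    rwa [rho_conj h (EW_le_Isom W hg), rho_congr _ h' e1 e2 rfl] at this
  have h2 : ∀ {m : F} {u' v' : V} (h' : φ.RD u' v' m), u' ∈ W → v' ∈ W → u' ≠ 0 → v' ∉ F ∙ u' →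
      rho h' ∈ N := by
    intro m u' v' h' hu' hv' hu0' hv0'
    have d1 := finrank_span1 (F := F) u
    have d2 := finrank_sup_span (F ∙ u) v
    obtain ⟨f1, hf1, hf2⟩ := exists_fun' hv0 0 (φ.ε * φ.σ (m - l - l))
    obtain ⟨w, hw, hw0, hw1, hw2⟩ := hW.exists_dual (sup_span_le (span1_le hu) hv) (by omega) f1
      (φ.md l)
    have huw : φ.b u w = 0 := φ.b_symm_zero (by
      rw [hw2 u (Submodule.mem_sup_left (Submodule.mem_span_singleton_self u)),
        hf2 u (Submodule.mem_span_singleton_self u)]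
      rfl)
    have hvw : φ.b v w = m - l - l := by
      rw [φ.herm w v, hw2 v (mem_sup_span_r _ _), hf1]
      simp
    have h3 : φ.RD u w l := ⟨h.sing, huw, hw1⟩
    have h4 := mul_mem hm (h1 h3 hu hw hu0 fun e => hw0 (Submodule.mem_sup_left e))
    rw [rho_mul] at h4
    have hvw0 : v + w ∉ F ∙ u := fun e => hw0 (by
      simpa using Submodule.sub_mem _ (Submodule.mem_sup_left e) (mem_sup_span_r (F ∙ u) v))
    have e0 : l + l + φ.b v w = m := by rw [hvw]; ring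
    obtain ⟨g, hg, e1, e2⟩ := trans2 hW hd hu hu' (W.add_mem hv hw) hv' hu0 hu0' hvw0 hv0'
      (h.sing.trans h'.sing.symm) (by rw [(h.add h3).val, e0, h'.val])
      ((h.add h3).orth.trans h'.orth.symm)
    have := hN g hg _ h4
    rwa [rho_conj _ (EW_le_Isom W hg), rho_congr _ h' e1 e2 e0] at this
  refine EW_le fun u' v' m h' hu' hv' => ?_
  by_cases hu0' : u' = 0
  · subst hu0'
    rw [rho_zero_left]
    exact one_mem _
  have d1 := finrank_span1 (F := F) u'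
  have d2 := finrank_sup_span (F ∙ u') v'
  obtain ⟨w, hw, hw0, hw1, hw2⟩ := hW.exists_orth (sup_span_le (span1_le hu') hv') (by omega) 0
  have h3 : φ.RD u' w 0 :=
    ⟨h'.sing, hw2 _ (Submodule.mem_sup_left (Submodule.mem_span_singleton_self _)), by simpa using hw1⟩
  have h4 := h2 h3 hu' hw hu0' fun e => hw0 (Submodule.mem_sup_left e)
  have h5 := h2 (h'.add h3) hu' (W.add_mem hv' hw) hu0' fun e => hw0 (by
    simpa using Submodule.sub_mem _ (Submodule.mem_sup_left e) (mem_sup_span_r (F ∙ u') v'))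
  rw [← rho_mul h' h3] at h5
  simpa using mul_mem h5 (inv_mem h4)

/-- `EW W` is perfect -/
theorem EW_perfect (hW : φ.Nd W) (hd : 11 ≤ finrank F W) : ⁅φ.EW W, φ.EW W⁆ = φ.EW W := by
  refine le_antisymm (Subgroup.commutator_le.2 fun a ha c hc =>
    mul_mem (mul_mem (mul_mem ha hc) (inv_mem ha)) (inv_mem hc)) ?_
  obtain ⟨u, hu, hu0, hu1⟩ := φ.exists_sing W (by omega)
  have d1 := finrank_span1 (F := F) u
  obtain ⟨v, hv, hv0, hv1, hv2⟩ := hW.exists_orth (span1_le hu) (by omega) 0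
  have d2 := finrank_sup_span (F ∙ u) v
  obtain ⟨w, hw, hw0, hw1, hw2⟩ := hW.exists_orth (sup_span_le (span1_le hu) hv) (by omega) 0
  have huv := hv2 u (Submodule.mem_span_singleton_self u)
  have huw := hw2 u (Submodule.mem_sup_left (Submodule.mem_span_singleton_self u))
  obtain ⟨g, hg, e1, e2⟩ := trans2 hW hd hu hu hv hw hu0 hu0 hv0
    (fun e => hw0 (Submodule.mem_sup_left e)) rfl (hv1.trans hw1.symm) (huv.trans huw.symm)
  have h1 : φ.RD u v 0 := ⟨hu1, huv, by simpa using hv1⟩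
  have h2 : φ.RD u w 0 := ⟨hu1, huw, by simpa using hw1⟩
  refine EW_le_of_rho hW hd (fun k hk x hx => ?_) (h2.add h1.neg) hu
    (W.add_mem hw (W.neg_mem hv)) hu0 (fun e => hw0 (by
      simpa using Submodule.add_mem _ (Submodule.mem_sup_left e) (mem_sup_span_r (F ∙ u) v))) ?_
  · have : ⁅φ.EW W, φ.EW W⁆ ≤ ⁅φ.EW W, φ.EW W⁆.comap (MulAut.conj k).toMonoidHom :=
      Subgroup.commutator_le.2 fun a ha c hc => by
        rw [Subgroup.mem_comap, map_commutatorElement]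
        exact Subgroup.commutator_mem_commutator (mul_mem (mul_mem hk ha) (inv_mem hk))
          (mul_mem (mul_mem hk hc) (inv_mem hk))
    exact this hx
  · have := Subgroup.commutator_mem_commutator hg (rho_EW h1 hu hv)
    rwa [commutatorElement_def, rho_conj h1 (EW_le_Isom W hg), rho_congr _ h2 e1 e2 rfl, rho_inv,
      rho_mul] at this

theorem commutator_IW (hW : φ.Nd W) (hd : 21 ≤ finrank F W) : ⁅φ.IW W, φ.IW W⁆ = φ.EW W :=
  le_antisymm (commutator_le_EW hW hd)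
    ((EW_perfect hW (by omega)).symm.le.trans (Subgroup.commutator_mono (EW_le_IW W) (EW_le_IW W)))

/-- every vector is a sum of two singular vectors -/
lemma Nd.sum_sing (hW : φ.Nd W) (hd : 7 ≤ finrank F W) {w : V} (hw : w ∈ W) :
    ∃ a ∈ W, ∃ c ∈ W, a ≠ 0 ∧ c ≠ 0 ∧ φ.Q a = 0 ∧ φ.Q c = 0 ∧ a + c = w := by
  have d1 := finrank_span1 (F := F) w
  obtain ⟨f, hf⟩ : ∃ f : Dual F V, φ.md (f w) = φ.Q w := by
    by_cases h0 : w = 0
    · exact ⟨0, by simp [h0]⟩
    · obtain ⟨f, hf, -⟩ := exists_fun' (U := (⊥ : Submodule F V)) (x := w) (by simpa using h0) 0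
        (φ.q w)
      exact ⟨f, by rw [hf]; rfl⟩
  obtain ⟨u, hu, hu0, hu1, hu2⟩ := hW.exists_dual (span1_le hw) (by omega) f 0
  refine ⟨u, hu, w - u, W.sub_mem hw hu, fun e => hu0 (e ▸ zero_mem _), fun e => hu0 ?_, hu1, ?_,
    by simp⟩
  · rw [← sub_eq_zero.1 e]
    exact Submodule.mem_span_singleton_self w
  · rw [Q_sub, hu1, md_b_comm, hu2 w (Submodule.mem_span_singleton_self w), hf]
    simp

/-- an additive map that fixes all singular points of `W` is a scalar on `W` -/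
theorem scalar_of_sing (hW : φ.Nd W) (hd : 9 ≤ finrank F W) (T : V →+ V)
    (h : ∀ u ∈ W, φ.Q u = 0 → T u ∈ F ∙ u) : ∃ c : F, ∀ w ∈ W, T w = c • w := by
  have h1 : ∀ u ∈ W, ∀ z ∈ W, φ.Q u = 0 → φ.Q z = 0 → u ≠ 0 → z ∉ F ∙ u → φ.b u z = 0 →
      ∀ c d : F, T u = c • u → T z = d • z → c = d := by
    intro u hu z hz hQu hQz hu0 hz0 huz c d hc hd
    obtain ⟨e, he⟩ := Submodule.mem_span_singleton.1 (h (u + z) (W.add_mem hu hz) (by
      rw [Q_add, hQu, hQz, huz]; simp))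
    rw [map_add, hc, hd, smul_add] at he
    have h2 : (e - d) • z = (c - e) • u := by
      rw [sub_smul, sub_smul, sub_eq_sub_iff_add_eq_add, add_comm, he]
    have h3 : e = d := by
      by_contra hne
      apply hz0
      refine Submodule.mem_span_singleton.2 ⟨(e - d)⁻¹ * (c - e), ?_⟩
      rw [mul_smul, ← h2, smul_smul, inv_mul_cancel₀ (sub_ne_zero.2 hne), one_smul]
    rw [h3, sub_self, zero_smul] at h2
    exact sub_eq_zero.1 ((smul_eq_zero.1 h2.symm).resolve_right hu0)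
  obtain ⟨u, hu, hu0, hu1⟩ := φ.exists_sing W (by omega)
  obtain ⟨c, hc⟩ := Submodule.mem_span_singleton.1 (h u hu hu1)
  have h2 : ∀ a ∈ W, a ≠ 0 → φ.Q a = 0 → T a = c • a := by
    intro a ha ha0 ha1
    have d1 := finrank_span1 (F := F) u
    have d2 := finrank_sup_span (F ∙ u) a
    obtain ⟨z, hz, hz0, hz1, hz2⟩ := hW.exists_orth (sup_span_le (span1_le hu) ha) (by omega) 0
    obtain ⟨d, hd⟩ := Submodule.mem_span_singleton.1 (h z hz hz1)
    obtain ⟨e, he⟩ := Submodule.mem_span_singleton.1 (h a ha ha1)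
    have e1 := h1 u hu z hz hu1 hz1 hu0 (fun e => hz0 (Submodule.mem_sup_left e))
      (hz2 u (Submodule.mem_sup_left (Submodule.mem_span_singleton_self u))) c d hc.symm hd.symm
    have e2 := h1 a ha z hz ha1 hz1 ha0 (fun e => hz0 (Submodule.mem_sup_right e))
      (hz2 a (mem_sup_span_r _ _)) e d he.symm hd.symm
    rw [← he, e1, e2]
  refine ⟨c, fun w hw => ?_⟩
  obtain ⟨a, ha, d, hd', ha0, hd0, ha1, hd1, rfl⟩ := hW.sum_sing (by omega) hw
  rw [map_add, h2 a ha ha0 ha1, h2 d hd' hd0 hd1, smul_add]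

/-- an additive map that commutes with `EW W` is a scalar on `W` -/
theorem scalar_of_comm (hW : φ.Nd W) (hd : 9 ≤ finrank F W) (T : V →+ V)
    (h : ∀ g ∈ φ.EW W, ∀ x, T (g x) = g (T x)) : ∃ c : F, ∀ w ∈ W, T w = c • w := by
  refine scalar_of_sing hW hd T fun u hu hu1 => ?_
  have h1 : ∀ v ∈ W, v ∉ F ∙ u → φ.b u v = 0 → T u ∈ F ∙ u ⊔ F ∙ v := by
    intro v hv hv0 huv
    obtain ⟨l, hl⟩ := φ.md_surj (φ.Q v)
    have hr : φ.RD u v l := ⟨hu1, huv, hl.symm⟩
    obtain ⟨f, hf, hf'⟩ := exists_fun' hv0 0 (-1)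
    obtain ⟨x, rfl⟩ := φ.riesz f
    have e1 : φ.b u x = 0 := φ.b_symm_zero (hf' u (Submodule.mem_span_singleton_self u))
    have e2 : φ.b v x = -φ.ε := by rw [φ.herm x v, hf]; simp
    have e3 : rho hr x - x = u := by simp [rho_apply, e1, e2]
    rw [← e3, map_sub, h _ (rho_EW hr hu hv), e3]
    exact rho_sub_mem hr (Submodule.mem_sup_left (Submodule.mem_span_singleton_self u))
      (mem_sup_span_r _ _) _
  have d1 := finrank_span1 (F := F) u
  obtain ⟨v, hv, hv0, -, hv2⟩ := hW.exists_orth (span1_le hu) (by omega) 0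
  have d2 := finrank_sup_span (F ∙ u) v
  obtain ⟨w, hw, hw0, -, hw2⟩ := hW.exists_orth (sup_span_le (span1_le hu) hv) (by omega) 0
  have e1 := h1 v hv hv0 (hv2 u (Submodule.mem_span_singleton_self u))
  obtain ⟨y, hy, c, e2⟩ := mem_sup_span.1 (h1 w hw (fun e => hw0 (Submodule.mem_sup_left e))
    (hw2 u (Submodule.mem_sup_left (Submodule.mem_span_singleton_self u))))
  by_cases hc : c = 0
  · rw [e2, hc, zero_smul, add_zero]; exact hy
  · exfalso
    apply hw0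
    rw [e2] at e1
    have := Submodule.smul_mem _ c⁻¹ (Submodule.sub_mem _ e1 (Submodule.mem_sup_left hy))
    simpa [smul_smul, hc] using this

/-- additive subgroups invariant under `EW W` -/
theorem le_of_inv (hW : φ.Nd W) (hd : 9 ≤ finrank F W) (M : AddSubgroup V)
    (h : ∀ g ∈ φ.EW W, ∀ x ∈ M, g x ∈ M) {x : V} (hx : x ∈ M) (hx0 : x ∉ φ.perp W) :
    ∀ w ∈ W, w ∈ M := by
  obtain ⟨y, hy, z, hz, rfl⟩ := hW.decomp x
  have hy0 : y ≠ 0 := by
    rintro rfl
    exact hx0 (by simpa using hz)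
  have d1 := finrank_span1 (F := F) y
  obtain ⟨u, hu, hu0, hu1, hu2⟩ := hW.exists_orth (span1_le hy) (by omega) 0
  have hu00 : u ≠ 0 := fun e => hu0 (e ▸ zero_mem _)
  have hyu : y ∉ F ∙ u := by
    intro e
    obtain ⟨c, rfl⟩ := Submodule.mem_span_singleton.1 e
    have hc : c ≠ 0 := fun e => hy0 (by simp [e])
    exact hu0 (Submodule.mem_span_singleton.2 ⟨c⁻¹, by simp [smul_smul, hc]⟩)
  obtain ⟨f, hf, hf'⟩ := exists_fun' hyu 0 (-φ.ε)
  obtain ⟨v, hv, hv1⟩ := hW.riesz f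
  obtain ⟨l, hl⟩ := φ.md_surj (φ.Q v)
  have hr : φ.RD u v l := ⟨hu1, φ.b_symm_zero (by
    rw [hv1 u hu, hf' u (Submodule.mem_span_singleton_self u)]; rfl), hl.symm⟩
  have e1 : φ.b u (y + z) = 0 := by
    rw [map_add, hz u hu, φ.b_symm_zero (hu2 y (Submodule.mem_span_singleton_self y)), add_zero]
  have e2 : φ.b v (y + z) = -φ.ε := by rw [map_add, hz v hv, hv1 y hy, hf, add_zero]
  have e3 : rho hr (y + z) - (y + z) = u := by
    rw [rho_apply, e1, e2]; simp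
  have huM : u ∈ M := e3 ▸ M.sub_mem (h _ (rho_EW hr hu hv) _ hx) hx
  have h2 : ∀ a ∈ W, a ≠ 0 → φ.Q a = 0 → a ∈ M := fun a ha ha0 ha1 => by
    obtain ⟨g, hg, e⟩ := trans1 hW hd hu ha hu00 ha0 (hu1.trans ha1.symm)
    exact e ▸ h g hg u huM
  intro w hw
  obtain ⟨a, ha, d, hd', ha0, hd0, ha1, hd1, rfl⟩ := hW.sum_sing (by omega) hw
  exact M.add_mem (h2 a ha ha0 ha1) (h2 d hd' hd0 hd1)

/-- a subgroup normalised by `EW W` that contains a nontrivial isometry of small support -/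
theorem EW_le_of_small (hW : φ.Nd W) {S : Submodule F V} (hS : S ≤ W)
    (hd : 2 * finrank F S + 11 ≤ finrank F W) {N : Subgroup (V ≃ₗ[F] V)}
    (hN : ∀ g ∈ φ.EW W, ∀ x ∈ N, g * x * g⁻¹ ∈ N) {k : V ≃ₗ[F] V} (hk : k ∈ N)
    (hkS : k ∈ φ.IW S) (hk1 : k ≠ 1) : φ.EW W ≤ N := by
  obtain ⟨y, hy, hy1⟩ : ∃ y ∈ W, k y ≠ y := by
    by_contra hcon
    push Not at hcon
    apply hk1
    ext x
    obtain ⟨a, ha, c, hc, rfl⟩ := hW.decomp x
    rw [map_add, hcon a ha, hkS.2 c (φ.perp_anti hS hc), one_app]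
  have d1 := finrank_sup_span S y
  obtain ⟨v, hv, hv0, hv1, hv2⟩ := hW.exists_orth (sup_span_le hS hy) (by omega) 0
  obtain ⟨l, hl⟩ := φ.md_surj (φ.Q y)
  have hr : φ.RD v y l := ⟨hv1, φ.b_symm_zero (hv2 y (mem_sup_span_r _ _)), hl.symm⟩
  have hkv : k v = v := hkS.2 v fun x hx => hv2 x (Submodule.mem_sup_left hx)
  have hr' : φ.RD v (k y) l := by simpa [hkv] using hr.map hkS.1
  have h1 : k * (rho hr * k⁻¹ * (rho hr)⁻¹) ∈ N :=
    mul_mem hk (hN _ (rho_EW hr hv hy) _ (inv_mem hk))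
  rw [← mul_assoc, ← mul_assoc, rho_conj hr hkS.1, rho_congr _ hr' hkv rfl rfl, rho_inv,
    rho_mul] at h1
  have hS1 : k y + -y ∈ S := by simpa [sub_eq_add_neg] using IW.sub_mem hkS y
  refine EW_le_of_rho hW (by omega) hN _ hv (hS hS1) (fun e => hv0 (e ▸ zero_mem _)) ?_ h1
  intro e
  obtain ⟨c, hc⟩ := Submodule.mem_span_singleton.1 e
  have hc0 : c ≠ 0 := by
    rintro rfl
    exact hy1 (by rw [zero_smul, eq_comm, add_neg_eq_zero] at hc; exact hc)
  apply hv0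
  have := S.smul_mem c⁻¹ hS1
  rw [← hc, smul_smul, inv_mul_cancel₀ hc0, one_smul] at this
  exact Submodule.mem_sup_left this

/-- **Quasi-simplicity.** A subgroup normalised by `EW W` that contains an isometry which preserves
`W` and is not a scalar on `W` contains `EW W`. -/
theorem EW_le_of_normal (hW : φ.Nd W) (hd : 19 ≤ finrank F W) {N : Subgroup (V ≃ₗ[F] V)}
    (hN : ∀ g ∈ φ.EW W, ∀ x ∈ N, g * x * g⁻¹ ∈ N) {k : V ≃ₗ[F] V} (hk : k ∈ N) (hkI : k ∈ φ.Isom)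
    (hkW : ∀ x ∈ W, k x ∈ W) (hk1 : ¬ ∃ c : F, ∀ w ∈ W, k w = c • w) : φ.EW W ≤ N := by
  obtain ⟨u, hu, hu1, hu2⟩ : ∃ u ∈ W, φ.Q u = 0 ∧ k u ∉ F ∙ u := by
    by_contra hcon
    push Not at hcon
    exact hk1 (scalar_of_sing hW (by omega) k.toLinearMap.toAddMonoidHom hcon)
  have hkW' : ∀ x ∈ W, k⁻¹ x ∈ W := by
    have : W.map k.toLinearMap = W := Submodule.eq_of_le_of_finrank_eq (by
      rintro _ ⟨x, hx, rfl⟩
      exact hkW x hx) (LinearEquiv.finrank_map_eq k W)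
    intro x hx
    rw [← this] at hx
    obtain ⟨y, hy, rfl⟩ := hx
    simpa using hy
  have d1 := finrank_span1 (F := F) u
  have d2 := finrank_sup_span (F ∙ u) (k⁻¹ u)
  obtain ⟨v, hv, hv0, hv1, hv2⟩ := hW.exists_orth (sup_span_le (span1_le hu) (hkW' u hu))
    (by omega) 0
  have hr : φ.RD u v 0 := ⟨hu1, hv2 u (Submodule.mem_sup_left (Submodule.mem_span_singleton_self u)),
    by simpa using hv1⟩
  have h1 : k * (rho hr * k⁻¹ * (rho hr)⁻¹) ∈ N :=
    mul_mem hk (hN _ (rho_EW hr hu hv) _ (inv_mem hk))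
  rw [← mul_assoc, ← mul_assoc, rho_conj hr hkI] at h1
  let S : Submodule F V := ((F ∙ u ⊔ F ∙ v) ⊔ F ∙ k u) ⊔ F ∙ k v
  have d3 := finrank_sup_span (F ∙ u) v
  have d4 := finrank_sup_span (F ∙ u ⊔ F ∙ v) (k u)
  have d5 : finrank F S ≤ _ := finrank_sup_span ((F ∙ u ⊔ F ∙ v) ⊔ F ∙ k u) (k v)
  refine EW_le_of_small hW (S := S) (sup_span_le (sup_span_le (sup_span_le (span1_le hu) hv)
    (hkW u hu)) (hkW v hv)) (by omega) hN h1 (mul_mem (rho_IW _
      (Submodule.mem_sup_left (mem_sup_span_r _ _)) (mem_sup_span_r _ _)) (inv_mem (rho_IW _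
      (Submodule.mem_sup_left (Submodule.mem_sup_left (Submodule.mem_sup_left
        (Submodule.mem_span_singleton_self u))))
      (Submodule.mem_sup_left (Submodule.mem_sup_left (mem_sup_span_r _ _)))))) ?_
  intro e
  rw [mul_inv_eq_one] at e
  obtain ⟨f, hf, hf'⟩ := exists_fun' hu2 0 φ.ε
  obtain ⟨x, rfl⟩ := φ.riesz f
  have e1 : φ.b u x = 0 := φ.b_symm_zero (hf' u (Submodule.mem_span_singleton_self u))
  have e2 : φ.b (k u) x = 1 := by rw [φ.herm x (k u), hf]; simp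
  have e3 := congrArg (fun g : V ≃ₗ[F] V => k⁻¹ (g x - x)) e
  simp only [rho_apply, e1, e2, one_smul, zero_mul, add_zero, zero_smul, add_sub_assoc,
    add_sub_cancel_left, map_sub, map_smul, inv_app, sub_sub, sub_add_cancel_right, map_neg,
    map_add] at e3
  apply hv0
  refine mem_sup_span.2 ⟨(φ.ε * φ.b (k v) x) • u, Submodule.smul_mem _ _
    (Submodule.mem_span_singleton_self u), -(φ.ε * φ.b v x), ?_⟩
  linear_combination (norm := module) e3

end Form

end Vale.Agent.P183CF
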