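import Vale.Agent.P183CF.Eich
import Mathlib.LinearAlgebra.Matrix.SpecialLinearGroup
import Mathlib.LinearAlgebra.Matrix.GeneralLinearGroup.Defs

/-!
Hyperbolic frames, the Witt decomposition, and Levi subgroups.
-/

set_option autoImplicit false
set_option linter.all false

namespace Vale.Agent.P183CF

open Module Matrix

namespace Form

variable {F V : Type*} [Field F] [AddCommGroup V] [Module F V] (φ : Form F V)
  {ι : Type*} [DecidableEq ι]

/-- hyperbolic frames -/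
structure Frame (e f : ι → V) : Prop where
  Qe : ∀ i, φ.Q (e i) = 0
  Qf : ∀ i, φ.Q (f i) = 0
  ee : ∀ i j, φ.b (e i) (e j) = 0
  ff : ∀ i j, φ.b (f i) (f j) = 0
  ef : ∀ i j, φ.b (e i) (f j) = if i = j then 1 else 0

/-- the span of a frame -/
def FS (_φ : Form F V) (e f : ι → V) : Submodule F V :=
  Submodule.span F (Set.range e) ⊔ Submodule.span F (Set.range f)

/-- the coordinates along `e` -/
def ca (f : ι → V) (x : V) : ι → F := fun i => φ.ε * φ.b (f i) x

/-- the coordinates along `f` -/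
def cc (e : ι → V) (x : V) : ι → F := fun i => φ.b (e i) x

variable {φ}

lemma mem_perp_FS {e f : ι → V} {x : V} :
    x ∈ φ.perp (φ.FS e f) ↔ (∀ i, φ.b (e i) x = 0) ∧ ∀ i, φ.b (f i) x = 0 := by
  rw [FS, perp_sup, Submodule.mem_inf, mem_perp_span, mem_perp_span]
  simp

lemma e_mem_FS (e f : ι → V) (i : ι) : e i ∈ φ.FS e f :=
  Submodule.mem_sup_left (Submodule.subset_span ⟨i, rfl⟩)

lemma f_mem_FS (e f : ι → V) (i : ι) : f i ∈ φ.FS e f :=
  Submodule.mem_sup_right (Submodule.subset_span ⟨i, rfl⟩)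

lemma FS_le {e f : ι → V} {W : Submodule F V} (he : ∀ i, e i ∈ W) (hf : ∀ i, f i ∈ W) :
    φ.FS e f ≤ W :=
  sup_le (Submodule.span_le.2 (by rintro _ ⟨i, rfl⟩; exact he i))
    (Submodule.span_le.2 (by rintro _ ⟨i, rfl⟩; exact hf i))

namespace Frame

variable {e f : ι → V} (h : φ.Frame e f)
include h

lemma fe (i j : ι) : φ.b (f i) (e j) = if i = j then φ.ε else 0 := by
  rw [φ.herm, h.ef]
  by_cases hij : i = j
  · simp [hij]
  · simp [hij, Ne.symm hij]

lemma ts_e : φ.TS (Submodule.span F (Set.range e)) :=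
  ts_span (by rintro _ ⟨i, rfl⟩; exact h.Qe i) (by rintro _ ⟨i, rfl⟩ _ ⟨j, rfl⟩; exact h.ee i j)

lemma ts_f : φ.TS (Submodule.span F (Set.range f)) :=
  ts_span (by rintro _ ⟨i, rfl⟩; exact h.Qf i) (by rintro _ ⟨i, rfl⟩ _ ⟨j, rfl⟩; exact h.ff i j)

lemma symm : φ.Frame f fun i => φ.ε • e i where
  Qe := h.Qf
  Qf := fun i => φ.Q_smul_zero (h.Qe i) _
  ee := h.ff
  ff := fun i j => by simp [h.ee]
  ef := fun i j => by
    rw [map_smul, h.fe]
    split_ifs <;> simp

lemma comp {κ : Type*} [DecidableEq κ] (s : κ → ι) (hs : Function.Injective s) :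
    φ.Frame (e ∘ s) (f ∘ s) where
  Qe := fun i => h.Qe _
  Qf := fun i => h.Qf _
  ee := fun i j => h.ee _ _
  ff := fun i j => h.ff _ _
  ef := fun i j => by simp [h.ef, hs.eq_iff]

lemma map {g : V ≃ₗ[F] V} (hg : g ∈ φ.Isom) : φ.Frame (fun i => g (e i)) fun i => g (f i) where
  Qe := fun i => by rw [hg.2, h.Qe]
  Qf := fun i => by rw [hg.2, h.Qf]
  ee := fun i j => by rw [hg.1, h.ee]
  ff := fun i j => by rw [hg.1, h.ff]
  ef := fun i j => by rw [hg.1, h.ef]

variable [Fintype ι]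

lemma ca_e (a : ι → F) : φ.ca f (∑ i, a i • e i) = a := by
  ext j
  simp [ca, h.fe, mul_comm _ φ.ε]

lemma ca_f (a : ι → F) : φ.ca f (∑ i, a i • f i) = 0 := by
  ext j
  simp [ca, h.ff]

lemma cc_e (a : ι → F) : φ.cc e (∑ i, a i • e i) = 0 := by
  ext j
  simp [cc, h.ee]

lemma cc_f (a : ι → F) : φ.cc e (∑ i, a i • f i) = a := by
  ext j
  simp [cc, h.ef]

lemma li_e : LinearIndependent F e := by
  rw [Fintype.linearIndependent_iff]
  intro a ha i
  rw [← h.ca_e a, ha]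
  simp [ca]

lemma li_f : LinearIndependent F f := by
  rw [Fintype.linearIndependent_iff]
  intro a ha i
  rw [← h.cc_f a, ha]
  simp [cc]

lemma rest_mem (x : V) :
    x - (∑ i, φ.ca f x i • e i + ∑ i, φ.cc e x i • f i) ∈ φ.perp (φ.FS e f) := by
  rw [mem_perp_FS]
  refine ⟨fun j => ?_, fun j => ?_⟩
  · simp [h.ee, h.ef, cc]
  · simp [h.fe, h.ff, ca, mul_comm _ φ.ε]

omit h in
lemma comb_mem (a c : ι → F) : ∑ i, a i • e i + ∑ i, c i • f i ∈ φ.FS e f :=
  add_mem (Submodule.sum_mem _ fun i _ => Submodule.smul_mem _ _ (e_mem_FS e f i))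
    (Submodule.sum_mem _ fun i _ => Submodule.smul_mem _ _ (f_mem_FS e f i))

omit h in
lemma mem_FS {x : V} : x ∈ φ.FS e f ↔ ∃ a c : ι → F, x = ∑ i, a i • e i + ∑ i, c i • f i := by
  refine ⟨fun hx => ?_, by rintro ⟨a, c, rfl⟩; exact comb_mem a c⟩
  obtain ⟨y, hy, z, hz, rfl⟩ := Submodule.mem_sup.1 hx
  obtain ⟨a, rfl⟩ := (Submodule.mem_span_range_iff_exists_fun F).1 hy
  obtain ⟨c, rfl⟩ := (Submodule.mem_span_range_iff_exists_fun F).1 hz
  exact ⟨a, c, rfl⟩

lemma nd : φ.Nd (φ.FS e f) := by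
  rw [Nd, eq_bot_iff]
  rintro x ⟨hx, hx'⟩
  obtain ⟨a, c, rfl⟩ := mem_FS.1 hx
  obtain ⟨h1, h2⟩ := mem_perp_FS.1 hx'
  have ha : a = 0 := by
    ext j
    have := h2 j
    simpa [h.fe, h.ff, φ.ε_ne] using this
  have hc : c = 0 := by
    ext j
    have := h1 j
    simpa [h.ee, h.ef] using this
  simp [ha, hc]

lemma finrank_FS : finrank F (φ.FS e f) = 2 * Fintype.card ι := by
  have := FiniteDimensional.span_of_finite F (Set.finite_range e)
  have := FiniteDimensional.span_of_finite F (Set.finite_range f)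
  have h1 := Submodule.finrank_sup_add_finrank_inf_eq (Submodule.span F (Set.range e))
    (Submodule.span F (Set.range f))
  have h2 : Submodule.span F (Set.range e) ⊓ Submodule.span F (Set.range f) = ⊥ := by
    rw [eq_bot_iff]
    rintro x ⟨hx, hx'⟩
    obtain ⟨a, rfl⟩ := (Submodule.mem_span_range_iff_exists_fun F).1 hx
    obtain ⟨c, hc⟩ := (Submodule.mem_span_range_iff_exists_fun F).1 hx'
    have := h.ca_f c
    rw [hc, h.ca_e] at this
    simp [this]
  rw [h2, finrank_bot, finrank_span_eq_card h.li_e, finrank_span_eq_card h.li_f] at h1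
  rw [FS]
  omega

lemma b_comb (a c a' c' : ι → F) :
    φ.b (∑ i, a i • e i + ∑ i, c i • f i) (∑ i, a' i • e i + ∑ i, c' i • f i) =
      (fun i => φ.σ (a i)) ⬝ᵥ c' + φ.ε * ((fun i => φ.σ (c i)) ⬝ᵥ a') := by
  simp [map_sum, LinearMap.sum_apply, h.ee, h.ef, h.fe, h.ff, dotProduct, Finset.mul_sum,
    mul_comm, mul_left_comm, mul_assoc]

lemma Q_comb (a c : ι → F) :
    φ.Q (∑ i, a i • e i + ∑ i, c i • f i) = φ.md ((fun i => φ.σ (a i)) ⬝ᵥ c) := by
  rw [Q_add, h.ts_e.1 _ (Submodule.sum_mem _ fun i _ => Submodule.smul_mem _ _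
    (Submodule.subset_span ⟨i, rfl⟩)), h.ts_f.1 _ (Submodule.sum_mem _ fun i _ =>
      Submodule.smul_mem _ _ (Submodule.subset_span ⟨i, rfl⟩))]
  simp [map_sum, LinearMap.sum_apply, h.ef, dotProduct, mul_comm]

end Frame

section fin

variable [Finite F] [FiniteDimensional F V] {W : Submodule F V}

/-- a basis of a totally singular subspace extends to a hyperbolic frame -/
theorem Nd.exists_frame [Fintype ι] (hW : φ.Nd W) {e : ι → V} (he : ∀ i, e i ∈ W)
    (hli : LinearIndependent F e) (hQ : ∀ i, φ.Q (e i) = 0) (hb : ∀ i j, φ.b (e i) (e j) = 0) :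
    ∃ f : ι → V, (∀ i, f i ∈ W) ∧ φ.Frame e f := by
  have h1 : ∀ j, ∃ y ∈ W, ∀ i, φ.b (e i) y = if i = j then 1 else 0 := by
    intro j
    obtain ⟨g, hg, hg'⟩ := exists_fun' (hli.notMem_span_image (s := {j}ᶜ) (x := j) (by simp)) 0 φ.ε
    obtain ⟨y, hy, hy1⟩ := hW.riesz g
    refine ⟨y, hy, fun i => ?_⟩
    rw [φ.herm, hy1 _ (he i)]
    by_cases hij : i = j
    · simp [hij, hg]
    · rw [hg' _ (Submodule.subset_span ⟨i, by simpa using hij, rfl⟩)]
      simp [hij]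
  choose y hy hy1 using h1
  have hy2 : ∀ i j, φ.b (y j) (e i) = if i = j then φ.ε else 0 := fun i j => by
    rw [φ.herm, hy1]
    split_ifs <;> simp
  letI : LinearOrder ι := LinearOrder.lift' (Fintype.equivFin ι) (Fintype.equivFin ι).injective
  obtain ⟨c, hc1, hc2, hc3⟩ : ∃ c : ι → ι → F, (∀ i j, i < j → c i j = φ.ε * φ.b (y i) (y j)) ∧
      (∀ i j, i < j → c j i = 0) ∧ ∀ j, c j j = φ.ε * φ.q (y j) :=
    ⟨fun i j => if i < j then φ.ε * φ.b (y i) (y j) else if i = j then φ.ε * φ.q (y j) else 0,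
      fun i j h => by simp [h], fun i j h => by simp [h.not_gt, h.ne'], fun j => by simp⟩
  have hts : φ.TS (Submodule.span F (Set.range e)) :=
    ts_span (by rintro _ ⟨i, rfl⟩; exact hQ i) (by rintro _ ⟨i, rfl⟩ _ ⟨j, rfl⟩; exact hb i j)
  have hQf : ∀ j, φ.Q (y j - ∑ k, c k j • e k) = 0 := by
    intro j
    rw [Q_sub, hts.1 _ (Submodule.sum_mem _ fun i _ => Submodule.smul_mem _ _
      (Submodule.subset_span ⟨i, rfl⟩))]
    rw [map_sum]
    simp [hy2, hc3, Q, mul_comm _ φ.ε]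
  have hlt : ∀ i j, i < j → φ.b (y i - ∑ k, c k i • e k) (y j - ∑ k, c k j • e k) = 0 := by
    intro i j hij
    simp [map_sum, LinearMap.sum_apply, hy1, hy2, hb, hc1 i j hij, hc2 i j hij, mul_comm _ φ.ε]
  refine ⟨fun j => y j - ∑ k, c k j • e k, fun j => W.sub_mem (hy j)
    (Submodule.sum_mem _ fun i _ => W.smul_mem _ (he i)), hQ, hQf, hb, fun i j => ?_, fun i j => ?_⟩
  · rcases lt_trichotomy i j with hij | hij | hij
    · exact hlt i j hij
    · subst hij
      exact φ.b_self_zero (hQf i)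
    · exact φ.b_symm_zero (hlt j i hij)
  · simp [map_sum, hy1, hb]

/-- a totally singular subspace has a hyperbolic frame -/
theorem Nd.exists_frame_ts (hW : φ.Nd W) {X : Submodule F V} (hX : φ.TS X) (hXW : X ≤ W) :
    ∃ e f : Fin (finrank F X) → V, φ.Frame e f ∧ Submodule.span F (Set.range e) = X ∧
      ∀ i, f i ∈ W := by
  let B := Module.finBasis F X
  have hli : LinearIndependent F fun i => (B i).1 :=
    B.linearIndependent.map' X.subtype (Submodule.ker_subtype X)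
  obtain ⟨f, hf, h⟩ := hW.exists_frame (e := fun i => (B i).1) (fun i => hXW (B i).2) hli
    (fun i => hX.1 _ (B i).2) (fun i j => hX.b_zero (B i).2 (B j).2)
  refine ⟨_, f, h, ?_, hf⟩
  have := congrArg (Submodule.map X.subtype) B.span_eq
  rwa [Submodule.map_span, ← Set.range_comp, Submodule.map_top, Submodule.range_subtype] at this

/-- **Witt decomposition.** -/
theorem Nd.exists_witt (hW : φ.Nd W) :
    ∃ (m : ℕ) (e f : Fin m → V), φ.Frame e f ∧ φ.FS e f ≤ W ∧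
      (∀ x ∈ W ⊓ φ.perp (φ.FS e f), φ.Q x = 0 → x = 0) ∧ finrank F W ≤ 2 * m + 2 := by
  classical
  have hex : ∃ k, ∃ X ≤ W, φ.TS X ∧ finrank F V ≤ finrank F X + k :=
    ⟨finrank F V, ⊥, bot_le, ⟨by simp, bot_le⟩, by simp⟩
  obtain ⟨X, hXW, hX, hk⟩ := Nat.find_spec hex
  obtain ⟨e, f, h, he, hf⟩ := hW.exists_frame_ts hX hXW
  have hle : φ.FS e f ≤ W := FS_le (fun i => hXW (he.le (Submodule.subset_span ⟨i, rfl⟩))) hf
  have han : ∀ x ∈ W ⊓ φ.perp (φ.FS e f), φ.Q x = 0 → x = 0 := by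
    rintro x ⟨hx, hx'⟩ hQ
    by_contra hne
    have hXF : X ≤ φ.FS e f := he.symm.le.trans le_sup_left
    have h1 : x ∉ X := fun hm => hne (h.nd.eq_zero (hXF hm) (φ.mem_perp'.1 hx'))
    have h2 : φ.TS (X ⊔ F ∙ x) := hX.sup (ts_singleton hQ)
      (φ.le_perp_comm.1 (span1_le (φ.perp_anti hXF hx')))
    have h3 : finrank F X < finrank F (X ⊔ F ∙ x : Submodule F V) :=
      Submodule.finrank_lt_finrank_of_lt (lt_of_le_of_ne le_sup_left fun e =>
        h1 (e.ge (mem_sup_span_r X x)))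
    have h4 := Submodule.finrank_le (X ⊔ F ∙ x)
    exact Nat.find_min hex (m := Nat.find hex - 1) (by omega)
      ⟨_, sup_span_le hXW hx, h2, by omega⟩
  refine ⟨_, e, f, h, hle, han, ?_⟩
  have h1 := h.nd.finrank_inf_perp hle
  rw [h.finrank_FS, Fintype.card_fin] at h1
  by_contra hcon
  obtain ⟨x, hx, hx0, hx1⟩ := φ.exists_sing (W ⊓ φ.perp (φ.FS e f)) (by omega)
  exact hx0 (han x hx hx1)

/-- frames of any size up to the Witt index -/
theorem Nd.exists_frame_of_le (hW : φ.Nd W) {k : ℕ} (hk : 2 * k + 1 ≤ finrank F W) :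
    ∃ e f : Fin k → V, φ.Frame e f ∧ φ.FS e f ≤ W := by
  obtain ⟨m, e, f, h, hle, -, hm⟩ := hW.exists_witt
  have hkm : k ≤ m := by omega
  exact ⟨_, _, h.comp (Fin.castLE hkm) (Fin.castLE_injective hkm),
    FS_le (fun i => hle (e_mem_FS e f _)) fun i => hle (f_mem_FS e f _)⟩

end fin

end Form

end Vale.Agent.P183CF
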