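import Vale.Agent.P183CF.Ring
import Vale.Agent.P183CF.Frame
import Mathlib.LinearAlgebra.Center

/-!
Polarisations `V = X ⊕ Y` and the linear group `GL(X)` as a group of isometries.
-/

set_option autoImplicit false
set_option linter.all false

namespace Vale.Agent.P183CF

open Module

namespace Form

variable {F V : Type*} [Field F] [AddCommGroup V] [Module F V] (φ : Form F V)

/-- `V` is the sum of the totally singular subspaces `X` and `Y` -/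
structure Pol (X Y : Submodule F V) : Prop where
  tx : φ.TS X
  ty : φ.TS Y
  sup : X ⊔ Y = ⊤

/-- the isometries that preserve `X` and `Y` -/
def LV (X Y : Submodule F V) : Subgroup (V ≃ₗ[F] V) where
  carrier := {g | g ∈ φ.Isom ∧ (∀ x, g x ∈ X ↔ x ∈ X) ∧ ∀ y, g y ∈ Y ↔ y ∈ Y}
  one_mem' := ⟨one_mem _, fun _ => Iff.rfl, fun _ => Iff.rfl⟩
  mul_mem' := fun ha hb => ⟨mul_mem ha.1 hb.1, fun x => (ha.2.1 _).trans (hb.2.1 x),
    fun x => (ha.2.2 _).trans (hb.2.2 x)⟩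
  inv_mem' := fun {g} h => ⟨inv_mem h.1, fun x => by rw [← h.2.1, app_inv],
    fun x => by rw [← h.2.2, app_inv]⟩

/-- the group generated by the transvections -/
def EL (X Y : Submodule F V) : Subgroup (V ≃ₗ[F] V) :=
  Subgroup.closure {g | ∃ (u v : V) (h : φ.RD v u 0), u ∈ X ∧ v ∈ Y ∧ g = rho h}

variable {φ} {X Y : Submodule F V}

lemma LV_le : φ.LV X Y ≤ φ.Isom := fun _ h => h.1

lemma LV_symm : φ.LV X Y = φ.LV Y X := by
  ext g
  exact and_congr_right fun _ => and_comm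

lemma LV.mx {g : V ≃ₗ[F] V} (h : g ∈ φ.LV X Y) {x : V} (hx : x ∈ X) : g x ∈ X := (h.2.1 x).2 hx

lemma LV.my {g : V ≃ₗ[F] V} (h : g ∈ φ.LV X Y) {x : V} (hx : x ∈ Y) : g x ∈ Y := (h.2.2 x).2 hx

lemma mem_iff_of_maps [FiniteDimensional F V] {g : V ≃ₗ[F] V} (h : ∀ x ∈ X, g x ∈ X) (x : V) :
    g x ∈ X ↔ x ∈ X := by
  refine ⟨fun hx => ?_, h x⟩
  have : X.map (g : V →ₗ[F] V) = X := Submodule.eq_of_le_of_finrank_eq
    (by rintro _ ⟨y, hy, rfl⟩; exact h y hy) (LinearEquiv.finrank_map_eq g X)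
  rw [← this] at hx
  obtain ⟨y, hy, e⟩ := hx
  rwa [← g.injective e]

lemma mem_LV [FiniteDimensional F V] {g : V ≃ₗ[F] V} (hg : g ∈ φ.Isom) (h1 : ∀ x ∈ X, g x ∈ X)
    (h2 : ∀ x ∈ Y, g x ∈ Y) : g ∈ φ.LV X Y := ⟨hg, mem_iff_of_maps h1, mem_iff_of_maps h2⟩

lemma tv_EL {u v : V} (h : φ.RD v u 0) (hu : u ∈ X) (hv : v ∈ Y) : rho h ∈ φ.EL X Y :=
  Subgroup.subset_closure ⟨u, v, h, hu, hv, rfl⟩

lemma EL_le {N : Subgroup (V ≃ₗ[F] V)}
    (h : ∀ (u v : V) (h : φ.RD v u 0), u ∈ X → v ∈ Y → rho h ∈ N) : φ.EL X Y ≤ N := by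
  refine (Subgroup.closure_le _).2 ?_
  rintro _ ⟨u, v, h', hu, hv, rfl⟩
  exact h u v h' hu hv

lemma EL_le_EW : φ.EL X Y ≤ φ.EW ⊤ := EL_le fun _ _ h _ _ => rho_EW h trivial trivial

lemma tv_apply {u v : V} (h : φ.RD v u 0) (x : V) :
    rho h x = x + φ.b v x • u - (φ.ε * φ.b u x) • v := by simp [rho_apply]

lemma RD.flip {u v : V} (h : φ.RD v u 0) : φ.RD u (-φ.ε • v) 0 :=
  ⟨by simpa using h.val, by simp [h.vu], by simpa using φ.Q_smul_zero h.sing _⟩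

lemma rho_flip {u v : V} (h : φ.RD v u 0) : rho h.flip = rho h := by
  ext x
  simp only [tv_apply, b_smul_left, map_neg, σ_ε, smul_smul, neg_mul, mul_neg, ε_mul_ε', neg_smul,
    LinearMap.neg_apply]
  module

lemma EL_symm : φ.EL X Y = φ.EL Y X := by
  have : ∀ X Y : Submodule F V, φ.EL X Y ≤ φ.EL Y X := fun X Y => EL_le fun u v h hu hv => by
    rw [← rho_flip h]
    exact tv_EL _ (Y.smul_mem _ hv) hu
  exact le_antisymm (this X Y) (this Y X)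

lemma EL.conj {g k : V ≃ₗ[F] V} (hk : k ∈ φ.LV X Y) (h : g ∈ φ.EL X Y) : k * g * k⁻¹ ∈ φ.EL X Y := by
  have : φ.EL X Y ≤ (φ.EL X Y).comap (MulAut.conj k).toMonoidHom := EL_le fun u v h hu hv => by
    show k * rho h * k⁻¹ ∈ φ.EL X Y
    rw [rho_conj h hk.1]
    exact tv_EL _ (LV.mx hk hu) (LV.my hk hv)
  exact this h

namespace Pol

variable (P : φ.Pol X Y)
include P

lemma symm : φ.Pol Y X := ⟨P.ty, P.tx, by rw [sup_comm, P.sup]⟩

lemma decomp (v : V) : ∃ x ∈ X, ∃ y ∈ Y, x + y = v :=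
  Submodule.mem_sup.1 (by rw [P.sup]; trivial)

lemma xx {x x' : V} (hx : x ∈ X) (hx' : x' ∈ X) : φ.b x x' = 0 := P.tx.b_zero hx hx'

lemma yy {x x' : V} (hx : x ∈ Y) (hx' : x' ∈ Y) : φ.b x x' = 0 := P.ty.b_zero hx hx'

lemma eq_zero {x : V} (hx : x ∈ X) (h : ∀ y ∈ Y, φ.b y x = 0) : x = 0 :=
  φ.nondeg x fun v => by
    obtain ⟨a, ha, c, hc, rfl⟩ := P.decomp v
    rw [map_add, P.xx hx ha, φ.b_symm_zero (h c hc), add_zero]

lemma ext_x {x x' : V} (hx : x ∈ X) (hx' : x' ∈ X) (h : ∀ y ∈ Y, φ.b y x = φ.b y x') : x = x' :=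
  sub_eq_zero.1 (P.eq_zero (X.sub_mem hx hx') fun y hy => by rw [map_sub, h y hy, sub_self])

lemma disj {x : V} (hx : x ∈ X) (hy : x ∈ Y) : x = 0 := P.eq_zero hx fun _ h => P.yy h hy

lemma isCompl : IsCompl X Y :=
  ⟨Submodule.disjoint_def.2 fun _ => P.disj, codisjoint_iff.2 P.sup⟩

lemma perp_eq : φ.perp X = X := by
  refine le_antisymm (fun v hv => ?_) P.tx.2
  obtain ⟨a, ha, c, hc, rfl⟩ := P.decomp v
  rw [P.symm.eq_zero hc fun x hx => by simpa [P.xx hx ha] using hv x hx, add_zero]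
  exact ha

lemma Q_comb {x y : V} (hx : x ∈ X) (hy : y ∈ Y) : φ.Q (x + y) = φ.md (φ.b x y) := by
  rw [Q_add, P.tx.1 x hx, P.ty.1 y hy]
  simp

lemma rd {u v : V} (hu : u ∈ X) (hv : v ∈ Y) (h : φ.b v u = 0) : φ.RD v u 0 :=
  ⟨P.ty.1 v hv, h, by simpa using P.tx.1 u hu⟩

lemma tv_x {u v : V} (h : φ.RD v u 0) (hu : u ∈ X) {x : V} (hx : x ∈ X) :
    rho h x = x + φ.b v x • u := by simp [tv_apply, P.xx hu hx]

lemma tv_y {u v : V} (h : φ.RD v u 0) (hv : v ∈ Y) {y : V} (hy : y ∈ Y) :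
    rho h y = y - (φ.ε * φ.b u y) • v := by simp [tv_apply, P.yy hv hy]

lemma tv_LV {u v : V} (h : φ.RD v u 0) (hu : u ∈ X) (hv : v ∈ Y) : rho h ∈ φ.LV X Y := by
  have h1 : ∀ {u l} (h : φ.RD v u l), u ∈ X → φ.σ l = 0 → (∀ x ∈ X, rho h x ∈ X) ∧
      ∀ y ∈ Y, rho h y ∈ Y := by
    intro u l h hu hl
    obtain rfl : l = 0 := by simpa using hl
    exact ⟨fun x hx => by rw [P.tv_x h hu hx]; exact X.add_mem hx (X.smul_mem _ hu),
      fun y hy => by rw [P.tv_y h hv hy]; exact Y.sub_mem hy (Y.smul_mem _ hv)⟩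
  have h2 := h1 h hu (by simp)
  have h3 := h1 h.neg (X.neg_mem hu) (by simp)
  rw [← rho_inv h] at h3
  exact ⟨rho_isom h, fun x => ⟨fun e => by simpa using h3.1 _ e, h2.1 x⟩,
    fun x => ⟨fun e => by simpa using h3.2 _ e, h2.2 x⟩⟩

lemma EL_le_LV : φ.EL X Y ≤ φ.LV X Y := EL_le fun _ _ h hu hv => P.tv_LV h hu hv

/-- elements of `LV` are determined by their action on `X` -/
lemma ext {g k : V ≃ₗ[F] V} (hg : g ∈ φ.LV X Y) (hk : k ∈ φ.LV X Y) (h : ∀ x ∈ X, g x = k x) :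
    g = k := by
  ext v
  obtain ⟨a, ha, c, hc, rfl⟩ := P.decomp v
  rw [map_add, map_add, h a ha, P.symm.ext_x (LV.my hg hc) (LV.my hk hc) fun x hx => ?_]
  have e := h _ (LV.mx (inv_mem hk) hx)
  rw [app_inv] at e
  rw [Isom.b_right hk.1]
  conv_lhs => rw [← e, hg.1.1]

/-- a linear map that preserves `X`, `Y` and the pairing is an isometry -/
lemma isom {g : V ≃ₗ[F] V} (h1 : ∀ x ∈ X, g x ∈ X) (h2 : ∀ x ∈ Y, g x ∈ Y)
    (h : ∀ x ∈ X, ∀ y ∈ Y, φ.b (g x) (g y) = φ.b x y) : g ∈ φ.Isom := by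
  refine ⟨fun v w => ?_, fun v => ?_⟩
  · obtain ⟨a, ha, c, hc, rfl⟩ := P.decomp v
    obtain ⟨a', ha', c', hc', rfl⟩ := P.decomp w
    simp only [map_add, LinearMap.add_apply, P.xx ha ha', P.yy hc hc', P.xx (h1 a ha) (h1 a' ha'),
      P.yy (h2 c hc) (h2 c' hc'), h a ha c' hc', φ.herm (g a') (g c), φ.herm a' c, h a' ha' c hc]
  · obtain ⟨a, ha, c, hc, rfl⟩ := P.decomp v
    rw [map_add, P.Q_comb (h1 a ha) (h2 c hc), P.Q_comb ha hc, h a ha c hc]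

variable [Finite F] [FiniteDimensional F V]

lemma riesz (f : Dual F V) : ∃ y ∈ Y, ∀ x ∈ X, φ.b y x = f x := by
  obtain ⟨v, rfl⟩ := φ.riesz f
  obtain ⟨a, ha, c, hc, rfl⟩ := P.decomp v
  exact ⟨c, hc, fun x hx => by simp [P.xx ha hx]⟩

lemma two_mul : 2 * finrank F X = finrank F V := by
  have := φ.finrank_perp X
  rw [P.perp_eq] at this
  omega

lemma finrank_eq : finrank F Y = finrank F X := by
  have := P.two_mul
  have := P.symm.two_mul
  omega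

lemma exists_dual {U : Submodule F V} {x : V} (hx : x ∈ X) (hU : U ≤ X) (h : x ∉ U) :
    ∃ w ∈ Y, φ.b w x = 1 ∧ ∀ u ∈ U, φ.b w u = 0 := by
  obtain ⟨f, h1, h2⟩ := exists_fun h
  obtain ⟨w, hw, e⟩ := P.riesz f
  exact ⟨w, hw, by rw [e x hx, h1], fun u hu => by rw [e u (hU hu), h2 u hu]⟩

lemma exists_dual1 {x : V} (hx : x ∈ X) (h : x ≠ 0) : ∃ w ∈ Y, φ.b w x = 1 := by
  obtain ⟨w, hw, e, -⟩ := P.exists_dual (U := ⊥) hx bot_le (by simpa using h)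
  exact ⟨w, hw, e⟩

lemma exists_dual2 {x z : V} (hx : x ∈ X) (hz : z ∈ X) (h : x ∉ F ∙ z) :
    ∃ w ∈ Y, φ.b w x = 1 ∧ φ.b w z = 0 := by
  obtain ⟨w, hw, e, e'⟩ := P.exists_dual hx (span1_le hz) h
  exact ⟨w, hw, e, e' z (Submodule.mem_span_singleton_self z)⟩

omit P in
/-- a vector of `X` orthogonal to `U` and outside `W` -/
lemma exists_orth (X U W : Submodule F V) (h : finrank F U + finrank F W < finrank F X) :
    ∃ x ∈ X, x ∉ W ∧ ∀ u ∈ U, φ.b u x = 0 := by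
  have h1 := φ.finrank_inf_perp X U
  by_contra hn
  push Not at hn
  have : X ⊓ φ.perp U ≤ W := fun x hx => by
    by_contra hW
    obtain ⟨u, hu, e⟩ := hn x hx.1 hW
    exact e (hx.2 u hu)
  have := Submodule.finrank_mono this
  omega

lemma spread1 (hd : 3 ≤ finrank F X) {R : V → V → Prop}
    (hl : ∀ u u' v, R u v → R u' v → R (u - u') v)
    (hg : ∀ g ∈ φ.EL X Y, ∀ u v, R u v → R (g u) (g v)) {d w : V} (hdX : d ∈ X) (hw : w ∈ Y)
    (hd0 : d ≠ 0) (h : R d w) {u : V} (hu : u ∈ X) (huw : φ.b w u = 0) : R u w := by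
  have h1 : ∀ u ∈ X, φ.b w u = 0 → d ∉ F ∙ u → R u w := by
    intro u hu huw hdu
    obtain ⟨v, hv, e1, e2⟩ := P.exists_dual2 hdX hu hdu
    have h2 := hg _ (tv_EL (P.rd hu hv e2) hu hv) _ _ h
    rw [P.tv_x _ hu hdX, P.tv_y _ hv hw, e1, φ.b_symm_zero huw, mul_zero, zero_smul, sub_zero] at h2
    simpa using hl _ _ _ h2 h
  by_cases hdu : d ∈ F ∙ u
  · have d1 := finrank_span1 (F := F) w
    have d2 := finrank_span1 (F := F) u
    obtain ⟨z, hz, hz0, hz1⟩ := exists_orth (φ := φ) X (F ∙ w) (F ∙ u) (by omega)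
    have hz2 := hz1 w (Submodule.mem_span_singleton_self w)
    have h3 : ∀ y ∈ F ∙ u, d ∉ F ∙ (z + y) := fun y hy e => by
      obtain ⟨c, rfl⟩ := Submodule.mem_span_singleton.1 e
      have hc : c ≠ 0 := by
        rintro rfl
        simp at hd0
      apply hz0
      simpa using Submodule.sub_mem _ (((F ∙ u).smul_mem_iff hc).1 hdu) hy
    have e1 := h1 _ (X.add_mem hz hu) (by simp [hz2, huw]) (h3 u (Submodule.mem_span_singleton_self u))
    simpa using hl _ _ _ e1 (h1 z hz hz2 (by simpa using h3 0 (zero_mem _)))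
  · exact h1 u hu huw hdu

/-- a relation that is additive in both arguments and invariant holds for all orthogonal pairs -/
theorem spread (hd : 3 ≤ finrank F X) {R : V → V → Prop}
    (hl : ∀ u u' v, R u v → R u' v → R (u - u') v) (hr : ∀ u v v', R u v → R u v' → R u (v - v'))
    (hg : ∀ g ∈ φ.EL X Y, ∀ u v, R u v → R (g u) (g v)) {d w : V} (hdX : d ∈ X) (hw : w ∈ Y)
    (hd0 : d ≠ 0) (hw0 : w ≠ 0) (h : R d w) {u v : V} (hu : u ∈ X) (hv : v ∈ Y)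
    (huv : φ.b v u = 0) : R u v := by
  have d1 := finrank_span1 (F := F) w
  have d2 := finrank_sup_span (F ∙ w) v
  obtain ⟨z, hz, hz0, hz1⟩ := exists_orth (φ := φ) X (F ∙ w ⊔ F ∙ v) ⊥ (by rw [finrank_bot]; omega)
  have hz0' : z ≠ 0 := by simpa using hz0
  have e1 := hz1 w (Submodule.mem_sup_left (Submodule.mem_span_singleton_self w))
  have e2 := hz1 v (mem_sup_span_r _ _)
  have h1 := P.spread1 hd hl hg hdX hw hd0 h hz e1
  have h2 : R z v := P.symm.spread1 (R := fun a c => R c a) (by rwa [P.finrank_eq])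
    (fun a a' c => hr c a a') (fun g hg' a c => hg g (by rwa [EL_symm]) c a) hw hz hw0 h1 hv
    (φ.b_symm_zero e2)
  exact P.spread1 hd hl hg hz hv hz0' h2 hu huv

theorem EL_le_of_tv (hd : 3 ≤ finrank F X) {N : Subgroup (V ≃ₗ[F] V)}
    (hN : ∀ g ∈ φ.EL X Y, ∀ x ∈ N, g * x * g⁻¹ ∈ N) {u v : V} (h : φ.RD v u 0) (hu : u ∈ X)
    (hv : v ∈ Y) (hu0 : u ≠ 0) (hv0 : v ≠ 0) (hm : rho h ∈ N) : φ.EL X Y ≤ N := by
  refine EL_le fun u' v' h' hu' hv' => ?_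
  have := P.spread hd (R := fun u v => u ∈ X ∧ v ∈ Y ∧ ∃ h : φ.RD v u 0, rho h ∈ N) ?_ ?_ ?_ hu hv
    hu0 hv0 ⟨hu, hv, h, hm⟩ hu' hv' h'.orth
  · exact this.2.2.2
  · rintro a a' c ⟨ha, hc, h1, e1⟩ ⟨ha', -, h2, e2⟩
    refine ⟨X.sub_mem ha ha', hc, P.rd (X.sub_mem ha ha') hc (by simp [h1.orth, h2.orth]), ?_⟩
    have := mul_mem e1 (inv_mem e2)
    rw [rho_inv, rho_mul] at this
    convert this using 1
    exact rho_congr _ _ rfl (sub_eq_add_neg _ _) (by simp [P.xx ha ha'])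
  · rintro a c c' ⟨ha, hc, h1, e1⟩ ⟨-, hc', h2, e2⟩
    have h3 := P.rd ha (Y.sub_mem hc hc') (by simp [h1.orth, h2.orth])
    refine ⟨ha, Y.sub_mem hc hc', h3, ?_⟩
    have := mul_mem e1 (inv_mem e2)
    rw [← rho_flip h1, ← rho_flip h2, rho_inv, rho_mul] at this
    rw [← rho_flip h3]
    convert this using 1
    exact rho_congr _ _ rfl (by rw [smul_sub, sub_eq_add_neg]) (by simp [P.yy hc hc'])
  · rintro g hg a c ⟨ha, hc, h1, e1⟩
    have hg' := P.EL_le_LV hg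
    exact ⟨LV.mx hg' ha, LV.my hg' hc, h1.map hg'.1, by rw [← rho_conj h1 hg'.1]; exact hN g hg _ e1⟩

omit [Finite F] [FiniteDimensional F V] in
lemma tv_comm {k : V ≃ₗ[F] V} (hk : k ∈ φ.LV X Y) {u v : V} (h : φ.RD v u 0) (hu : u ∈ X)
    (e : k v = v) : ∃ h' : φ.RD v (k u - u) 0, rho h' = k * rho h * k⁻¹ * (rho h)⁻¹ := by
  have h1 : φ.RD v (k u) 0 := by simpa [e] using h.map hk.1
  have h2 := h1.add h.neg
  refine ⟨by simpa [P.xx (LV.mx hk hu) hu, sub_eq_add_neg] using h2, ?_⟩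
  rw [rho_conj h hk.1, rho_congr _ h1 e rfl rfl, rho_inv, rho_mul]
  exact rho_congr _ _ rfl (sub_eq_add_neg _ _) (by simp [P.xx (LV.mx hk hu) hu])

theorem EL_perfect (hd : 3 ≤ finrank F X) : ⁅φ.EL X Y, φ.EL X Y⁆ = φ.EL X Y := by
  refine le_antisymm (Subgroup.commutator_le.2 fun a ha c hc =>
    mul_mem (mul_mem (mul_mem ha hc) (inv_mem ha)) (inv_mem hc)) ?_
  obtain ⟨v, hv, hv0, -⟩ := exists_orth (φ := φ) Y ⊥ ⊥ (by rw [finrank_bot, P.finrank_eq]; omega)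
  have d1 := finrank_span1 (F := F) v
  obtain ⟨z, hz, hz0, hz1⟩ := exists_orth (φ := φ) X (F ∙ v) ⊥ (by rw [finrank_bot]; omega)
  have d2 := finrank_span1 (F := F) z
  obtain ⟨u, hu, hu0, hu1⟩ := exists_orth (φ := φ) X (F ∙ v) (F ∙ z) (by omega)
  obtain ⟨w, hw, e1, e2⟩ := P.exists_dual2 hu hz hu0
  have e3 := hz1 v (Submodule.mem_span_singleton_self v)
  have h1 := P.rd hz hw e2
  have h2 := P.rd hu hv (hu1 v (Submodule.mem_span_singleton_self v))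
  obtain ⟨h3, e4⟩ := P.tv_comm (P.tv_LV h1 hz hw) h2 hu (by
    rw [P.tv_y h1 hw hv, φ.b_symm_zero e3]; simp)
  have e5 : rho h1 u - u = z := by rw [P.tv_x h1 hz hu, e1]; simp
  refine P.EL_le_of_tv hd (fun g hg x hx => ?_) h3 (by rwa [e5]) hv (by simpa [e5] using hz0)
    (by simpa using hv0) (e4 ▸ Subgroup.commutator_mem_commutator (tv_EL h1 hz hw) (tv_EL h2 hu hv))
  have : ⁅φ.EL X Y, φ.EL X Y⁆ ≤ ⁅φ.EL X Y, φ.EL X Y⁆.comap (MulAut.conj g).toMonoidHom := by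
    rw [← Subgroup.map_le_iff_le_comap, Subgroup.map_commutator]
    have : (φ.EL X Y).map (MulAut.conj g).toMonoidHom ≤ φ.EL X Y := by
      rintro _ ⟨y, hy, rfl⟩
      exact EL.conj (P.EL_le_LV hg) hy
    exact Subgroup.commutator_mono this this
  exact this hx

omit P [Finite F] [FiniteDimensional F V] in
lemma scalar_of_all {T : V →ₗ[F] V} (h : ∀ x ∈ X, T x ∈ F ∙ x) : ∃ c : F, ∀ x ∈ X, T x = c • x := by
  obtain ⟨c, hc⟩ := LinearMap.exists_eq_smul_id_of_forall_notLinearIndependent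
    (f := T.restrict (p := X) (q := X) fun x hx => span1_le hx (h x hx)) fun x => by
      obtain ⟨c, hc⟩ := Submodule.mem_span_singleton.1 (h x.1 x.2)
      rw [LinearIndependent.pair_iff]
      intro e
      exact one_ne_zero (e (-c) 1 (Subtype.ext (by simp [← hc]))).2
  exact ⟨c, fun x hx => congrArg (fun f : X →ₗ[F] X => (f ⟨x, hx⟩).1) hc⟩

/-- **Normal subgroups of linear groups.** -/
theorem EL_le_of_normal (hd : 4 ≤ finrank F X) {N : Subgroup (V ≃ₗ[F] V)}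
    (hN : ∀ g ∈ φ.EL X Y, ∀ x ∈ N, g * x * g⁻¹ ∈ N) {k : V ≃ₗ[F] V} (hk : k ∈ N)
    (hkL : k ∈ φ.LV X Y) (hk1 : ¬ ∃ c : F, ∀ x ∈ X, k x = c • x) : φ.EL X Y ≤ N := by
  obtain ⟨x, hx, hx1⟩ : ∃ x ∈ X, k x ∉ F ∙ x := by
    by_contra hn
    push Not at hn
    exact hk1 (scalar_of_all (T := k.toLinearMap) hn)
  have d1 := finrank_span1 (F := F) x
  obtain ⟨v, hv, hv0, hv1⟩ := exists_orth (φ := φ) Y (F ∙ x) ⊥
    (by rw [finrank_bot, P.finrank_eq]; omega)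
  have h1 := P.rd hx hv (φ.b_symm_zero (hv1 x (Submodule.mem_span_singleton_self x)))
  let m := rho h1 * (k * (rho h1)⁻¹ * k⁻¹)
  have hmN : m ∈ N := by
    have := mul_mem (hN _ (tv_EL h1 hx hv) k hk) (inv_mem hk)
    simpa [m, mul_assoc] using this
  have hmL : m ∈ φ.LV X Y := mul_mem (P.tv_LV h1 hx hv)
    (mul_mem (mul_mem hkL (inv_mem (P.tv_LV h1 hx hv))) (inv_mem hkL))
  have hm : ∀ t ∈ X, m t = t + (φ.b v t - φ.b (k v) t * φ.b v (k x)) • x - φ.b (k v) t • k x := by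
    intro t ht
    have hkx := LV.mx hkL hx
    simp only [m, rho_inv, rho_conj _ hkL.1, LinearEquiv.mul_apply, rho_apply, map_add, map_sub,
      map_smul, map_neg, LinearMap.neg_apply, P.xx hx ht, P.xx hkx ht, P.xx hx hkx, map_zero,
      smul_eq_mul]
    module
  obtain ⟨z, hz, hz1⟩ : ∃ z ∈ X, m z ≠ z := by
    obtain ⟨y, hy, e⟩ := P.symm.exists_dual1 (LV.my hkL hv) (by simpa using hv0)
    refine ⟨y, hy, fun e1 => hx1 ?_⟩
    have e2 : φ.b (k v) y ≠ 0 := fun e2 => by simp [φ.b_symm_zero e2] at e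
    rw [hm y hy, add_sub_assoc, add_eq_left, sub_eq_zero] at e1
    rw [← Submodule.smul_mem_iff _ e2, ← e1]
    exact Submodule.smul_mem _ _ (Submodule.mem_span_singleton_self x)
  have d2 := finrank_sup_span (F ∙ x) (k x)
  have d3 := finrank_sup_span (F ∙ x ⊔ F ∙ k x) z
  obtain ⟨w, hw, hw0, hw1⟩ := exists_orth (φ := φ) Y ((F ∙ x ⊔ F ∙ k x) ⊔ F ∙ z) ⊥
    (by rw [finrank_bot, P.finrank_eq]; omega)
  have e1 := φ.b_symm_zero (hw1 x (Submodule.mem_sup_left (Submodule.mem_sup_left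
    (Submodule.mem_span_singleton_self x))))
  have e2 := φ.b_symm_zero (hw1 _ (Submodule.mem_sup_left (mem_sup_span_r _ _)))
  have h2 := P.rd hz hw (φ.b_symm_zero (hw1 z (mem_sup_span_r _ _)))
  have e3 : m w = w := by
    have : m⁻¹ w = w := P.symm.ext_x (LV.my (inv_mem hmL) hw) hw fun t ht => by
      rw [← Isom.b_left hmL.1, φ.herm, φ.herm w t, hm t ht]
      simp [e1, e2]
    simpa using inv_fix this
  obtain ⟨h3, e4⟩ := P.tv_comm hmL h2 hz e3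
  refine P.EL_le_of_tv (by omega) hN h3 (X.sub_mem (LV.mx hmL hz) hz) hw (sub_ne_zero.2 hz1)
    (by simpa using hw0) ?_
  have := mul_mem hmN (hN _ (tv_EL h2 hz hw) _ (inv_mem hmN))
  rw [e4]
  simpa [mul_assoc] using this

end Pol

end Form

end Vale.Agent.P183CF
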