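import Vale.Agent.P183CF.Real

/-!
Existence of the form over a field of scalars.
-/

set_option autoImplicit false
set_option linter.all false

namespace Vale.Agent.P183NK

open Subgroup Vale.Agent.P183A Vale.Agent.P183CF Module

lemma tau_rep {p : ℕ} [Fact p.Prime] {F : Type} [Field F] [Finite F] [CharP F p]
    {τ : F →+ ZMod p} (hτ : τ ≠ 0) (l : F →+ ZMod p) : ∃ t, ∀ c, τ (c * t) = l c := by
  letI := ZMod.algebra F p
  have : Module.Finite (ZMod p) F := Module.Finite.of_finite
  have : Finite (Dual (ZMod p) F) := Module.finite_of_finite (ZMod p)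
  let Φ : F → Dual (ZMod p) F := fun t => (τ.comp (AddMonoidHom.mulRight t)).toZModLinearMap p
  have hinj : Function.Injective Φ := fun s t e =>
    tau_ext hτ fun c => congrArg (fun f : Dual (ZMod p) F => f c) e
  have hc : Nat.card F = Nat.card (Dual (ZMod p) F) := by
    rw [Module.natCard_eq_pow_finrank (K := ZMod p),
      Module.natCard_eq_pow_finrank (K := ZMod p) (V := Dual (ZMod p) F), Subspace.dual_finrank_eq]
  obtain ⟨t, ht⟩ := ((Nat.bijective_iff_injective_and_card Φ).2 ⟨hinj, hc⟩).2 (l.toZModLinearMap p)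
  exact ⟨t, fun c => congrArg (fun f : Dual (ZMod p) F => f c) ht⟩

namespace FS

variable {p : ℕ} [Fact p.Prime] {V : Type} [AddCommGroup V] [Module (ZMod p) V] {S : FS p V}
  {F : Type} [Field F] [Module F V]

section pre

variable [Finite F] [Nontrivial V] (σ : F ≃+* F)
  (hσ : ∀ (c : F) x y, S.β (c • x) y = S.β x (σ c • y))
include hσ

omit [Finite F] in
lemma pre_σσ (c : F) : σ (σ c) = c := by
  obtain ⟨v, hv⟩ := exists_ne (0 : V)
  have : σ (σ c) • v = c • v := S.ext_right fun x => by
    rw [← hσ, S.β_comm, ← hσ, S.β_comm, ← mul_assoc, ε_mul_ε, one_mul]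
  rw [← sub_eq_zero, ← sub_smul, smul_eq_zero] at this
  exact sub_eq_zero.1 (this.resolve_right hv)

omit [Finite F] hσ in
lemma pre_charP (S : FS p V) : CharP F p := by
  refine (CharP.charP_iff_prime_eq_zero Fact.out).2 ((S.sc F).injective ?_)
  rw [map_natCast, map_zero]
  ext v
  simp [← Nat.cast_smul_eq_nsmul (ZMod p)]

omit [Finite F] [Nontrivial V] hσ in
lemma pre_theta (h2 : ∀ c, σ (σ c) = c) (hs : ∃ x, σ x ≠ x) : ∃ θ : F, θ + σ θ = 1 := by
  obtain ⟨x, hx⟩ := hs
  have h1 : x - σ x ≠ 0 := sub_ne_zero.2 hx.symm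
  have h3 : σ x - x ≠ 0 := sub_ne_zero.2 hx
  refine ⟨x / (x - σ x), ?_⟩
  rw [map_div₀, map_sub, h2]
  field_simp
  ring

omit [Finite F] in
lemma pre_tau : ∃ τ : F →+ ZMod p, τ ≠ 0 ∧ ∀ c, τ (σ c) = τ c := by
  obtain ⟨v, hv⟩ := exists_ne (0 : V)
  obtain ⟨w, hw⟩ : ∃ w, S.β v w ≠ 0 := by
    by_contra hn
    push Not at hn
    exact hv (S.nondeg v hn)
  let τ0 : F →+ ZMod p := AddMonoidHom.mk' (fun c => S.β v (c • w)) fun a b => by simp [add_smul]
  have h1 : τ0 1 ≠ 0 := by simpa [τ0] using hw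
  by_cases hs : ∃ x, σ x ≠ x
  · obtain ⟨θ, hθ⟩ := pre_theta σ (pre_σσ σ hσ) hs
    refine ⟨AddMonoidHom.mk' (fun c => τ0 (c + σ c)) fun a b => by
      rw [map_add σ, ← map_add τ0, add_add_add_comm], fun e => h1 ?_, fun c => ?_⟩
    · rw [← hθ]
      exact congrArg (fun f : F →+ ZMod p => f θ) e
    · show τ0 (σ c + σ (σ c)) = τ0 (c + σ c)
      rw [pre_σσ σ hσ, add_comm]
  · push Not at hs
    exact ⟨τ0, fun e => h1 (by rw [e]; rfl), fun c => by rw [hs]⟩

lemma pre_b {τ : F →+ ZMod p} (hτ : τ ≠ 0) :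
    ∃ b : V →+ V →ₗ[F] F, (∀ x y, S.β x y = τ (b x y)) ∧ ∀ (c : F) x y, b (c • x) y = σ c * b x y := by
  have := pre_charP (F := F) S
  choose b hb using fun x y : V => tau_rep hτ
    (AddMonoidHom.mk' (fun c : F => S.β x (c • y)) fun a b => by simp [add_smul])
  have hb' : ∀ x y c, τ (c * b x y) = S.β x (c • y) := hb
  let b1 : V → V →ₗ[F] F := fun x =>
    { toFun := b x
      map_add' := fun y z => tau_ext hτ fun c => by simp [mul_add, hb']
      map_smul' := fun d y => tau_ext hτ fun c => by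
        rw [hb', smul_smul, ← hb', mul_assoc]
        rfl }
  refine ⟨AddMonoidHom.mk' b1 fun x x' => LinearMap.ext fun y => tau_ext hτ fun c => ?_,
    fun x y => ?_, fun d x y => tau_ext hτ fun c => ?_⟩
  · show τ (c * b (x + x') y) = τ (c * (b x y + b x' y))
    simp [mul_add, hb']
  · show _ = τ (b x y)
    simpa using (hb' x y 1).symm
  · show τ (c * b (d • x) y) = τ (c * (σ d * b x y))
    rw [hb', hσ, smul_smul, ← hb', mul_left_comm, mul_assoc]

end pre

theorem exists_form [Finite F] [Nontrivial V] {K : S.NR}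
    (hK : ∀ x : S.E, x ∈ K ↔ ∃ c : F, ∀ v, x v = c • v) (σ : F ≃+* F)
    (hσ : ∀ (c : F) x y, S.β (c • x) y = S.β x (σ c • y))
    (hc : ∀ ω : F, ω * σ ω = 1 → ∀ v, S.q (ω • v) = S.q v) :
    ∃ (φ : Form F V) (τ : F →+ ZMod p), φ.σ = σ ∧ S.Real K φ τ := by
  classical
  haveI hch : CharP F p := pre_charP (F := F) S
  have h2 := pre_σσ σ hσ
  obtain ⟨τ, hτ, hτσ⟩ := pre_tau σ hσ
  obtain ⟨b, hb, hbs⟩ := pre_b σ hσ hτ
  have hb' : ∀ (c : F) x y, S.β x (c • y) = τ (c * b x y) := fun c x y => by rw [hb]; simp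
  have hnd : ∀ x, (∀ y, b x y = 0) → x = 0 := fun x e => S.nondeg x fun y => by
    rw [hb, e, map_zero]
  let ε : F := if S.orth then 1 else -1
  have hε : ε = 1 ∨ ε = -1 := by by_cases ho : S.orth <;> simp [ε, ho]
  have hετ : ∀ t, τ (ε * t) = S.ε * τ t := fun t => by
    by_cases ho : S.orth <;> simp [ε, FS.ε, ho]
  have hσε : σ ε = ε := by rcases hε with e | e <;> simp [e]
  have hεε : ε * ε = 1 := by rcases hε with e | e <;> simp [e]
  have herm : ∀ x y, b y x = ε * σ (b x y) := fun x y => tau_ext hτ fun c => by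
    rw [← hb', S.β_comm, hσ, hb', mul_left_comm, hετ, ← hτσ (c * _), map_mul σ, h2]
  by_cases hs : ∃ x, σ x ≠ x
  · obtain ⟨θ, hθ⟩ := pre_theta σ h2 hs
    let Λ : AddSubgroup F :=
      { carrier := {t | t + ε * σ t = 0}
        add_mem' := fun {s t} hs ht => by
          simp only [Set.mem_setOf_eq, map_add] at hs ht ⊢
          linear_combination hs + ht
        zero_mem' := by simp
        neg_mem' := fun {s} hs => by
          simp only [Set.mem_setOf_eq, map_neg] at hs ⊢
          linear_combination -hs }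
    have hΛ : ∀ t, t ∈ Λ ↔ t + ε * σ t = 0 := fun t => Iff.rfl
    have hσθ : σ θ = 1 - θ := by rw [← hθ]; ring
    refine ⟨⟨σ, ε, Λ, b, fun x => θ * b x x, h2, hε, hbs, herm, fun x y => ?_, fun c x => ?_,
      fun x => ?_, fun t => ?_, fun t ht => ht, fun c t ht => ?_, hnd⟩, τ, rfl, hK, hb, hτσ, hτ,
      fun ho => ⟨if_pos ho, fun v => ?_, fun t ht => ?_⟩, fun ho => ⟨if_neg ho, fun t ht => ht⟩⟩
    · have e : θ * b (x + y) (x + y) - (θ * b x x + θ * b y y + b x y) =
          θ * (ε * σ (b x y)) - (1 - θ) * b x y := by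
        simp only [map_add, LinearMap.add_apply, herm x y]
        ring
      rw [hΛ, e]
      simp only [map_sub, map_mul, map_one, hσθ, hσε, h2]
      linear_combination ((1 - θ) * b x y) * hεε
    · rw [hΛ, hbs, map_smul, smul_eq_mul, show θ * (σ c * (c * b x x)) - σ c * c * (θ * b x x) = 0
        by ring]
      simp
    · rw [map_mul, hσθ, mul_left_comm, ← herm]
      ring
    · rw [hΛ, map_sub, map_mul, hσε, h2]
      linear_combination (-t) * hεε
    · rw [hΛ] at ht ⊢
      simp only [map_mul, h2]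
      linear_combination (σ c * c) * ht
    · have he : ε = 1 := if_pos ho
      obtain ⟨x, hx⟩ := hs
      have hx0 : x ≠ 0 := by
        rintro rfl
        simp at hx
      have hx1 : σ x ≠ 0 := by simpa using hx0
      have hω : x / σ x * σ (x / σ x) = 1 := by
        rw [map_div₀, h2]
        field_simp
      have hω1 : x / σ x - 1 ≠ 0 := by
        rw [sub_ne_zero, Ne, div_eq_one_iff_eq hx1]
        exact hx.symm
      let l := qdiff S.q (fun v => τ (θ * b v v)) (fun x y => S.β x y) (S.q_add ho) fun x y => by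
        rw [hb, ← map_add, ← map_add, ← sub_eq_zero, ← map_sub]
        have e : θ * b (x + y) (x + y) - (θ * b x x + θ * b y y + b x y) =
            σ (σ θ * b x y) - σ θ * b x y := by
          simp only [map_add, LinearMap.add_apply, herm x y, he, map_mul, h2]
          rw [hσθ]
          ring
        rw [e, map_sub, hτσ, sub_self]
      have hl : ∀ v, l ((x / σ x) • v) = l v := fun v => by
        show S.q _ - τ _ = S.q _ - τ _
        rw [hc _ hω, hbs, map_smul, smul_eq_mul, ← mul_assoc (σ _), mul_comm (σ _), hω, one_mul]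
      have : l v = 0 := by
        have e := hl ((x / σ x - 1)⁻¹ • v)
        rwa [← sub_eq_zero, ← map_sub, smul_smul, ← sub_smul, ← sub_one_mul, mul_inv_cancel₀ hω1,
          one_smul] at e
      exact sub_eq_zero.1 this
    · have he : ε = 1 := if_pos ho
      have ht' : t + σ t = 0 := by simpa [he] using (hΛ t).1 ht
      have e : t = θ * t + σ (θ * σ t) := by
        rw [map_mul, h2, hσθ]
        ring
      rw [e, map_add, hτσ, ← map_add, ← mul_add, ht', mul_zero, map_zero]
  push Not at hs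
  have hsq : ∀ (c : F) x, S.β (c • x) (c • x) = τ (c * c * b x x) := fun c x => by
    rw [hσ, hs, smul_smul, hb']
  by_cases ho : S.orth
  swap
  · have he : ε = -1 := if_neg ho
    refine ⟨⟨σ, ε, ⊤, b, fun x => 0, h2, hε, hbs, herm, fun _ _ => trivial, fun _ _ => trivial,
      fun x => ?_, fun _ => trivial, fun t _ => by rw [he, hs]; ring, fun _ _ _ => trivial, hnd⟩, τ,
      rfl, hK, hb, hτσ, hτ, fun h => absurd h ho, fun _ => ⟨he, fun _ _ => trivial⟩⟩
    rw [map_zero, mul_zero, add_zero]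
    exact tau_sq hτ fun c => by rw [← hsq, (S.alt ho _).2]
  have he : ε = 1 := if_pos ho
  have hQ : ∀ x, ∃ t, ∀ c : F, τ (c * c * t) = S.q (c • x) := by
    intro x
    by_cases h0 : (2 : F) = 0
    · have hp : p = 2 := CharP.eq F hch ((CharP.charP_iff_prime_eq_zero Nat.prime_two).2 h0)
      have h0' : (2 : ZMod p) = 0 := by
        subst hp
        exact ZMod.natCast_self 2
      choose r hr using FiniteField.isSquare_of_char_two (F := F) ((ringChar.eq F p).trans hp)
      have hu : ∀ c d : F, c * c = d * d → c = d := fun c d e => by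
        have : (c - d) * (c - d) = 0 := by linear_combination e + (d * d - c * d) * h0
        exact sub_eq_zero.1 (mul_self_eq_zero.1 this)
      obtain ⟨t, ht⟩ := tau_rep hτ (AddMonoidHom.mk' (fun c : F => S.q (r c • x)) fun c d => by
        have e : r (c + d) = r c + r d := hu _ _ (by
          rw [← hr]
          linear_combination hr c + hr d - (r c * r d) * h0)
        have e2 : S.β (r c • x) (r d • x) = 0 := by
          rw [hσ, hs, smul_smul, hr (r c * r d), hb', ← hsq, S.β_self ho, h0', zero_mul]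
        show S.q (r (c + d) • x) = S.q (r c • x) + S.q (r d • x)
        rw [e, add_smul, S.q_add' e2])
      exact ⟨t, fun c => by rw [ht]; exact congrArg (fun d => S.q (d • x)) (hu _ _ (hr _).symm)⟩
    · have h0' : (2 : ZMod p) ≠ 0 := fun e => h0 (by
        have : ((2 : ℕ) : ZMod p) = 0 := e
        exact (CharP.cast_eq_zero_iff F p 2).2 ((ZMod.natCast_eq_zero_iff 2 p).1 this))
      refine ⟨b x x / 2, fun c => mul_left_cancel₀ h0' ?_⟩
      rw [← S.β_self ho, hsq, two_mul, ← map_add]
      congr 1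
      field_simp
      ring
  choose Q hQ using hQ
  have hadd : ∀ x y, Q (x + y) = Q x + Q y + b x y := fun x y => tau_sq_ext hτ fun c => by
    rw [hQ, smul_add, S.q_add ho, mul_add, mul_add, map_add, map_add, hQ, hQ, hσ, hs, smul_smul, hb']
  have hsm : ∀ (d : F) x, Q (d • x) = d * d * Q x := fun d x => tau_sq_ext hτ fun c => by
    rw [hQ, smul_smul, ← hQ]
    congr 1
    ring
  refine ⟨⟨σ, ε, ⊥, b, Q, h2, hε, hbs, herm, fun x y => by simp [hadd], fun c x => by simp [hsm, hs],
    fun x => ?_, fun t => by simp [he, hs], fun t ht => ?_, fun c t ht => ?_, hnd⟩, τ, rfl, hK, hb,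
    hτσ, hτ, fun _ => ⟨he, fun v => by simpa using (hQ v 1).symm, fun t ht => ?_⟩,
    fun h => absurd ho h⟩
  · have e1 := hadd x x
    have e2 := hsm 2 x
    rw [two_smul] at e2
    rw [he, hs]
    linear_combination e2 - e1
  all_goals
    rw [AddSubgroup.mem_bot.1 ht]
    simp

/-- **Realisation.** A field of scalars comes from a form over a finite field. -/
theorem exists_real [Finite V] {K : S.NR} (h : S.Scal K 1) (hf : S.IsFld K 1) :
    ∃ (F : Type) (_ : Field F) (_ : Finite F) (_ : Module F V) (φ : Form F V) (τ : F →+ ZMod p),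
      S.Real K φ τ := by
  have := h.toLoc.nontrivial
  let R : Subring S.E := K.toSubring h.mem
  have hR : IsField R := ⟨⟨0, 1, fun e => h.ne (congrArg Subtype.val e).symm⟩,
    fun x y => Subtype.ext (h.comm _ x.2 _ y.2), fun {x} hx => by
      obtain ⟨y, hy, e⟩ := hf x.1 x.2 fun e => hx (Subtype.ext e)
      exact ⟨⟨y, hy⟩, Subtype.ext e⟩⟩
  letI : Field R := hR.toField
  letI : Module R V := Module.compHom V R.subtype
  let σ : R ≃+* R :=
    { toFun := fun x => ⟨S.st x.1, h.star _ x.2⟩
      invFun := fun x => ⟨S.st x.1, h.star _ x.2⟩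
      left_inv := fun x => Subtype.ext (S.st_st _)
      right_inv := fun x => Subtype.ext (S.st_st _)
      map_mul' := fun x y => Subtype.ext ((S.st_mul _ _).trans
        (h.comm _ (h.star _ y.2) _ (h.star _ x.2)))
      map_add' := fun x y => Subtype.ext (S.st_add _ _) }
  obtain ⟨φ, τ, -, hφ⟩ := exists_form (S := S) (F := R) (K := K)
    (fun x => ⟨fun hx => ⟨⟨x, hx⟩, fun _ => rfl⟩, fun ⟨c, hc⟩ => by
      rw [show x = c.1 from LinearMap.ext hc]; exact c.2⟩) σ (fun c x y => S.st_spec c.1 x y)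
    fun ω hω v => h.compat _ ω.2 1 h.mem ((congrArg Subtype.val hω).trans (by simp)) v
  exact ⟨R, inferInstance, inferInstance, inferInstance, φ, τ, hφ⟩

end FS

end Vale.Agent.P183NK
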