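import Mathlib.LinearAlgebra.Dual.Lemmas
import Mathlib.LinearAlgebra.FiniteDimensional.Lemmas
import Mathlib.FieldTheory.Finiteness
import Mathlib.GroupTheory.QuotientGroup.Basic
import Mathlib.Tactic.LinearCombination

/-!
Alternating, quadratic and hermitian forms, in one structure (a form with a form parameter).
-/

set_option autoImplicit false
set_option linter.all false

namespace Vale.Agent.P183CF

open Module

/-- A nondegenerate form with a form parameter `Λ`: `b` is `σ`-sesquilinear and `ε`-hermitian, `q` is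
a pseudo-quadratic form with values modulo `Λ`. Symplectic: `σ = 1`, `ε = -1`, `Λ = F`; orthogonal:
`σ = 1`, `ε = 1`, `Λ = 0`; unitary: `σ ≠ 1`. -/
structure Form (F V : Type*) [Field F] [AddCommGroup V] [Module F V] where
  σ : F ≃+* F
  ε : F
  Λ : AddSubgroup F
  b : V →+ V →ₗ[F] F
  q : V → F
  σσ : ∀ x, σ (σ x) = x
  εε : ε = 1 ∨ ε = -1
  smul_left : ∀ (c : F) (x y : V), b (c • x) y = σ c * b x y
  herm : ∀ x y, b y x = ε * σ (b x y)
  q_add : ∀ x y, q (x + y) - (q x + q y + b x y) ∈ Λ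
  q_smul : ∀ (c : F) (x : V), q (c • x) - σ c * c * q x ∈ Λ
  b_self : ∀ x, b x x = q x + ε * σ (q x)
  Λ_min : ∀ t, t - ε * σ t ∈ Λ
  Λ_max : ∀ t ∈ Λ, t + ε * σ t = 0
  Λ_smul : ∀ (c : F), ∀ t ∈ Λ, σ c * c * t ∈ Λ
  nondeg : ∀ x, (∀ y, b x y = 0) → x = 0

namespace Form

variable {F V : Type*} [Field F] [AddCommGroup V] [Module F V] (φ : Form F V)

@[simp] lemma σσ' (x : F) : φ.σ (φ.σ x) = x := φ.σσ x

@[simp] lemma ε_mul_ε : φ.ε * φ.ε = 1 := by rcases φ.εε with h | h <;> simp [h]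

@[simp] lemma ε_mul_ε' (x : F) : φ.ε * (φ.ε * x) = x := by rw [← mul_assoc, ε_mul_ε, one_mul]

@[simp] lemma σ_ε : φ.σ φ.ε = φ.ε := by rcases φ.εε with h | h <;> simp [h]

lemma ε_ne : φ.ε ≠ 0 := by rcases φ.εε with h | h <;> simp [h]

@[simp] lemma b_smul_left (c : F) (x y : V) : φ.b (c • x) y = φ.σ c * φ.b x y := φ.smul_left c x y

lemma b_smul_right (c : F) (x y : V) : φ.b x (c • y) = c * φ.b x y := by simp

lemma b_eq_zero_comm {x y : V} : φ.b x y = 0 ↔ φ.b y x = 0 := by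
  rw [φ.herm x y]
  simp [φ.ε_ne]

lemma b_symm_zero {x y : V} (h : φ.b x y = 0) : φ.b y x = 0 := φ.b_eq_zero_comm.1 h

/-- the projection modulo the form parameter -/
def md : F →+ F ⧸ φ.Λ := QuotientAddGroup.mk' φ.Λ

lemma md_eq_iff {s t : F} : φ.md s = φ.md t ↔ s - t ∈ φ.Λ := QuotientAddGroup.eq_iff_sub_mem

lemma md_eq_zero {s : F} : φ.md s = 0 ↔ s ∈ φ.Λ := QuotientAddGroup.eq_zero_iff s

lemma md_surj (t : F ⧸ φ.Λ) : ∃ s, φ.md s = t := QuotientAddGroup.mk'_surjective φ.Λ t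

lemma md_bar (t : F) : φ.md (φ.ε * φ.σ t) = φ.md t := (φ.md_eq_iff.2 (φ.Λ_min t)).symm

lemma md_norm {s t : F} (h : φ.md s = φ.md t) (c : F) :
    φ.md (φ.σ c * c * s) = φ.md (φ.σ c * c * t) := by
  rw [md_eq_iff] at h ⊢
  rw [← mul_sub]
  exact φ.Λ_smul c _ h

/-- the pseudo-quadratic form -/
def Q (x : V) : F ⧸ φ.Λ := φ.md (φ.q x)

lemma md_b_comm (x y : V) : φ.md (φ.b y x) = φ.md (φ.b x y) := by rw [φ.herm x y, md_bar]

lemma Q_add (x y : V) : φ.Q (x + y) = φ.Q x + φ.Q y + φ.md (φ.b x y) := by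
  simp only [Q, ← map_add]
  exact φ.md_eq_iff.2 (φ.q_add x y)

lemma Q_smul' {x : V} {t : F} (h : φ.Q x = φ.md t) (c : F) :
    φ.Q (c • x) = φ.md (φ.σ c * c * t) :=
  (φ.md_eq_iff.2 (φ.q_smul c x)).trans (φ.md_norm h c)

lemma Q_smul (c : F) (x : V) : φ.Q (c • x) = φ.md (φ.σ c * c * φ.q x) := φ.Q_smul' rfl c

@[simp] lemma Q_zero : φ.Q 0 = 0 := by simpa using φ.Q_smul 0 0

@[simp] lemma Q_neg (x : V) : φ.Q (-x) = φ.Q x := by simpa [Q] using φ.Q_smul (-1) x

lemma Q_sub (x y : V) : φ.Q (x - y) = φ.Q x + φ.Q y - φ.md (φ.b x y) := by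
  rw [sub_eq_add_neg, Q_add, Q_neg, map_neg, map_neg, sub_eq_add_neg]

lemma Q_smul_congr {x y : V} (h : φ.Q x = φ.Q y) (c : F) : φ.Q (c • x) = φ.Q (c • y) := by
  rw [φ.Q_smul' (t := φ.q y) h c, Q_smul]

lemma Q_smul_zero {x : V} (h : φ.Q x = 0) (c : F) : φ.Q (c • x) = 0 := by
  simpa using φ.Q_smul_congr (h.trans φ.Q_zero.symm) c

lemma b_self' {x : V} {t : F} (h : φ.Q x = φ.md t) : φ.b x x = t + φ.ε * φ.σ t := by
  have h1 := φ.Λ_max _ (φ.md_eq_iff.1 h)
  rw [map_sub] at h1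
  rw [φ.b_self]
  linear_combination h1

lemma b_self_zero {x : V} (h : φ.Q x = 0) : φ.b x x = 0 := by
  simpa using φ.b_self' (t := 0) (by simpa using h)

lemma b_self_congr {x y : V} (h : φ.Q x = φ.Q y) : φ.b x x = φ.b y y := by
  rw [φ.b_self' (t := φ.q y) h, φ.b_self y]

/-- the orthogonal complement -/
def perp (W : Submodule F V) : Submodule F V where
  carrier := {y | ∀ x ∈ W, φ.b x y = 0}
  zero_mem' := fun x _ => by simp
  add_mem' := fun ha hb x hx => by simp [ha x hx, hb x hx]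
  smul_mem' := fun c y hy x hx => by simp [hy x hx]

lemma mem_perp {W : Submodule F V} {y : V} : y ∈ φ.perp W ↔ ∀ x ∈ W, φ.b x y = 0 := Iff.rfl

lemma mem_perp' {W : Submodule F V} {y : V} : y ∈ φ.perp W ↔ ∀ x ∈ W, φ.b y x = 0 :=
  forall₂_congr fun _ _ => φ.b_eq_zero_comm

lemma perp_anti {U W : Submodule F V} (h : U ≤ W) : φ.perp W ≤ φ.perp U :=
  fun _ hy x hx => hy x (h hx)

lemma le_perp_comm {U W : Submodule F V} : U ≤ φ.perp W ↔ W ≤ φ.perp U :=
  ⟨fun h _ hy x hx => φ.b_symm_zero (h hx _ hy), fun h _ hy x hx => φ.b_symm_zero (h hx _ hy)⟩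

lemma le_perp_perp (W : Submodule F V) : W ≤ φ.perp (φ.perp W) := φ.le_perp_comm.1 le_rfl

@[simp] lemma perp_bot : φ.perp ⊥ = ⊤ := eq_top_iff.2 fun y _ x hx => by
  rw [Submodule.mem_bot] at hx
  simp [hx]

@[simp] lemma perp_top : φ.perp ⊤ = ⊥ := eq_bot_iff.2 fun y hy =>
  φ.nondeg y fun x => φ.b_symm_zero (hy x trivial)

lemma perp_sup (U W : Submodule F V) : φ.perp (U ⊔ W) = φ.perp U ⊓ φ.perp W := by
  refine le_antisymm (le_inf (φ.perp_anti le_sup_left) (φ.perp_anti le_sup_right)) ?_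
  rw [le_perp_comm]
  exact sup_le (φ.le_perp_comm.1 inf_le_left) (φ.le_perp_comm.1 inf_le_right)

lemma mem_perp_span {S : Set V} {y : V} : y ∈ φ.perp (Submodule.span F S) ↔ ∀ x ∈ S, φ.b x y = 0 := by
  refine ⟨fun h x hx => h x (Submodule.subset_span hx), fun h x hx => ?_⟩
  induction hx using Submodule.span_induction with
  | mem x hx => exact h x hx
  | zero => simp
  | add x z _ _ hx hz => simp [hx, hz]
  | smul c x _ hx => simp [hx]

lemma mem_perp_singleton {x y : V} : y ∈ φ.perp (F ∙ x) ↔ φ.b x y = 0 := by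
  rw [mem_perp_span]; simp

lemma b_inj : Function.Injective φ.b := by
  rw [injective_iff_map_eq_zero]
  intro x hx
  exact φ.nondeg x fun y => by simp [hx]

section fin

variable [Finite F] [FiniteDimensional F V]

include F in
lemma finite_V : Finite V := Module.finite_of_finite F

lemma card_sub (W : Submodule F V) : Nat.card W = Nat.card F ^ finrank F W :=
  Module.natCard_eq_pow_finrank

/-- every linear functional is represented by a vector -/
lemma riesz (f : Dual F V) : ∃ x, φ.b x = f := by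
  have := finite_V (F := F) (V := V)
  have : Finite (Dual F V) := Module.finite_of_finite F
  have hc : Nat.card V = Nat.card (Dual F V) := by
    rw [Module.natCard_eq_pow_finrank (K := F), Module.natCard_eq_pow_finrank (K := F) (V := Dual F V),
      Subspace.dual_finrank_eq]
  exact ((Nat.bijective_iff_injective_and_card φ.b).2 ⟨φ.b_inj, hc⟩).2 f

lemma finrank_perp (W : Submodule F V) : finrank F W + finrank F (φ.perp W) = finrank F V := by
  rw [← Subspace.finrank_add_finrank_dualAnnihilator_eq W]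
  congr 1
  have hq : 1 < Nat.card F := Finite.one_lt_card
  apply Nat.pow_right_injective hq
  show Nat.card F ^ _ = Nat.card F ^ _
  rw [← card_sub, ← card_sub]
  refine Nat.card_congr (Equiv.ofBijective (fun y => ⟨φ.b y.1, ?_⟩) ⟨?_, ?_⟩)
  · rw [Submodule.mem_dualAnnihilator]
    exact φ.mem_perp'.1 y.2
  · intro y z h
    exact Subtype.ext (φ.b_inj (congrArg Subtype.val h))
  · rintro ⟨f, hf⟩
    obtain ⟨x, rfl⟩ := φ.riesz f
    rw [Submodule.mem_dualAnnihilator] at hf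
    exact ⟨⟨x, φ.mem_perp'.2 hf⟩, rfl⟩

@[simp] lemma perp_perp (W : Submodule F V) : φ.perp (φ.perp W) = W := by
  symm
  apply Submodule.eq_of_le_of_finrank_eq (φ.le_perp_perp W)
  have h1 := φ.finrank_perp W
  have h2 := φ.finrank_perp (φ.perp W)
  omega

lemma perp_inj : Function.Injective φ.perp := fun U W h => by
  rw [← φ.perp_perp U, h, perp_perp]

lemma perp_le_perp {U W : Submodule F V} : φ.perp W ≤ φ.perp U ↔ U ≤ W :=
  ⟨fun h => by simpa using φ.perp_anti h, φ.perp_anti⟩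

lemma perp_inf (U W : Submodule F V) : φ.perp (U ⊓ W) = φ.perp U ⊔ φ.perp W := by
  apply φ.perp_inj
  rw [perp_sup, perp_perp, perp_perp, perp_perp]

lemma perp_eq_bot {W : Submodule F V} : φ.perp W = ⊥ ↔ W = ⊤ := by
  rw [← φ.perp_top]; exact φ.perp_inj.eq_iff

lemma perp_eq_top {W : Submodule F V} : φ.perp W = ⊤ ↔ W = ⊥ := by
  rw [← φ.perp_bot]; exact φ.perp_inj.eq_iff

/-- the codimension of `X ⊓ U^⊥` in `X` is at most the dimension of `U` -/
lemma finrank_inf_perp (X U : Submodule F V) :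
    finrank F X ≤ finrank F (X ⊓ φ.perp U : Submodule F V) + finrank F U := by
  have h1 := Submodule.finrank_sup_add_finrank_inf_eq X (φ.perp U)
  have h2 := φ.finrank_perp U
  have h3 := Submodule.finrank_le (X ⊔ φ.perp U)
  omega

end fin

/-- nondegenerate subspaces -/
def Nd (W : Submodule F V) : Prop := W ⊓ φ.perp W = ⊥

/-- totally singular subspaces -/
def TS (W : Submodule F V) : Prop := (∀ x ∈ W, φ.Q x = 0) ∧ W ≤ φ.perp W

lemma nd_top : φ.Nd ⊤ := by simp [Nd]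

lemma nd_bot : φ.Nd ⊥ := by simp [Nd]

variable {φ}

lemma Nd.eq_zero {W : Submodule F V} (h : φ.Nd W) {x : V} (hx : x ∈ W)
    (h0 : ∀ y ∈ W, φ.b x y = 0) : x = 0 := by
  have : x ∈ W ⊓ φ.perp W := ⟨hx, φ.mem_perp'.2 h0⟩
  rwa [h, Submodule.mem_bot] at this

lemma TS.mono {U W : Submodule F V} (h : φ.TS W) (hU : U ≤ W) : φ.TS U :=
  ⟨fun x hx => h.1 x (hU hx), hU.trans (h.2.trans (φ.perp_anti hU))⟩

lemma TS.b_zero {W : Submodule F V} (h : φ.TS W) {x y : V} (hx : x ∈ W) (hy : y ∈ W) :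
    φ.b x y = 0 := h.2 hy x hx

lemma ts_span {S : Set V} (h1 : ∀ x ∈ S, φ.Q x = 0) (h2 : ∀ x ∈ S, ∀ y ∈ S, φ.b x y = 0) :
    φ.TS (Submodule.span F S) := by
  have h3 : Submodule.span F S ≤ φ.perp (Submodule.span F S) :=
    Submodule.span_le.2 fun y hy => φ.mem_perp_span.2 fun x hx => h2 x hx y hy
  refine ⟨fun x hx => ?_, h3⟩
  induction hx using Submodule.span_induction with
  | mem x hx => exact h1 x hx
  | zero => simp
  | add x z hx' hz' hx hz => rw [Q_add, hx, hz, h3 hz' x hx']; simp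
  | smul c x _ hx => exact φ.Q_smul_zero hx c

lemma ts_singleton {x : V} (h : φ.Q x = 0) : φ.TS (F ∙ x) :=
  ts_span (by simpa using h) (by simpa using φ.b_self_zero h)

lemma TS.sup {U W : Submodule F V} (hU : φ.TS U) (hW : φ.TS W) (h : U ≤ φ.perp W) :
    φ.TS (U ⊔ W) := by
  refine ⟨fun x hx => ?_, ?_⟩
  · obtain ⟨y, hy, z, hz, rfl⟩ := Submodule.mem_sup.1 hx
    rw [Q_add, hU.1 y hy, hW.1 z hz, φ.b_symm_zero (h hy z hz)]
    simp
  · rw [perp_sup]
    exact sup_le (le_inf hU.2 h) (le_inf (φ.le_perp_comm.1 h) hW.2)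

section fin

variable [Finite F] [FiniteDimensional F V]

lemma Nd.isCompl {W : Submodule F V} (h : φ.Nd W) : IsCompl W (φ.perp W) := by
  refine ⟨disjoint_iff.2 h, codisjoint_iff.2 ?_⟩
  apply Submodule.eq_top_of_finrank_eq
  have h1 := Submodule.finrank_sup_add_finrank_inf_eq W (φ.perp W)
  have h2 := φ.finrank_perp W
  rw [h, finrank_bot] at h1
  omega

lemma Nd.perp {W : Submodule F V} (h : φ.Nd W) : φ.Nd (φ.perp W) := by
  rw [Nd, perp_perp, inf_comm]; exact h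

lemma Nd.decomp {W : Submodule F V} (h : φ.Nd W) (x : V) :
    ∃ y ∈ W, ∃ z ∈ φ.perp W, y + z = x :=
  Submodule.mem_sup.1 (by rw [h.isCompl.sup_eq_top]; trivial)

/-- representation of functionals inside a nondegenerate subspace -/
lemma Nd.riesz {W : Submodule F V} (h : φ.Nd W) (f : Dual F V) :
    ∃ x ∈ W, ∀ y ∈ W, φ.b x y = f y := by
  obtain ⟨x, rfl⟩ := φ.riesz f
  obtain ⟨y, hy, z, hz, rfl⟩ := h.decomp x
  exact ⟨y, hy, fun w hw => by simp [φ.mem_perp'.1 hz w hw]⟩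

/-- the complement of a nondegenerate subspace in a nondegenerate subspace -/
lemma Nd.inf_perp {U W : Submodule F V} (hW : φ.Nd W) (hU : φ.Nd U) (h : U ≤ W) :
    φ.Nd (W ⊓ φ.perp U) := by
  rw [Nd, eq_bot_iff]
  rintro x ⟨⟨hx1, hx2⟩, hx3⟩
  refine hW.eq_zero hx1 fun y hy => ?_
  obtain ⟨a, ha, c, hc, rfl⟩ := hU.decomp y
  have hcW : c ∈ W := by simpa using W.sub_mem hy (h ha)
  simp [φ.mem_perp'.1 hx2 a ha, φ.mem_perp'.1 hx3 c ⟨hcW, hc⟩]

lemma Nd.finrank_inf_perp {U W : Submodule F V} (hU : φ.Nd U) (h : U ≤ W) :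
    finrank F (W ⊓ φ.perp U : Submodule F V) + finrank F U = finrank F W := by
  have h1 := Submodule.finrank_sup_add_finrank_inf_eq (W ⊓ φ.perp U) U
  have h2 : W ⊓ φ.perp U ⊔ U = W := by
    rw [sup_comm, inf_comm, ← sup_inf_assoc_of_le _ h, hU.isCompl.sup_eq_top, top_inf_eq]
  have h3 : W ⊓ φ.perp U ⊓ U = ⊥ := by
    rw [inf_assoc, inf_comm (φ.perp U), hU, inf_bot_eq]
  rw [h2, h3, finrank_bot] at h1
  omega

/-- the radical of `W ⊓ U^⊥` is small -/
lemma Nd.finrank_rad {U W : Submodule F V} (hW : φ.Nd W) (h : U ≤ W) :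
    W ⊓ φ.perp (W ⊓ φ.perp U) = U := by
  rw [perp_inf, perp_perp, sup_comm, inf_comm, sup_inf_assoc_of_le _ h, inf_comm (φ.perp W), hW,
    sup_bot_eq]

lemma TS.two_mul_le {W : Submodule F V} (h : φ.TS W) : 2 * finrank F W ≤ finrank F V := by
  have h1 := φ.finrank_perp W
  have h2 := Submodule.finrank_mono h.2
  omega

end fin

end Form

end Vale.Agent.P183CF
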