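import Vale.Agent.P183CF.CB1
import Vale.Agent.P183CF.Form

/-!
Basic facts on form spaces, part 2: orthogonal complements, idempotents, invariant functionals.
-/

set_option autoImplicit false
set_option linter.all false

namespace Vale.Agent.P183NK

open Subgroup Vale.Agent.P183A

namespace FS

variable {p : ℕ} [Fact p.Prime] {V : Type} [AddCommGroup V] [Module (ZMod p) V] (S : FS p V)

open Classical in
/-- a form space as a form over the prime field -/
noncomputable def form0 : P183CF.Form (ZMod p) V where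
  σ := RingEquiv.refl _
  ε := S.ε
  Λ := if S.orth then ⊥ else ⊤
  b := S.β.toAddMonoidHom
  q := S.q
  σσ := fun _ => rfl
  εε := S.ε_cases
  smul_left := fun c x y => by simp
  herm := fun x y => S.β_comm x y
  q_add := fun x y => by
    split_ifs with h
    · simp [S.q_add h]
    · trivial
  q_smul := fun c x => by simp [S.q_smul]
  b_self := fun x => by
    by_cases h : S.orth
    · simp [ε, h, S.β_self h, two_mul]
    · simp [(S.alt h x).1, (S.alt h x).2]
  Λ_min := fun t => by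
    by_cases h : S.orth <;> simp [ε, h]
  Λ_max := fun t ht => by
    by_cases h : S.orth
    · simp only [h, if_true, AddSubgroup.mem_bot] at ht
      simp [ht]
    · simp [ε, h]
  Λ_smul := fun c t ht => by
    by_cases h : S.orth
    · simp only [h, if_true, AddSubgroup.mem_bot] at ht ⊢
      simp [ht]
    · simp [h]
  nondeg := S.nondeg

/-- the orthogonal complement -/
def perp (U : AddSubgroup V) : AddSubgroup V where
  carrier := {y | ∀ x ∈ U, S.β x y = 0}
  zero_mem' := fun x _ => by simp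
  add_mem' := fun ha hb x hx => by simp [ha x hx, hb x hx]
  neg_mem' := fun hy x hx => by simp [hy x hx]

variable {S}

lemma mem_perp {U : AddSubgroup V} {y : V} : y ∈ S.perp U ↔ ∀ x ∈ U, S.β x y = 0 := Iff.rfl

lemma mem_perp' {U : AddSubgroup V} {y : V} : y ∈ S.perp U ↔ ∀ x ∈ U, S.β y x = 0 :=
  forall₂_congr fun _ _ => S.β_zero_comm

lemma perp_anti {U W : AddSubgroup V} (h : U ≤ W) : S.perp W ≤ S.perp U :=
  fun _ hy x hx => hy x (h hx)

lemma le_perp_comm {U W : AddSubgroup V} : U ≤ S.perp W ↔ W ≤ S.perp U :=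
  ⟨fun h _ hy x hx => S.β_symm_zero (h hx _ hy), fun h _ hy x hx => S.β_symm_zero (h hx _ hy)⟩

@[simp] lemma perp_bot : S.perp ⊥ = ⊤ := eq_top_iff.2 fun y _ x hx => by
  rw [AddSubgroup.mem_bot] at hx
  simp [hx]

@[simp] lemma perp_top : S.perp ⊤ = ⊥ := eq_bot_iff.2 fun y hy => S.nondeg' y fun x => hy x trivial

lemma perp_sup (U W : AddSubgroup V) : S.perp (U ⊔ W) = S.perp U ⊓ S.perp W := by
  refine le_antisymm (le_inf (perp_anti le_sup_left) (perp_anti le_sup_right)) ?_
  rw [le_perp_comm]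
  exact sup_le (le_perp_comm.1 inf_le_left) (le_perp_comm.1 inf_le_right)

lemma perp_eq (U : AddSubgroup V) :
    S.perp U = (S.form0.perp (AddSubgroup.toZModSubmodule p U)).toAddSubgroup := rfl

lemma perp_inv {U : AddSubgroup V} {a : S.E} (h : ∀ x ∈ U, S.st a x ∈ U) {y : V}
    (hy : y ∈ S.perp U) : a y ∈ S.perp U := fun x hx => by
  rw [S.st_spec']
  exact hy _ (h x hx)

lemma zsmul_mem' {U : AddSubgroup V} (c : ZMod p) {x : V} (hx : x ∈ U) : c • x ∈ U :=
  (AddSubgroup.toZModSubmodule p U).smul_mem c hx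

/-- the image of an endomorphism as an additive subgroup -/
def im (S : FS p V) (a : S.E) : AddSubgroup V := (LinearMap.range a).toAddSubgroup

/-- the kernel of an endomorphism as an additive subgroup -/
def ke (S : FS p V) (a : S.E) : AddSubgroup V := (LinearMap.ker a).toAddSubgroup

lemma mem_im {a : S.E} {v : V} : v ∈ S.im a ↔ ∃ w, a w = v := Iff.rfl

lemma mem_ke {a : S.E} {v : V} : v ∈ S.ke a ↔ a v = 0 := Iff.rfl

lemma perp_im (a : S.E) : S.perp (S.im a) = S.ke (S.st a) := by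
  ext y
  constructor
  · intro h
    exact S.nondeg' _ fun x => by rw [← S.st_spec]; exact h _ ⟨x, rfl⟩
  · rintro h _ ⟨x, rfl⟩
    rw [S.st_spec, show S.st a y = 0 from h, map_zero]

lemma mem_range_idem {e : Module.End (ZMod p) V} (he : e * e = e) {v : V} : v ∈ LinearMap.range e ↔ e v = v := by
  refine ⟨?_, fun h => ⟨v, h⟩⟩
  rintro ⟨w, rfl⟩
  rw [← Module.End.mul_apply, he]

lemma idem_app {e : Module.End (ZMod p) V} (he : e * e = e) (v : V) : e (e v) = e v := by
  rw [← Module.End.mul_apply, he]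

lemma β_idem {e : S.E} (hs : S.st e = e) (x y : V) : S.β (e x) y = S.β x (e y) := by
  rw [S.st_spec, hs]

lemma β_idem_orth {e : S.E} (hs : S.st e = e) {x y : V} (hx : e x = x) (hy : e y = 0) :
    S.β x y = 0 := by rw [← hx, β_idem hs, hy, map_zero]

lemma q_idem {e : S.E} (hs : S.st e = e) (he : e * e = e) (v : V) :
    S.q v = S.q (e v) + S.q (v - e v) := by
  rw [← S.q_add' (β_idem_orth hs (idem_app he v) (by rw [map_sub, idem_app he, sub_self]))]
  simp

lemma one_sub_symm {e : S.E} (hs : S.st e = e) : S.st (1 - e) = 1 - e := by simp [hs]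

lemma one_sub_idem {e : Module.End (ZMod p) V} (he : e * e = e) : (1 - e) * (1 - e) = 1 - e := by
  simp [mul_sub, sub_mul, he]

section fin

variable [Finite V]

lemma card_perp (U : AddSubgroup V) : Nat.card U * Nat.card (S.perp U) = Nat.card V := by
  have h1 := S.form0.finrank_perp (AddSubgroup.toZModSubmodule p U)
  have h2 := P183CF.Form.card_sub (AddSubgroup.toZModSubmodule p U)
  have h3 := P183CF.Form.card_sub (S.form0.perp (AddSubgroup.toZModSubmodule p U))
  rw [Module.natCard_eq_pow_finrank (K := ZMod p) (V := V), ← h1, pow_add, ← h2, ← h3]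
  rfl

@[simp] lemma perp_perp (U : AddSubgroup V) : S.perp (S.perp U) = U :=
  congrArg Submodule.toAddSubgroup (S.form0.perp_perp (AddSubgroup.toZModSubmodule p U))

lemma perp_inj : Function.Injective S.perp := fun U W h => by
  rw [← perp_perp (S := S) U, h, perp_perp]

lemma perp_le_perp {U W : AddSubgroup V} : S.perp W ≤ S.perp U ↔ U ≤ W :=
  ⟨fun h => by simpa using perp_anti (S := S) h, perp_anti⟩

lemma perp_inf (U W : AddSubgroup V) : S.perp (U ⊓ W) = S.perp U ⊔ S.perp W := by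
  apply perp_inj (S := S)
  rw [perp_sup, perp_perp, perp_perp, perp_perp]

lemma perp_eq_bot {W : AddSubgroup V} : S.perp W = ⊥ ↔ W = ⊤ := by
  rw [← perp_top (S := S)]; exact perp_inj.eq_iff

lemma perp_eq_top {W : AddSubgroup V} : S.perp W = ⊤ ↔ W = ⊥ := by
  rw [← perp_bot (S := S)]; exact perp_inj.eq_iff

lemma perp_ke (a : S.E) : S.perp (S.ke a) = S.im (S.st a) := by
  rw [← perp_perp (S := S) (S.im (S.st a)), perp_im, st_st]

lemma card_im_st (a : S.E) :
    Nat.card (LinearMap.range (S.st a)) = Nat.card (LinearMap.range a) := by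
  have h1 := card_perp (S := S) (S.ke a)
  rw [perp_ke] at h1
  have h2 := LinearMap.finrank_range_add_finrank_ker a
  have h3 := P183CF.Form.card_sub (LinearMap.range a)
  have h4 := P183CF.Form.card_sub (LinearMap.ker a)
  rw [Module.natCard_eq_pow_finrank (K := ZMod p) (V := V), ← h2, pow_add, ← h3, ← h4, mul_comm] at h1
  exact Nat.eq_of_mul_eq_mul_right (Nat.card_pos (α := LinearMap.ker a)) h1

/-- additive functionals are represented by vectors -/
lemma riesz (l : V →+ ZMod p) : ∃ x, ∀ y, S.β x y = l y := by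
  obtain ⟨x, hx⟩ := S.form0.riesz (l.toZModLinearMap p)
  exact ⟨x, fun y => congrArg (fun f : Module.Dual (ZMod p) V => f y) hx⟩

/-- a nondegenerate subgroup is the image of a symmetric idempotent -/
lemma exists_proj {W : AddSubgroup V} (h : W ⊓ S.perp W = ⊥) :
    ∃ e : S.E, S.st e = e ∧ e * e = e ∧ (∀ v, v ∈ W ↔ e v = v) ∧ (∀ v, v ∈ S.perp W ↔ e v = 0) ∧
      ∀ x : S.E, (∀ v ∈ W, x v ∈ W) → (∀ v ∈ W, S.st x v ∈ W) → x * e = e * x := by
  have hN : S.form0.Nd (AddSubgroup.toZModSubmodule p W) :=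
    Submodule.toAddSubgroup_injective h
  have hdec : ∀ v, ∃ y ∈ W, ∃ z ∈ S.perp W, y + z = v := hN.decomp
  let e : S.E := (AddSubgroup.toZModSubmodule p W).subtype ∘ₗ
    Submodule.projectionOnto _ _ hN.isCompl
  have h1 : ∀ v ∈ W, e v = v := fun v hv => by
    have := Submodule.projectionOnto_apply_left hN.isCompl ⟨v, hv⟩
    exact congrArg Subtype.val this
  have h2 : ∀ v ∈ S.perp W, e v = 0 := fun v hv => by
    have := Submodule.projectionOnto_apply_right hN.isCompl ⟨v, hv⟩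
    exact congrArg Subtype.val this
  have h3 : ∀ v, e v ∈ W := fun v => (Submodule.projectionOnto _ _ hN.isCompl v).2
  refine ⟨e, S.st_ext fun x y => ?_, by ext v; exact h1 _ (h3 v), fun v => ⟨h1 v, fun e => e ▸ h3 v⟩,
    fun v => ⟨h2 v, fun hv => ?_⟩, fun x hx hx' => ?_⟩
  · obtain ⟨a, ha, c, hc, rfl⟩ := hdec x
    obtain ⟨a', ha', c', hc', rfl⟩ := hdec y
    simp [h1 a ha, h1 a' ha', h2 c hc, h2 c' hc', hc' a ha, mem_perp'.1 hc a' ha']
  · obtain ⟨a, ha, c, hc, rfl⟩ := hdec v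
    rw [map_add, h1 a ha, h2 c hc, add_zero] at hv
    simpa [hv] using hc
  · ext v
    obtain ⟨a, ha, c, hc, rfl⟩ := hdec v
    simp [h1 a ha, h2 c hc, h1 _ (hx a ha), h2 _ (perp_inv hx' hc)]

/-- a nondegenerate `Z`-submodule is the image of a symmetric idempotent of `cent Z 1` -/
lemma exists_proj_cent {Z : S.NR} (hZ : ∀ z ∈ Z, S.st z ∈ Z) {W : AddSubgroup V}
    (hW : ∀ z ∈ Z, ∀ v ∈ W, z v ∈ W) (h : W ⊓ S.perp W = ⊥) :
    ∃ e ∈ S.cent Z 1, S.st e = e ∧ e * e = e ∧ (∀ v, v ∈ W ↔ e v = v) ∧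
      ∀ v, v ∈ S.perp W ↔ e v = 0 := by
  obtain ⟨e, h1, h2, h3, h4, h5⟩ := exists_proj h
  exact ⟨e, mem_cent_one.2 fun d hd => (h5 d (hW d hd) (hW _ (hZ d hd))).symm, h1, h2, h3, h4⟩

/-- an invariant additive functional vanishes if there are no fixed vectors -/
lemma fun_eq_zero {X : Set S.E} {e : S.E} (hs : S.st e = e)
    (hX : ∀ g ∈ X, S.st g * g = 1) (hfix : ∀ v, e v = v → (∀ g ∈ X, g v = v) → v = 0)
    (l : V →+ ZMod p) (hl : ∀ g ∈ X, ∀ v, l (g v) = l v) (hle : ∀ v, l (e v) = l v) (v : V) :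
    l v = 0 := by
  obtain ⟨x, hx⟩ := riesz (S := S) l
  have : x = 0 := hfix x (S.ext_left fun y => by rw [β_idem hs, hx, hx, hle]) fun g hg => by
    have hinj : Function.Injective g := fun a b h => by
      have := congrArg (S.st g) h
      rwa [← Module.End.mul_apply, ← Module.End.mul_apply, hX g hg] at this
    refine S.ext_left fun y => ?_
    obtain ⟨w, rfl⟩ := Finite.surjective_of_injective hinj y
    rw [uni_β (hX g hg), hx, hx, hl g hg]
  rw [← hx, this]
  simp

omit [Finite V] in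
/-- the difference of two forms with the same polar form is additive -/
def qdiff (q₁ q₂ : V → ZMod p) (B : V → V → ZMod p) (h₁ : ∀ x y, q₁ (x + y) = q₁ x + q₁ y + B x y)
    (h₂ : ∀ x y, q₂ (x + y) = q₂ x + q₂ y + B x y) : V →+ ZMod p :=
  AddMonoidHom.mk' (fun v => q₁ v - q₂ v) fun x y => by rw [h₁, h₂]; ring

/-- uniqueness of invariant forms with a given polar form -/
lemma q_unique {X : Set S.E} (hX : ∀ g ∈ X, S.st g * g = 1)
    (hfix : ∀ v, (∀ g ∈ X, g v = v) → v = 0) {q₁ q₂ : V → ZMod p} {B : V → V → ZMod p}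
    (h₁ : ∀ x y, q₁ (x + y) = q₁ x + q₁ y + B x y) (h₂ : ∀ x y, q₂ (x + y) = q₂ x + q₂ y + B x y)
    (i₁ : ∀ g ∈ X, ∀ v, q₁ (g v) = q₁ v) (i₂ : ∀ g ∈ X, ∀ v, q₂ (g v) = q₂ v) : q₁ = q₂ := by
  ext v
  exact sub_eq_zero.1 (fun_eq_zero (e := 1) S.st_one hX (fun v _ => hfix v) (qdiff q₁ q₂ B h₁ h₂)
    (fun g hg v => by simp [qdiff, i₁ g hg, i₂ g hg]) (fun _ => rfl) v)

omit [Finite V] in
/-- in odd characteristic unitary maps preserve `q` -/
lemma q_of_odd (h2 : (2 : ZMod p) ≠ 0) {x y : V} (h : S.β x x = S.β y y) : S.q x = S.q y := by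
  by_cases ho : S.orth
  · rw [S.β_self ho, S.β_self ho] at h
    exact mul_left_cancel₀ h2 h
  · rw [(S.alt ho x).1, (S.alt ho y).1]

/-- a unitary map supported on `e V` that commutes with a group of isometries without fixed vectors on
`e V` preserves `q` -/
lemma q_of_comm {X : Set S.E} {e g : S.E} (hs : S.st e = e) (he : e * e = e)
    (hX : ∀ k ∈ X, S.st k * k = 1 ∧ ∀ v, S.q (k v) = S.q v)
    (hfix : ∀ v, e v = v → (∀ k ∈ X, k v = v) → v = 0) (hg : S.st g * g = 1)
    (hge : (g - 1) * e = g - 1) (hc : ∀ k ∈ X, g * k = k * g) (v : V) : S.q (g v) = S.q v := by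
  by_cases ho : S.orth
  swap
  · rw [(S.alt ho _).1, (S.alt ho _).1]
  refine sub_eq_zero.1 (fun_eq_zero hs (fun k hk => (hX k hk).1) hfix
    (qdiff (fun v => S.q (g v)) S.q (fun x y => S.β x y)
      (fun x y => by rw [map_add, S.q_add ho, uni_β hg]) (S.q_add ho)) (fun k hk v => ?_)
    (fun v => ?_) v)
  · show S.q (g (k v)) - S.q (k v) = S.q (g v) - S.q v
    rw [← Module.End.mul_apply, hc k hk, Module.End.mul_apply, (hX k hk).2, (hX k hk).2]
  · show S.q (g (e v)) - S.q (e v) = S.q (g v) - S.q v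
    have h1 : g (v - e v) = v - e v := by
      have := congrArg (fun f : S.E => f v) hge
      simp only [Module.End.mul_apply, LinearMap.sub_apply, Module.End.one_apply] at this
      rw [map_sub, sub_eq_sub_iff_sub_eq_sub, this]
    have h2 : g v = g (e v) + (v - e v) := by rw [← h1, ← map_add]; simp
    have h3 : S.β (e v) (v - e v) = 0 :=
      β_idem_orth hs (idem_app he v) (by rw [map_sub, idem_app he, sub_self])
    rw [h2, S.q_add' (by rw [← h1, uni_β hg, h3]), q_idem hs he v]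
    ring

end fin

/-- the corner `e J e` -/
def cor (S : FS p V) (J : S.NR) (e : S.E) : S.NR := J ⊓ S.cent ⊥ e

lemma mem_cor {J : S.NR} {e x : S.E} : x ∈ S.cor J e ↔ x ∈ J ∧ e * x = x ∧ x * e = x :=
  ⟨fun h => ⟨h.1, h.2.1, h.2.2.1⟩, fun h => ⟨h.1, h.2.1, h.2.2, fun d hd => by
    rw [NonUnitalSubring.mem_bot] at hd
    simp [hd]⟩⟩

lemma cor_le (J : S.NR) (e : S.E) : S.cor J e ≤ J := inf_le_left

lemma cor_mono {J J' : S.NR} (h : J ≤ J') (e : S.E) : S.cor J e ≤ S.cor J' e := inf_le_inf_right _ h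

lemma cor_loc {J : S.NR} (hJ : ∀ x ∈ J, S.st x ∈ J) {e : S.E} (he : e ∈ J) (h0 : e ≠ 0)
    (hs : S.st e = e) (hi : e * e = e) : S.Loc (S.cor J e) e where
  mem := mem_cor.2 ⟨he, hi, hi⟩
  ne := h0
  symm := hs
  left := fun _ hx => (mem_cor.1 hx).2.1
  right := fun _ hx => (mem_cor.1 hx).2.2
  star := fun x hx => by
    obtain ⟨h1, h2, h3⟩ := mem_cor.1 hx
    exact mem_cor.2 ⟨hJ x h1, by rw [← hs, ← st_mul, h3], by rw [← hs, ← st_mul, h2]⟩

/-- the component of a unit at an idempotent that commutes with it -/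
def comp (S : FS p V) (g : S.Eˣ) (e : S.E) (he : e * e = e) (hc : g.1 * e = e * g.1) : S.Eˣ where
  val := g.1 * e + (1 - e)
  inv := g⁻¹.1 * e + (1 - e)
  val_inv := by
    have h1 : e * g⁻¹.1 = g⁻¹.1 * e := by
      rw [Units.mul_inv_eq_iff_eq_mul, mul_assoc, ← hc, Units.inv_mul_cancel_left]
    have h2 : g.1 * e * (g⁻¹.1 * e) = e := by
      rw [← h1, ← mul_assoc, mul_assoc g.1, he, hc, Units.mul_inv_cancel_right]
    have h3 : (1 - e) * (g⁻¹.1 * e) = 0 := by rw [← h1, ← mul_assoc, sub_mul, he]; simp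
    have h4 : g.1 * e * (1 - e) = 0 := by rw [mul_assoc, mul_sub, he]; simp
    rw [add_mul, mul_add, mul_add, h2, h3, h4, one_sub_idem he]
    simp
  inv_val := by
    have h1 : e * g⁻¹.1 = g⁻¹.1 * e := by
      rw [Units.mul_inv_eq_iff_eq_mul, mul_assoc, ← hc, Units.inv_mul_cancel_left]
    have h2 : g⁻¹.1 * e * (g.1 * e) = e := by
      rw [hc, ← mul_assoc, mul_assoc g⁻¹.1, he, ← h1, Units.inv_mul_cancel_right]
    have h3 : (1 - e) * (g.1 * e) = 0 := by rw [hc, ← mul_assoc, sub_mul, he]; simp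
    have h4 : g⁻¹.1 * e * (1 - e) = 0 := by rw [mul_assoc, mul_sub, he]; simp
    rw [add_mul, mul_add, mul_add, h2, h3, h4, one_sub_idem he]
    simp

lemma comp_val (g : S.Eˣ) (e : S.E) (he : e * e = e) (hc : g.1 * e = e * g.1) :
    (S.comp g e he hc).1 = g.1 * e + (1 - e) := rfl

lemma comp_mul {g k : S.Eˣ} {e : S.E} (he : e * e = e) (hc : g.1 * e = e * g.1)
    (hk : k.1 * e = e * k.1) (hgk : (g * k).1 * e = e * (g * k).1) :
    S.comp (g * k) e he hgk = S.comp g e he hc * S.comp k e he hk := by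
  apply Units.ext
  have h2 : g.1 * e * (k.1 * e) = g.1 * k.1 * e := by
    rw [mul_assoc, ← mul_assoc e, ← hk, mul_assoc, he, mul_assoc]
  have h3 : (1 - e) * (k.1 * e) = 0 := by rw [hk, ← mul_assoc, sub_mul, he]; simp
  have h4 : g.1 * e * (1 - e) = 0 := by rw [mul_assoc, mul_sub, he]; simp
  rw [Units.val_mul, comp_val, comp_val, comp_val, add_mul, mul_add, mul_add, h2, h3, h4,
    one_sub_idem he, Units.val_mul]
  simp

lemma comp_mul_comp {g : S.Eˣ} {e : S.E} (he : e * e = e) (hc : g.1 * e = e * g.1)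
    (he' : (1 - e) * (1 - e) = 1 - e) (hc' : g.1 * (1 - e) = (1 - e) * g.1) :
    S.comp g e he hc * S.comp g (1 - e) he' hc' = g := by
  apply Units.ext
  have h2 : g.1 * e * (g.1 * (1 - e)) = 0 := by
    rw [hc', mul_assoc, ← mul_assoc e, mul_sub, he]; simp
  have h3 : (1 - e) * (g.1 * (1 - e)) = g.1 * (1 - e) := by rw [hc', ← mul_assoc, he']
  have h4 : (1 - e) * e = 0 := by rw [sub_mul, he]; simp
  rw [Units.val_mul, comp_val, comp_val, sub_sub_cancel, add_mul, mul_add, mul_add, h2, h3, h4,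
    mul_assoc, he]
  simp [mul_sub]

lemma comp_iso [Finite V] {J : S.NR} {g : S.Eˣ} (hg : g ∈ S.iso J) {e : S.E} (heJ : e ∈ J)
    (hs : S.st e = e) (he : e * e = e) (hc : g.1 * e = e * g.1) :
    S.comp g e he hc ∈ S.iso (S.cor J e) := by
  have h0 : (S.comp g e he hc).1 - 1 = (g.1 - 1) * e := by rw [comp_val, sub_mul]; noncomm_ring
  have hv : ∀ v, (S.comp g e he hc).1 v = g.1 (e v) + (v - e v) := fun v => rfl
  have h1 : ∀ v, e (g.1 (e v)) = g.1 (e v) := fun v => by
    rw [← Module.End.mul_apply e, ← hc, Module.End.mul_apply, idem_app he]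
  have h2 : ∀ v, e (v - e v) = 0 := fun v => by rw [map_sub, idem_app he, sub_self]
  refine mem_iso.2 ⟨?_, uni_of_β fun x y => ?_, fun v => ?_⟩
  · rw [h0]
    refine mem_cor.2 ⟨mul_mem (iso_sub hg) heJ, ?_, by rw [mul_assoc, he]⟩
    rw [← mul_assoc, mul_sub, sub_mul, ← hc, mul_assoc, mul_one, he, sub_mul, one_mul]
  · rw [hv, hv, map_add, map_add, LinearMap.add_apply, LinearMap.add_apply, iso_β hg,
      β_idem_orth hs (h1 x) (h2 y), S.β_symm_zero (β_idem_orth hs (h1 y) (h2 x))]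
    simp [β_idem hs, idem_app he]
  · rw [hv, S.q_add' (β_idem_orth hs (h1 v) (h2 v)), iso_q hg, ← q_idem hs he]

lemma iso_cor_fix [Finite V] {J : S.NR} {e : S.E} {g : S.Eˣ} (hg : g ∈ S.iso (S.cor J e)) {v : V}
    (hv : e v = 0) : g.1 v = v := by
  have := congrArg (fun f : S.E => f v) (mem_cor.1 (iso_sub hg)).2.2
  simp only [Module.End.mul_apply, hv, map_zero, LinearMap.sub_apply, Module.End.one_apply] at this
  exact sub_eq_zero.1 this.symm

lemma iso_commute [Finite V] {J J' : S.NR} (h : ∀ x ∈ J, ∀ y ∈ J', x * y = y * x) {g k : S.Eˣ}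
    (hg : g ∈ S.iso J) (hk : k ∈ S.iso J') : g * k = k * g :=
  Units.ext (iso_comm hk fun d hd => (iso_comm hg fun x hx => (h x hx d hd).symm).symm)

end FS

end Vale.Agent.P183NK
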