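import Vale.Agent.P183CF.RealA
import Vale.Agent.P183BR.Co
import Vale.Agent.P183SB.Dat

/-!
Models of large rank have classical covers.
-/

set_option autoImplicit false
set_option linter.all false

namespace Vale.Agent.P183NK

open Subgroup Vale.Agent.P183CF Module Matrix Vale.Agent.P183M Vale.Agent.P183BR FS

/-- The classical datum of the special linear group. -/
def CDLX : Prop := ∀ (p : ℕ) (F : Type) [Field F] [Finite F] [CharP F p] (d : ℕ), p.Prime → 5 ≤ d →
  ∃ (F0 : Type) (_ : Field F0) (D : Dat (SpecialLinearGroup (Fin d) F) (F × F) F0 d),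
    CDL p D ∧ ∀ g, D.ρ1 g = g.1

section

variable {G : Type} [Group G] {T : Subgroup G} (M : Model T) {F : Type} [Field F] [Finite F]
  [Module F M.V] {φ : Form F M.V} {τ : F →+ ZMod M.p}

theorem br_form (r : M.S.Real M.Z φ τ) (hn : 21 ≤ M.n) : ∃ C : Cv M.p T,
    M.n ≤ 2 * C.D.m + 2 ∧ (∀ X, M.Full X → C.Full X) ∧ (M.Lifts → C.Lifts) := by
  have := M.scal.toLoc.nontrivial
  have := Real.fd (F := F) (V := M.V)
  have := r.charP
  have hd := r.rank_iff.1 M.rank
  obtain ⟨w, D, hD, h1, h2, -⟩ := P183SB.exists_cdf φ (p := M.p) Fact.out (by omega)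
  have : Finite (M.V ≃ₗ[F] M.V) := Finite.of_injective _ (upU_inj (S := M.S))
  have hs : ∀ c : F, Psi M.S w.equivFun.toAddEquiv (c • 1) = M.S.sc F c := fun c =>
    (z1.1 fun v => w.equivFun.map_smul c v).symm
  obtain ⟨C, e1, e2⟩ := cv_of M D (Kind.f hD) w.equivFun.toAddEquiv
    (fun x => (r.scal x).trans (exists_congr fun c => forall_congr' fun v =>
      w.equivFun.injective.eq_iff.symm.trans (by rw [map_smul]; rfl)))
    (fun c v => by rw [hs, r.st_sc, h2]; exact w.equivFun.map_smul _ v)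
    ((M.S.upU F).comp (φ.EW ⊤).subtype)
    (by rw [MonoidHom.range_comp, range_subtype, ← r.om_eq (by omega)])
    fun g v => by rw [h1]; exact (LinearMap.toMatrix_mulVec_repr w w _ v).symm
  exact ⟨C, by have := hD.d_le; omega, e2⟩

omit [Finite F] in
lemma range_toGL {d : ℕ} (hd : 3 ≤ d) :
    (SpecialLinearGroup.toGL : SpecialLinearGroup (Fin d) F →* _).range =
      commutator (GL (Fin d) F) := by
  refine le_antisymm ?_ (Subgroup.commutator_le.2 fun a _ b _ => ?_)
  · rintro _ ⟨A, rfl⟩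
    exact toGL_mem_commutator (by simpa using hd) A
  · refine ⟨⟨(a * b * a⁻¹ * b⁻¹).1, ?_⟩, Units.ext rfl⟩
    have : GeneralLinearGroup.det (a * b * a⁻¹ * b⁻¹) = 1 := by
      simp only [map_mul, map_inv]
      rw [mul_inv_cancel_comm, mul_inv_cancel]
    exact congrArg Units.val this

theorem br_lin (hL : CDLX) {X Y : Submodule F M.V} (r : M.S.RealA M.Z φ τ X Y) (hn : 5 ≤ M.n) :
    ∃ C : Cv M.p T, M.n ≤ 2 * C.D.m + 2 ∧ (∀ X, M.Full X → C.Full X) ∧ (M.Lifts → C.Lifts) := by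
  have := M.scal.toLoc.nontrivial
  have := Real.fd (F := F) (V := M.V)
  have := r.charP
  have hd := r.rank_iffA.1 M.rank
  have P := r.pol
  obtain ⟨F0, _, D, hD, h1⟩ := hL M.p F M.n Fact.out hn
  obtain ⟨e, f, hf, he, hf', hs⟩ := P.exists_frame_le hd.ge
  let J2 : Matrix (Fin M.n) (Fin M.n) F := D.J.map (RingHom.snd F F)
  have hJ : IsUnit J2.det := by
    have := hD.nondeg.map (RingHom.snd F F)
    rwa [RingHom.map_det] at this
  have hdec : ∀ v, ∑ i, φ.ca f v i • e i + ∑ i, φ.cc e v i • f i = v := fun v => by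
    have h2 := hf.rest_mem v
    rw [Submodule.eq_top_of_finrank_eq (S := φ.FS e f) (by
      rw [hf.finrank_FS, Fintype.card_fin, ← P.two_mul, hd]), Form.perp_top, Submodule.mem_bot,
      sub_eq_zero] at h2
    exact h2.symm
  have hca : ∀ a c : Fin M.n → F, φ.ca f (∑ i, a i • e i + ∑ i, c i • f i) = a := fun a c => by
    ext j
    simp [Form.ca, hf.fe, hf.ff, mul_comm _ φ.ε]
  have hcc : ∀ a c : Fin M.n → F, φ.cc e (∑ i, a i • e i + ∑ i, c i • f i) = c := fun a c => by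
    ext j
    simp [Form.cc, hf.ee, hf.ef]
  let L : (Fin M.n → F × F) →+ M.V := AddMonoidHom.mk'
    (fun x => ∑ i, (x i).1 • e i + ∑ i, (J2 *ᵥ fun i => (x i).2) i • f i) fun x y => by
      rw [show (fun i => ((x + y) i).2) = (fun i => (x i).2) + fun i => (y i).2 from rfl, mulVec_add]
      simp only [Pi.add_apply, Prod.fst_add, add_smul, Finset.sum_add_distrib]
      abel
  have hL1 : ∀ x, L x = ∑ i, (x i).1 • e i + ∑ i, (J2 *ᵥ fun i => (x i).2) i • f i := fun _ => rfl
  have hinj : Function.Injective L := fun x y e1 => by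
    have e2 := congrArg (φ.ca f) e1
    have e3 := congrArg (fun v => J2⁻¹ *ᵥ φ.cc e v) e1
    simp only [hL1, hca, hcc, mulVec_mulVec, nonsing_inv_mul _ hJ, one_mulVec] at e2 e3
    exact funext fun i => Prod.ext (congrFun e2 i) (congrFun e3 i)
  let κ : M.V ≃+ (Fin M.n → F × F) := (AddEquiv.ofBijective L ⟨hinj, fun v =>
    ⟨fun i => (φ.ca f v i, (J2⁻¹ *ᵥ φ.cc e v) i), by
      rw [hL1, mulVec_mulVec, mul_nonsing_inv _ hJ, one_mulVec, hdec]⟩⟩).symm
  have hκ : ∀ {v x}, κ v = x ↔ v = L x := κ.apply_eq_iff_symm_apply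
  have hκ' : ∀ v, L (κ v) = v := κ.symm_apply_apply
  have hdg : ∀ (c : F × F) x, P.dg c.1 c.2 (L x) = L (c • x) := fun c x => by
    rw [hL1, hL1, map_add, P.dg_x _ _ (X.sum_mem fun i _ => X.smul_mem _ (he i)),
      P.dg_y _ _ (Y.sum_mem fun i _ => Y.smul_mem _ (hf' i)),
      show (fun i => ((c • x) i).2) = c.2 • fun i => (x i).2 from rfl, mulVec_smul]
    simp [Finset.smul_sum, smul_smul]
  have hdg' : ∀ (c : F × F) v, κ (M.S.up F (P.dg c.1 c.2) v) = c • κ v := fun c v =>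
    hκ.2 (by rw [← hdg, hκ']; rfl)
  obtain ⟨C, e1, e2⟩ := cv_of M D (Kind.l hD) κ
    (fun x => r.mem_Z.trans ⟨fun ⟨c, d, e⟩ => ⟨(c, d), fun v => e ▸ hdg' (c, d) v⟩,
      fun ⟨c, e⟩ => ⟨c.1, c.2, (z1.1 e).trans (z1.1 (hdg' c)).symm⟩⟩)
    (fun c v => by rw [← z1.1 (hdg' c), r.st_dg, hD.swap]; exact hdg' c.swap v)
    ((M.S.upU F).comp (hf.lev.comp SpecialLinearGroup.toGL))
    (by
      have h2 : (⊤ : Subgroup _).map hf.lev = φ.LV X Y := le_antisymm
        (by rintro _ ⟨A, -, rfl⟩; exact hf.lev_LV P he hf' A) fun g hg => by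
          obtain ⟨A, rfl⟩ := hf.exists_lev P (hs hd.symm) hf' hg
          exact ⟨A, trivial, rfl⟩
      rw [MonoidHom.range_comp, MonoidHom.range_comp, range_toGL (by omega), commutator_def,
        Subgroup.map_commutator, h2, P.commutator_LV (by omega), ← r.om_eqA (by omega)])
    fun g v => hκ.2 (by
      have k1 : ∀ x : Fin M.n → F × F, (fun i => ((D.ρ g *ᵥ x) i).1) = g.1 *ᵥ fun i => (x i).1 :=
        fun x => funext fun i => by
          rw [← h1]
          exact RingHom.map_mulVec (RingHom.fst F F) (D.ρ g) x i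
      have k2 : ∀ x y : Fin M.n → F × F, (D.β x y).2 =
          (fun i => (x i).1) ⬝ᵥ (J2 *ᵥ fun i => (y i).2) := fun x y => by
        simp [Dat.β, hD.swap, dotProduct, mulVec, Prod.snd_sum, J2]
      have k3 : ∀ x : Fin M.n → F × F, (J2 *ᵥ fun i => ((D.ρ g *ᵥ x) i).2) =
          φ.dm (SpecialLinearGroup.toGL g) *ᵥ (J2 *ᵥ fun i => (x i).2) := fun x => by
        refine dotProduct_eq _ _ fun a => ?_
        obtain ⟨a, rfl⟩ : ∃ c, a = g.1 *ᵥ c := ⟨g⁻¹.1 *ᵥ a, by
          rw [mulVec_mulVec, show g.1 * g⁻¹.1 = 1 from congrArg Subtype.val (mul_inv_cancel g),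
            one_mulVec]⟩
        have e3 := φ.dm_dot (SpecialLinearGroup.toGL g) a (J2 *ᵥ fun i => (x i).2)
        simp only [r.σ1] at e3
        have e4 := congrArg Prod.snd (hD.inv g (fun i => (a i, 0)) x)
        rw [k2, k2, k1] at e4
        rw [dotProduct_comm, e4, dotProduct_comm (_ *ᵥ _)]
        exact e3.symm
      conv_lhs => rw [← hκ' v]
      rw [hL1, hL1, k3]
      have := hf.lev_comb (SpecialLinearGroup.toGL g) (fun i => (κ v i).1)
        (J2 *ᵥ fun i => (κ v i).2) (zero_mem _)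
      rw [add_zero, add_zero] at this
      refine this.trans ?_
      congr 2
      exact funext fun i => congrArg (· • e i) (congrFun (k1 _) i).symm)
  exact ⟨C, by have := hD.d_le; omega, e2⟩

end

theorem br_of (hL : CDLX) : BR := fun m₀ => ⟨2 * m₀ + 21, fun G _ T M hn => by
  rcases M.scal.real_cases with ⟨F, _, _, _, φ, τ, r⟩ | ⟨F, _, _, _, φ, τ, X, Y, r⟩
  · obtain ⟨C, h1, h2⟩ := br_form M r (by omega)
    exact ⟨C, by omega, h2⟩
  · obtain ⟨C, h1, h2⟩ := br_lin M hL r (by omega)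
    exact ⟨C, by omega, h2⟩⟩

end Vale.Agent.P183NK
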