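import Vale.Agent.P183NK.CSI
import Mathlib.GroupTheory.OrderOfElement
import Mathlib.Algebra.Module.ZMod
import Mathlib.Tactic.NoncommRing
import Mathlib.Tactic.LinearCombination

/-!
Basic facts on form spaces, part 1: the involution and the groups.
-/

set_option autoImplicit false
set_option linter.all false

namespace Vale.Agent.P183NK

open Subgroup Vale.Agent.P183A

/-- in a finite group a multiplicatively closed set that contains `1` is a subgroup -/
lemma mem_closure_of_mul {G : Type*} [Group G] [Finite G] {s : Set G} (h1 : (1 : G) ∈ s)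
    (hm : ∀ a ∈ s, ∀ b ∈ s, a * b ∈ s) {g : G} : g ∈ closure s ↔ g ∈ s := by
  refine ⟨fun h => ?_, fun h => subset_closure h⟩
  induction h using closure_induction with
  | mem x hx => exact hx
  | one => exact h1
  | mul a b _ _ ha hb => exact hm a ha b hb
  | inv a _ ha =>
    have hp : ∀ n : ℕ, a ^ n ∈ s := by
      intro n
      induction n with
      | zero => simpa using h1
      | succ n ih => rw [pow_succ]; exact hm _ ih _ ha
    have : a⁻¹ = a ^ (orderOf a - 1) := by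
      rw [inv_eq_iff_mul_eq_one, ← pow_succ', Nat.sub_add_cancel (orderOf_pos a), pow_orderOf_eq_one]
    rw [this]
    exact hp _

namespace FS

variable {p : ℕ} [Fact p.Prime] {V : Type} [AddCommGroup V] [Module (ZMod p) V] (S : FS p V)

instance finite_E [Finite V] : Finite (Module.End (ZMod p) V) :=
  Finite.of_injective (fun f : Module.End (ZMod p) V => (f : V → V)) DFunLike.coe_injective

open Classical in
/-- the sign of the form -/
noncomputable def ε : ZMod p := if S.orth then 1 else -1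

lemma ε_cases : S.ε = 1 ∨ S.ε = -1 := by
  unfold ε
  split_ifs <;> simp

@[simp] lemma ε_mul_ε : S.ε * S.ε = 1 := by rcases S.ε_cases with h | h <;> simp [h]

lemma β_comm (x y : V) : S.β y x = S.ε * S.β x y := by
  unfold ε
  split_ifs with h
  · have h1 := S.q_add h x y
    have h2 := S.q_add h y x
    rw [add_comm y x, h1] at h2
    linear_combination -h2
  · have h1 := (S.alt h (x + y)).2
    simp only [map_add, LinearMap.add_apply, (S.alt h x).2, (S.alt h y).2] at h1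
    linear_combination h1

lemma β_symm_zero {x y : V} (h : S.β x y = 0) : S.β y x = 0 := by rw [β_comm, h, mul_zero]

lemma β_zero_comm {x y : V} : S.β x y = 0 ↔ S.β y x = 0 := ⟨S.β_symm_zero, S.β_symm_zero⟩

lemma nondeg' (y : V) (h : ∀ x, S.β x y = 0) : y = 0 := S.nondeg y fun x => S.β_symm_zero (h x)

lemma ext_right {y z : V} (h : ∀ x, S.β x y = S.β x z) : y = z :=
  sub_eq_zero.1 (S.nondeg' _ fun x => by rw [map_sub, h, sub_self])

lemma ext_left {y z : V} (h : ∀ x, S.β y x = S.β z x) : y = z :=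
  sub_eq_zero.1 (S.nondeg _ fun x => by rw [map_sub, LinearMap.sub_apply, h, sub_self])

@[simp] lemma q_zero : S.q 0 = 0 := by simpa using S.q_smul 0 0

@[simp] lemma q_neg (x : V) : S.q (-x) = S.q x := by simpa using S.q_smul (-1) x

lemma q_add' {x y : V} (h : S.β x y = 0) : S.q (x + y) = S.q x + S.q y := by
  by_cases ho : S.orth
  · rw [S.q_add ho, h, add_zero]
  · simp [(S.alt ho _).1]

lemma β_self (ho : S.orth) (x : V) : S.β x x = 2 * S.q x := by
  have h1 := S.q_add ho x x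
  have h2 := S.q_smul 2 x
  rw [two_smul] at h2
  linear_combination h2 - h1

lemma β_self_of_q {x : V} (h : S.q x = 0) : S.β x x = 0 := by
  by_cases ho : S.orth
  · rw [S.β_self ho, h, mul_zero]
  · exact (S.alt ho x).2

lemma st_ext {a b : S.E} (h : ∀ x y, S.β (a x) y = S.β x (b y)) : S.st a = b := by
  ext y
  exact S.ext_right fun x => by rw [← S.st_spec, h]

lemma st_spec' (a : S.E) (x y : V) : S.β x (a y) = S.β (S.st a x) y := by
  rw [S.β_comm, S.st_spec, S.β_comm, ← mul_assoc, ε_mul_ε, one_mul]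

@[simp] lemma st_st (a : S.E) : S.st (S.st a) = a := S.st_ext fun x y => (S.st_spec' a x y).symm

@[simp] lemma st_add (a b : S.E) : S.st (a + b) = S.st a + S.st b :=
  S.st_ext fun x y => by simp [S.st_spec]

@[simp] lemma st_zero : S.st 0 = 0 := S.st_ext fun x y => by simp

@[simp] lemma st_one : S.st 1 = 1 := S.st_ext fun x y => by simp

@[simp] lemma st_neg (a : S.E) : S.st (-a) = -S.st a := S.st_ext fun x y => by simp [S.st_spec]

@[simp] lemma st_sub (a b : S.E) : S.st (a - b) = S.st a - S.st b :=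
  S.st_ext fun x y => by simp [S.st_spec]

@[simp] lemma st_mul (a b : S.E) : S.st (a * b) = S.st b * S.st a :=
  S.st_ext fun x y => by simp [S.st_spec]

@[simp] lemma st_smul (c : ZMod p) (a : S.E) : S.st (c • a) = c • S.st a :=
  S.st_ext fun x y => by simp [S.st_spec]

@[simp] lemma st_pow (a : S.E) (n : ℕ) : S.st (a ^ n) = S.st a ^ n := by
  induction n with
  | zero => simp
  | succ n ih => rw [pow_succ, st_mul, ih, pow_succ']

lemma st_inj : Function.Injective S.st := fun a b h => by rw [← S.st_st a, h, st_st]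

@[simp] lemma st_eq_zero {a : S.E} : S.st a = 0 ↔ a = 0 :=
  ⟨fun h => S.st_inj (h.trans S.st_zero.symm), fun h => by rw [h, st_zero]⟩

/-- the involution as an additive map -/
def stA : S.E →+ S.E where
  toFun := S.st
  map_zero' := S.st_zero
  map_add' := S.st_add

lemma st_sum {ι : Type*} (s : Finset ι) (f : ι → S.E) : S.st (∑ i ∈ s, f i) = ∑ i ∈ s, S.st (f i) :=
  map_sum S.stA f s

variable {S}

@[simp] lemma u_inv_app (g : (Module.End (ZMod p) V)ˣ) (v : V) : g⁻¹.1 (g.1 v) = v := by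
  rw [← Module.End.mul_apply, Units.inv_mul]; rfl

@[simp] lemma u_app_inv (g : (Module.End (ZMod p) V)ˣ) (v : V) : g.1 (g⁻¹.1 v) = v := by
  rw [← Module.End.mul_apply, Units.mul_inv]; rfl

lemma u_mul_app (g h : (Module.End (ZMod p) V)ˣ) (v : V) : (g * h).1 v = g.1 (h.1 v) := rfl

lemma u_inj (g : (Module.End (ZMod p) V)ˣ) : Function.Injective g.1 := fun a b h => by
  rw [← u_inv_app g a, h, u_inv_app]

lemma st_eq_inv {g : S.Eˣ} (h : S.st g.1 * g.1 = 1) : S.st g.1 = g⁻¹.1 :=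
  Units.eq_inv_of_mul_eq_one_right h

lemma uni_β {g : S.E} (h : S.st g * g = 1) (x y : V) : S.β (g x) (g y) = S.β x y := by
  rw [S.st_spec, ← Module.End.mul_apply, h]; rfl

lemma uni_of_β {g : S.E} (h : ∀ x y, S.β (g x) (g y) = S.β x y) : S.st g * g = 1 := by
  ext y
  exact S.ext_right fun x => by rw [Module.End.mul_apply, ← S.st_spec, h]; rfl

lemma st_mul_st_inv (g : S.Eˣ) : S.st g.1 * S.st g⁻¹.1 = 1 := by
  rw [← st_mul, Units.inv_mul, st_one]

lemma st_inv_mul_st (g : S.Eˣ) : S.st g⁻¹.1 * S.st g.1 = 1 := by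
  rw [← st_mul, Units.mul_inv, st_one]

lemma mem_cent {J : S.NR} {e x : S.E} :
    x ∈ S.cent J e ↔ e * x = x ∧ x * e = x ∧ ∀ d ∈ J, x * d = d * x := Iff.rfl

lemma mem_cent_one {J : S.NR} {x : S.E} : x ∈ S.cent J 1 ↔ ∀ d ∈ J, x * d = d * x := by
  simp [mem_cent]

lemma mem_ctr {J : S.NR} {e x : S.E} : x ∈ S.ctr J e ↔ x ∈ J ∧ x ∈ S.cent J e := Iff.rfl

lemma one_mem_cent (J : S.NR) : (1 : S.E) ∈ S.cent J 1 := mem_cent_one.2 fun d _ => by simp

lemma cent_anti {J J' : S.NR} (h : J ≤ J') (e : S.E) : S.cent J' e ≤ S.cent J e :=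
  fun _ hx => ⟨hx.1, hx.2.1, fun d hd => hx.2.2 d (h hd)⟩

lemma st_mem_cent {J : S.NR} {e x : S.E} (hJ : ∀ d ∈ J, S.st d ∈ J) (he : S.st e = e)
    (hx : x ∈ S.cent J e) : S.st x ∈ S.cent J e := by
  refine ⟨?_, ?_, fun d hd => ?_⟩
  · rw [← he, ← st_mul, hx.2.1]
  · rw [← he, ← st_mul, hx.1]
  · rw [← S.st_st d, ← st_mul, ← st_mul, hx.2.2 _ (hJ d hd)]

lemma smul_mem {J : S.NR} (c : ZMod p) {x : S.E} (hx : x ∈ J) : c • x ∈ J := by
  rw [← ZMod.natCast_zmod_val c, Nat.cast_smul_eq_nsmul]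
  exact nsmul_mem hx _

lemma Loc.idem {J : S.NR} {e : S.E} (h : S.Loc J e) : e * e = e := h.left e h.mem

lemma Loc.cent {J : S.NR} {e : S.E} (h : S.Loc J e) : S.Loc (S.cent J e) e where
  mem := ⟨h.idem, h.idem, fun d hd => by rw [h.left d hd, h.right d hd]⟩
  ne := h.ne
  symm := h.symm
  left := fun _ hx => hx.1
  right := fun _ hx => hx.2.1
  star := fun _ hx => st_mem_cent h.star h.symm hx

lemma Loc.ctr {J : S.NR} {e : S.E} (h : S.Loc J e) : S.Loc (S.ctr J e) e where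
  mem := ⟨h.mem, h.cent.mem⟩
  ne := h.ne
  symm := h.symm
  left := fun _ hx => h.left _ hx.1
  right := fun _ hx => h.right _ hx.1
  star := fun _ hx => ⟨h.star _ hx.1, h.cent.star _ hx.2⟩

lemma Loc.le_cent_cent {J : S.NR} {e : S.E} (h : S.Loc J e) : J ≤ S.cent (S.cent J e) e :=
  fun x hx => ⟨h.left x hx, h.right x hx, fun d hd => (hd.2.2 x hx).symm⟩

lemma Scal.le_cent {D : S.NR} {e : S.E} (h : S.Scal D e) : D ≤ S.cent D e :=
  fun x hx => ⟨h.left x hx, h.right x hx, h.comm x hx⟩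

section fin

variable [Finite V]

lemma mem_iso {J : S.NR} {g : S.Eˣ} :
    g ∈ S.iso J ↔ g.1 - 1 ∈ J ∧ S.st g.1 * g.1 = 1 ∧ ∀ v, S.q (g.1 v) = S.q v := by
  refine mem_closure_of_mul (s := {g : S.Eˣ | g.1 - 1 ∈ J ∧ S.st g.1 * g.1 = 1 ∧
    ∀ v, S.q (g.1 v) = S.q v}) ⟨by simp, by simp, fun _ => rfl⟩ ?_
  rintro a ⟨ha1, ha2, ha3⟩ b ⟨hb1, hb2, hb3⟩
  refine ⟨?_, ?_, fun v => (ha3 _).trans (hb3 v)⟩
  · have : (a * b).1 - 1 = (a.1 - 1) * (b.1 - 1) + (a.1 - 1) + (b.1 - 1) := by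
      rw [Units.val_mul]; noncomm_ring
    rw [this]
    exact add_mem (add_mem (mul_mem ha1 hb1) ha1) hb1
  · rw [Units.val_mul, st_mul, mul_assoc, ← mul_assoc (S.st a.1), ha2, one_mul, hb2]

lemma iso_sub {J : S.NR} {g : S.Eˣ} (h : g ∈ S.iso J) : g.1 - 1 ∈ J := (mem_iso.1 h).1

lemma iso_uni {J : S.NR} {g : S.Eˣ} (h : g ∈ S.iso J) : S.st g.1 * g.1 = 1 := (mem_iso.1 h).2.1

lemma iso_q {J : S.NR} {g : S.Eˣ} (h : g ∈ S.iso J) (v : V) : S.q (g.1 v) = S.q v :=
  (mem_iso.1 h).2.2 v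

lemma iso_β {J : S.NR} {g : S.Eˣ} (h : g ∈ S.iso J) (x y : V) : S.β (g.1 x) (g.1 y) = S.β x y :=
  uni_β (iso_uni h) x y

lemma iso_st {J : S.NR} {g : S.Eˣ} (h : g ∈ S.iso J) : S.st g.1 = g⁻¹.1 := st_eq_inv (iso_uni h)

lemma iso_mem {J : S.NR} (h1 : (1 : S.E) ∈ J) {g : S.Eˣ} (h : g ∈ S.iso J) : g.1 ∈ J := by
  simpa using add_mem (iso_sub h) h1

lemma iso_comm {J : S.NR} {g : S.Eˣ} (h : g ∈ S.iso J) {x : S.E} (hx : ∀ d ∈ J, x * d = d * x) :
    x * g.1 = g.1 * x := by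
  have := hx _ (iso_sub h)
  rw [mul_sub, sub_mul, mul_one, one_mul] at this
  exact sub_left_injective this

lemma iso_cent_comm {Z : S.NR} {e : S.E} {g : S.Eˣ} (h : g ∈ S.iso (S.cent Z e)) {z : S.E}
    (hz : z ∈ Z) : g.1 * z = z * g.1 := (iso_comm h fun d hd => (hd.2.2 z hz).symm).symm

omit [Finite V] in
lemma iso_mono {J J' : S.NR} (h : J ≤ J') : S.iso J ≤ S.iso J' :=
  closure_mono fun _ hg => ⟨h hg.1, hg.2⟩

omit [Finite V] in
lemma om_mono {J J' : S.NR} (h : J ≤ J') : S.om J ≤ S.om J' :=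
  commutator_mono (iso_mono h) (iso_mono h)

omit [Finite V] in
lemma om_le_iso (J : S.NR) : S.om J ≤ S.iso J := commutator_le_self _

omit [Finite V] in
lemma nm_om (J : S.NR) : Nm (S.iso J) (S.om J) := (Nm.of_le le_rfl).comm (Nm.of_le le_rfl)

lemma mem_sca {Z : S.NR} (h1 : (1 : S.E) ∈ Z) {g : S.Eˣ} : g ∈ S.sca Z ↔ g.1 ∈ Z :=
  mem_closure_of_mul (s := {g : S.Eˣ | g.1 ∈ Z}) h1 fun _ ha _ hb => Z.mul_mem ha hb

/-- conjugation by a unit that maps a subring into itself is onto -/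
lemma conj_surj {J : S.NR} {g : S.Eˣ} (h : ∀ z ∈ J, g.1 * z * g⁻¹.1 ∈ J) {z : S.E} (hz : z ∈ J) :
    g⁻¹.1 * z * g.1 ∈ J := by
  have hinj : Function.Injective fun x : J => (⟨g.1 * x.1 * g⁻¹.1, h x.1 x.2⟩ : J) := by
    intro x y e
    have := congrArg Subtype.val e
    simp only [Units.mul_left_inj, Units.mul_right_inj] at this
    exact Subtype.ext this
  obtain ⟨x, hx⟩ := Finite.surjective_of_injective hinj ⟨z, hz⟩
  have e : z = g.1 * x.1 * g⁻¹.1 := (congrArg Subtype.val hx).symm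
  rw [e, ← mul_assoc, ← mul_assoc, Units.inv_mul, one_mul, mul_assoc, Units.inv_mul, mul_one]
  exact x.2

omit [Finite V] in
/-- a consequence of the last condition in `gam` -/
lemma span_q {Z : S.NR} {f : V → ZMod p}
    (h : f ∈ Submodule.span (ZMod p) {f : V → ZMod p | ∃ z ∈ Z, f = fun v => S.q (z v)})
    {v w : V} (hvw : ∀ z ∈ Z, S.q (z v) = S.q (z w)) : f v = f w := by
  induction h using Submodule.span_induction with
  | mem x hx =>
    obtain ⟨z, hz, rfl⟩ := hx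
    exact hvw z hz
  | zero => rfl
  | add x y _ _ hx hy => simp [hx, hy]
  | smul c x _ hx => simp [hx]

lemma mem_gam {Z : S.NR} (h1 : (1 : S.E) ∈ Z) {g : S.Eˣ} :
    g ∈ S.gam Z ↔ (∀ z ∈ Z, g.1 * z * g⁻¹.1 ∈ Z) ∧ S.st g.1 * g.1 ∈ Z ∧
      (fun v => S.q (g.1 v)) ∈
        Submodule.span (ZMod p) {f : V → ZMod p | ∃ z ∈ Z, f = fun v => S.q (z v)} := by
  refine mem_closure_of_mul (s := {g : S.Eˣ | (∀ z ∈ Z, g.1 * z * g⁻¹.1 ∈ Z) ∧
    S.st g.1 * g.1 ∈ Z ∧ (fun v => S.q (g.1 v)) ∈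
      Submodule.span (ZMod p) {f : V → ZMod p | ∃ z ∈ Z, f = fun v => S.q (z v)}})
    ⟨by simp, by simpa using h1, Submodule.subset_span ⟨1, h1, rfl⟩⟩ ?_
  rintro a ⟨ha1, ha2, ha3⟩ b ⟨hb1, hb2, hb3⟩
  refine ⟨fun z hz => ?_, ?_, ?_⟩
  · have := ha1 _ (hb1 z hz)
    simpa [mul_assoc] using this
  · have := mul_mem hb2 (conj_surj hb1 ha2)
    simpa [mul_assoc] using this
  · have h2 : ∀ f ∈ Submodule.span (ZMod p) {f : V → ZMod p | ∃ z ∈ Z, f = fun v => S.q (z v)},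
        ∀ z ∈ Z, (fun v => f (z v)) ∈
          Submodule.span (ZMod p) {f : V → ZMod p | ∃ z ∈ Z, f = fun v => S.q (z v)} := by
      intro f hf z hz
      induction hf using Submodule.span_induction with
      | mem x hx =>
        obtain ⟨y, hy, rfl⟩ := hx
        exact Submodule.subset_span ⟨y * z, mul_mem hy hz, rfl⟩
      | zero => exact zero_mem _
      | add x y _ _ hx hy => exact add_mem hx hy
      | smul c x _ hx => exact Submodule.smul_mem _ c hx
    have h3 : ∀ f ∈ Submodule.span (ZMod p) {f : V → ZMod p | ∃ z ∈ Z, f = fun v => S.q (z v)},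
        (fun v => f (b.1 v)) ∈
          Submodule.span (ZMod p) {f : V → ZMod p | ∃ z ∈ Z, f = fun v => S.q (z v)} := by
      intro f hf
      induction hf using Submodule.span_induction with
      | mem x hx =>
        obtain ⟨y, hy, rfl⟩ := hx
        have := h2 _ hb3 _ (conj_surj hb1 hy)
        simpa using this
      | zero => exact zero_mem _
      | add x y _ _ hx hy => exact add_mem hx hy
      | smul c x _ hx => exact Submodule.smul_mem _ c hx
    exact h3 _ ha3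

variable {Z : S.NR} (hZ : S.Scal Z 1) {g : S.Eˣ}
include hZ

lemma gam_Z (h : g ∈ S.gam Z) {z : S.E} (hz : z ∈ Z) : g.1 * z * g⁻¹.1 ∈ Z :=
  ((mem_gam hZ.mem).1 h).1 z hz

lemma gam_Z' (h : g ∈ S.gam Z) {z : S.E} (hz : z ∈ Z) : g⁻¹.1 * z * g.1 ∈ Z := by
  simpa using gam_Z hZ (inv_mem h) hz

lemma gam_mu (h : g ∈ S.gam Z) : S.st g.1 * g.1 ∈ Z := ((mem_gam hZ.mem).1 h).2.1

lemma gam_q (h : g ∈ S.gam Z) {v w : V} (hvw : ∀ z ∈ Z, S.q (z v) = S.q (z w)) :
    S.q (g.1 v) = S.q (g.1 w) := span_q ((mem_gam hZ.mem).1 h).2.2 hvw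

lemma gam_A (h : g ∈ S.gam Z) {x : S.E} (hx : x ∈ S.cent Z 1) : g.1 * x * g⁻¹.1 ∈ S.cent Z 1 := by
  rw [mem_cent_one] at hx ⊢
  intro d hd
  have := hx _ (gam_Z' hZ h hd)
  calc g.1 * x * g⁻¹.1 * d = g.1 * (x * (g⁻¹.1 * d * g.1)) * g⁻¹.1 := by simp [mul_assoc]
    _ = _ := by rw [this]; simp [mul_assoc]

lemma gam_st (h : g ∈ S.gam Z) {x : S.E} (hx : x ∈ S.cent Z 1) :
    S.st (g.1 * x * g⁻¹.1) = g.1 * S.st x * g⁻¹.1 := by
  have h1 := (hZ.toLoc.cent.star x hx).2.2 _ (gam_mu hZ h)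
  calc S.st (g.1 * x * g⁻¹.1) = S.st g⁻¹.1 * (S.st x * (S.st g.1 * g.1)) * g⁻¹.1 := by
        simp [mul_assoc]
    _ = (S.st g⁻¹.1 * S.st g.1) * (g.1 * S.st x * g⁻¹.1) := by rw [h1]; simp only [mul_assoc]
    _ = _ := by rw [st_inv_mul_st, one_mul]

omit [Finite V] hZ in
lemma β_mu (g : S.E) (x y : V) : S.β (g x) (g y) = S.β x ((S.st g * g) y) := S.st_spec _ _ _

/-- similitudes preserve orthogonality of `Z`-submodules -/
lemma gam_orth (h : g ∈ S.gam Z) {x y : V} (hxy : ∀ z ∈ Z, S.β x (z y) = 0) {z : S.E} (hz : z ∈ Z) :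
    S.β (g.1 x) (z (g.1 y)) = 0 := by
  have := hxy _ (mul_mem (gam_mu hZ h) (gam_Z' hZ h hz))
  rw [S.st_spec]
  simpa using this

lemma gam_sing (h : g ∈ S.gam Z) {v : V} (hv : S.Sing Z v) : S.Sing Z (g.1 v) := by
  intro z hz
  refine ⟨?_, S.β_symm_zero (gam_orth hZ h (fun y hy => S.β_symm_zero (hv y hy).2) hz)⟩
  have := gam_q hZ h (v := (g⁻¹.1 * z * g.1) v) (w := 0) fun y hy => by
    rw [← Module.End.mul_apply, (hv _ (mul_mem hy (gam_Z' hZ h hz))).1]
    simp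
  simpa using this

lemma iso_le_gam : S.iso (S.cent Z 1) ≤ S.gam Z := fun g hg => by
  refine subset_closure ⟨fun z hz => ?_, by rw [iso_uni hg]; exact hZ.mem,
    Submodule.subset_span ⟨1, hZ.mem, funext fun v => iso_q hg v⟩⟩
  rw [iso_cent_comm hg hz, mul_assoc, Units.mul_inv, mul_one]
  exact hz

lemma om_le_gam : S.om (S.cent Z 1) ≤ S.gam Z := (om_le_iso _).trans (iso_le_gam hZ)

lemma sca_le_gam : S.sca Z ≤ S.gam Z := fun g hg => by
  rw [mem_sca hZ.mem] at hg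
  refine subset_closure ⟨fun z hz => ?_, mul_mem (hZ.star _ hg) hg,
    Submodule.subset_span ⟨g.1, hg, rfl⟩⟩
  rw [hZ.comm _ hg _ hz, mul_assoc, Units.mul_inv, mul_one]
  exact hz

/-- conjugation by a similitude transports isometry groups of subrings of `A` -/
lemma gam_conj_iso (h : g ∈ S.gam Z) {J J' : S.NR} (hJ : J ≤ S.cent Z 1)
    (hJJ : ∀ x ∈ J, g.1 * x * g⁻¹.1 ∈ J') {k : S.Eˣ} (hk : k ∈ S.iso J) :
    g * k * g⁻¹ ∈ S.iso J' := by
  have hkA : k ∈ S.iso (S.cent Z 1) := iso_mono hJ hk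
  refine mem_iso.2 ⟨?_, ?_, fun v => ?_⟩
  · have := hJJ _ (iso_sub hk)
    simpa [mul_sub, sub_mul] using this
  · rw [Units.val_mul, Units.val_mul, gam_st hZ h (iso_mem (one_mem_cent Z) hkA), iso_st hk]
    simp [mul_assoc]
  · have := gam_q hZ h (v := k.1 (g⁻¹.1 v)) (w := g⁻¹.1 v) fun z hz => by
      rw [← Module.End.mul_apply, ← iso_cent_comm hkA hz, Module.End.mul_apply, iso_q hk]
    simpa using this

lemma gam_conj_om (h : g ∈ S.gam Z) {J J' : S.NR} (hJ : J ≤ S.cent Z 1)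
    (hJJ : ∀ x ∈ J, g.1 * x * g⁻¹.1 ∈ J') {k : S.Eˣ} (hk : k ∈ S.om J) :
    g * k * g⁻¹ ∈ S.om J' := by
  have : S.om J ≤ (S.om J').comap (MulAut.conj g).toMonoidHom :=
    commutator_le.2 fun a ha b hb => by
      rw [mem_comap, map_commutatorElement]
      exact commutator_mem_commutator (gam_conj_iso hZ h hJ hJJ ha) (gam_conj_iso hZ h hJ hJJ hb)
  exact this hk

lemma nm_gam_iso : Nm (S.gam Z) (S.iso (S.cent Z 1)) :=
  fun _ hg _ hk => gam_conj_iso hZ hg le_rfl (fun _ hx => gam_A hZ hg hx) hk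

lemma nm_gam_om : Nm (S.gam Z) (S.om (S.cent Z 1)) :=
  fun _ hg _ hk => gam_conj_om hZ hg le_rfl (fun _ hx => gam_A hZ hg hx) hk

lemma nm_gam_sca : Nm (S.gam Z) (S.sca Z) := fun _ hg _ hk =>
  (mem_sca hZ.mem).2 (gam_Z hZ hg ((mem_sca hZ.mem).1 hk))

lemma sca_comm {k : S.Eˣ} (hk : k ∈ S.sca Z) {x : S.E} (hx : x ∈ S.cent Z 1) :
    k.1 * x = x * k.1 := (hx.2.2 _ ((mem_sca hZ.mem).1 hk)).symm

end fin

end FS

end Vale.Agent.P183NK
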