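import Vale.Agent.P183CF.CB2

/-!
Basic facts on form spaces, part 3: the structure of rings of scalars.
-/

set_option autoImplicit false
set_option linter.all false

namespace Vale.Agent.P183NK

open Subgroup Vale.Agent.P183A

namespace FS

variable {p : ℕ} [Fact p.Prime] {V : Type} [AddCommGroup V] [Module (ZMod p) V] {S : FS p V}

/-- the symmetric central elements -/
def sym (S : FS p V) (D : S.NR) : S.NR where
  carrier := {x | x ∈ D ∧ S.st x = x ∧ ∀ y ∈ D, x * y = y * x}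
  add_mem' := fun ha hb => ⟨add_mem ha.1 hb.1, by rw [st_add, ha.2.1, hb.2.1], fun y hy => by
    rw [add_mul, mul_add, ha.2.2 y hy, hb.2.2 y hy]⟩
  zero_mem' := ⟨zero_mem _, by simp, by simp⟩
  mul_mem' := fun {a b} ha hb => ⟨mul_mem ha.1 hb.1, by rw [st_mul, ha.2.1, hb.2.1, ha.2.2 b hb.1],
    fun y hy => by rw [mul_assoc, hb.2.2 y hy, ← mul_assoc, ha.2.2 y hy, mul_assoc]⟩
  neg_mem' := fun ha => ⟨neg_mem ha.1, by rw [st_neg, ha.2.1], fun y hy => by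
    rw [neg_mul, mul_neg, ha.2.2 y hy]⟩

lemma sym_le (D : S.NR) : S.sym D ≤ D := fun _ h => h.1

/-- the ring `D e` -/
def cut (S : FS p V) (D : S.NR) (e : S.E) : S.NR := NonUnitalSubring.closure {x | ∃ z ∈ D, x = z * e}

lemma mem_cut {D : S.NR} {e : S.E} (he : e * e = e) (hc : ∀ z ∈ D, e * z = z * e) {x : S.E} :
    x ∈ S.cut D e ↔ ∃ z ∈ D, x = z * e := by
  refine ⟨fun h => ?_, fun h => NonUnitalSubring.subset_closure h⟩
  induction h using NonUnitalSubring.closure_induction with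
  | mem y hy => exact hy
  | zero => exact ⟨0, zero_mem _, by simp⟩
  | add x y _ _ hx hy =>
    obtain ⟨a, ha, rfl⟩ := hx
    obtain ⟨b, hb, rfl⟩ := hy
    exact ⟨a + b, add_mem ha hb, by rw [add_mul]⟩
  | neg x _ hx =>
    obtain ⟨a, ha, rfl⟩ := hx
    exact ⟨-a, neg_mem ha, by rw [neg_mul]⟩
  | mul x y _ _ hx hy =>
    obtain ⟨a, ha, rfl⟩ := hx
    obtain ⟨b, hb, rfl⟩ := hy
    exact ⟨a * b, mul_mem ha hb, by
      rw [mul_assoc, ← mul_assoc e, hc b hb, mul_assoc, he, mul_assoc]⟩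

namespace Scal

variable {D : S.NR} {e : S.E} (h : S.Scal D e)
include h

lemma mem_sym {x : S.E} : x ∈ S.sym D ↔ x ∈ D ∧ S.st x = x :=
  ⟨fun hx => ⟨hx.1, hx.2.1⟩, fun hx => ⟨hx.1, hx.2, h.comm x hx.1⟩⟩

lemma e_sym : e ∈ S.sym D := h.mem_sym.2 ⟨h.mem, h.symm⟩

lemma norm_sym {x : S.E} (hx : x ∈ D) : x * S.st x ∈ S.sym D :=
  h.mem_sym.2 ⟨mul_mem hx (h.star x hx), by rw [st_mul, st_st]⟩

lemma tr_sym {x : S.E} (hx : x ∈ D) : x + S.st x ∈ S.sym D :=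
  h.mem_sym.2 ⟨add_mem hx (h.star x hx), by rw [st_add, st_st, add_comm]⟩

lemma inv_unique {x y y' : S.E} (hx : x ∈ D) (hy : y ∈ D) (hy' : y' ∈ D) (e1 : x * y = e)
    (e2 : x * y' = e) : y = y' := by
  rw [← h.right y hy, ← e2, ← mul_assoc, h.comm y hy x hx, e1, h.left y' hy']

lemma inv_sym {x : S.E} (hx : x ∈ S.sym D) (h0 : x ≠ 0) : ∃ y ∈ S.sym D, x * y = e := by
  obtain ⟨y, hy, e1⟩ := h.inv x hx.1 hx.2.1 h0
  refine ⟨y, h.mem_sym.2 ⟨hy, h.inv_unique hx.1 (h.star y hy) hy ?_ e1⟩, e1⟩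
  rw [h.comm x hx.1 _ (h.star y hy), ← hx.2.1, ← st_mul, e1, h.symm]

/-- a nonzero symmetric scalar is not a zero divisor on `e E` -/
lemma cancel {x y : S.E} (hx : x ∈ S.sym D) (hy : e * y = y) (h0 : x * y = 0) : x = 0 ∨ y = 0 := by
  by_cases hx0 : x = 0
  · exact Or.inl hx0
  · obtain ⟨z, hz, e1⟩ := h.inv_sym hx hx0
    right
    rw [← hy, ← e1, h.comm x hx.1 z hz.1, mul_assoc, h0, mul_zero]

lemma cancel_app {x : S.E} {v : V} (hx : x ∈ S.sym D) (hv : e v = v) (h0 : x v = 0) :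
    x = 0 ∨ v = 0 := by
  by_cases hx0 : x = 0
  · exact Or.inl hx0
  · obtain ⟨z, hz, e1⟩ := h.inv_sym hx hx0
    right
    rw [← hv, ← e1, h.comm x hx.1 z hz.1, Module.End.mul_apply, h0, map_zero]

lemma inv_of_norm {x : S.E} (hx : x ∈ D) (h0 : x * S.st x ≠ 0) : ∃ y ∈ D, x * y = e := by
  obtain ⟨z, hz, e1⟩ := h.inv_sym (h.norm_sym hx) h0
  exact ⟨S.st x * z, mul_mem (h.star x hx) hz.1, by rw [← mul_assoc, e1]⟩

lemma sym_scal : S.Scal (S.sym D) e where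
  mem := h.e_sym
  ne := h.ne
  symm := h.symm
  left := fun x hx => h.left x hx.1
  right := fun x hx => h.right x hx.1
  star := fun x hx => by rw [hx.2.1]; exact hx
  comm := fun x hx y hy => h.comm x hx.1 y hy.1
  red := fun x hx => h.red x hx.1
  inv := fun x hx _ h0 => h.inv_sym hx h0
  compat := fun x hx y hy => h.compat x hx.1 y hy.1

lemma tr_ne {x : S.E} (hx : x ∈ D) (h0 : x ≠ 0) (hN : x * S.st x = 0) : x + S.st x ≠ 0 := by
  intro ht
  apply h0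
  apply h.red x hx
  rw [add_eq_zero_iff_eq_neg] at ht
  nth_rewrite 2 [ht]
  rw [mul_neg, hN, neg_zero]

end Scal

/-- `D` is a field -/
def IsFld (S : FS p V) (D : S.NR) (e : S.E) : Prop := ∀ x ∈ D, x ≠ 0 → ∃ y ∈ D, x * y = e

/-- `η` splits `D` as a product of two fields exchanged by the involution -/
structure Spl (S : FS p V) (D : S.NR) (e η : S.E) : Prop where
  mem : η ∈ D
  add : η + S.st η = e
  mul : η * S.st η = 0

lemma Spl.mul' {D : S.NR} {e η : S.E} (h : S.Scal D e) (s : S.Spl D e η) : S.st η * η = 0 := by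
  rw [← h.comm η s.mem _ (h.star η s.mem), s.mul]

lemma Spl.idem {D : S.NR} {e η : S.E} (h : S.Scal D e) (s : S.Spl D e η) : η * η = η := by
  conv_rhs => rw [← h.right η s.mem, ← s.add, mul_add, s.mul, add_zero]

lemma Spl.star {D : S.NR} {e η : S.E} (h : S.Scal D e) (s : S.Spl D e η) :
    S.Spl D e (S.st η) :=
  ⟨h.star η s.mem, by rw [st_st, add_comm, s.add], by rw [st_st, s.mul' h]⟩

lemma Spl.ne {D : S.NR} {e η : S.E} (h : S.Scal D e) (s : S.Spl D e η) : η ≠ 0 := by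
  rintro rfl
  exact h.ne (by simpa using s.add.symm)

lemma Spl.decomp {D : S.NR} {e η : S.E} (h : S.Scal D e) (s : S.Spl D e η) {y : S.E} (hy : y ∈ D) :
    ∃ a ∈ S.sym D, ∃ b ∈ S.sym D, y = a * η + b * S.st η := by
  have h1 : ∀ {η : S.E}, S.Spl D e η → (y * η + S.st (y * η)) * η = y * η := by
    intro η s
    rw [add_mul, mul_assoc, s.idem h, st_mul, mul_assoc, h.comm _ (h.star y hy) η s.mem,
      ← mul_assoc, s.mul' h, zero_mul, add_zero]
  refine ⟨_, h.tr_sym (mul_mem hy s.mem), _, h.tr_sym (mul_mem hy (s.star h).mem), ?_⟩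
  rw [h1 s, h1 (s.star h), ← mul_add, s.add, h.right y hy]

namespace Scal

variable {D : S.NR} {e : S.E} (h : S.Scal D e)
include h

theorem cases : S.IsFld D e ∨ ∃ η, S.Spl D e η := by
  by_cases hf : S.IsFld D e
  · exact Or.inl hf
  right
  unfold IsFld at hf
  push Not at hf
  obtain ⟨x, hx, h0, hn⟩ := hf
  have hN : x * S.st x = 0 := by
    by_contra hne
    obtain ⟨y, hy, e1⟩ := h.inv_of_norm hx hne
    exact hn y hy e1
  obtain ⟨s, hs, e1⟩ := h.inv_sym (h.tr_sym hx) (h.tr_ne hx h0 hN)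
  refine ⟨x * s, mul_mem hx hs.1, ?_, ?_⟩
  · rw [st_mul, hs.2.1, hs.2.2 _ (h.star x hx), ← add_mul, e1]
  · rw [st_mul, hs.2.1, mul_assoc, ← mul_assoc s, (mul_mem hs hs).2.2 _ (h.star x hx), ← mul_assoc,
      hN, zero_mul]

lemma idem_spl {x : S.E} (hx : x ∈ D) (hi : x * x = x) : x = 0 ∨ x = e ∨ S.Spl D e x := by
  have hsym : ∀ y ∈ S.sym D, y * y = y → y = 0 ∨ y = e := by
    intro y hy hyy
    rcases h.cancel hy (y := e - y) (by rw [mul_sub, h.toLoc.idem, h.left y hy.1])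
      (by rw [mul_sub, h.right y hy.1, hyy, sub_self]) with e1 | e1
    · exact Or.inl e1
    · exact Or.inr (sub_eq_zero.1 e1).symm
  have hi' : S.st x * S.st x = S.st x := by rw [← st_mul, hi]
  have hc := h.comm x hx _ (h.star x hx)
  rcases hsym _ (h.norm_sym hx) (by
    rw [mul_assoc, ← mul_assoc (S.st x), ← hc, mul_assoc, hi', ← mul_assoc, hi]) with e1 | e1
  · rcases hsym _ (h.tr_sym hx) (by
      rw [add_mul, mul_add, mul_add, hi, hi', ← hc, e1]; simp) with e2 | e2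
    · left
      by_contra h0
      exact h.tr_ne hx h0 e1 e2
    · exact Or.inr (Or.inr ⟨hx, e2, e1⟩)
  · right; left
    rw [← h.right x hx, ← e1, ← mul_assoc, hi]

lemma sym_idem {x : S.E} (hx : x ∈ D) (hs : S.st x = x) (hi : x * x = x) : x = 0 ∨ x = e := by
  rcases h.idem_spl hx hi with e1 | e1 | e1
  · exact Or.inl e1
  · exact Or.inr e1
  · left
    have := e1.mul
    rwa [hs, hi] at this

/-- in the second kind there is a scalar of trace one -/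
lemma exists_delta (hne : ∃ x ∈ D, S.st x ≠ x) :
    ∃ δ ∈ D, ∃ y ∈ D, (δ - S.st δ) * y = e := by
  rcases h.cases with hf | ⟨η, s⟩
  · obtain ⟨x, hx, hx1⟩ := hne
    exact ⟨x, hx, hf _ (sub_mem hx (h.star x hx)) (sub_ne_zero.2 hx1.symm)⟩
  · refine ⟨η, s.mem, η - S.st η, sub_mem s.mem (s.star h).mem, ?_⟩
    rw [sub_mul, mul_sub, mul_sub, s.idem h, s.mul, s.mul' h, (s.star h).idem h, ← s.add]
    simp

lemma exists_tr (hne : ∃ x ∈ D, S.st x ≠ x) : ∃ θ ∈ D, θ + S.st θ = e := by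
  obtain ⟨δ, hδ, y, hy, e1⟩ := h.exists_delta hne
  have hd := sub_mem hδ (h.star δ hδ)
  have e2 : S.st y = -y := h.inv_unique (neg_mem hd) (h.star y hy) (neg_mem hy) (by
    have := congrArg S.st e1
    rw [st_mul, st_sub, st_st, h.symm, h.comm _ (h.star y hy) _ (sub_mem (h.star δ hδ) hδ)] at this
    rw [neg_sub, this]) (by rw [neg_mul_neg, e1])
  refine ⟨δ * y, mul_mem hδ hy, ?_⟩
  rw [st_mul, e2, neg_mul, h.comm y hy _ (h.star δ hδ), ← sub_eq_add_neg, ← sub_mul, e1]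

theorem card_cases [Finite V] :
    (∀ x ∈ D, S.st x = x) ∨ ((∃ x ∈ D, S.st x ≠ x) ∧ Nat.card D = Nat.card (S.sym D) ^ 2) := by
  by_cases hs : ∀ x ∈ D, S.st x = x
  · exact Or.inl hs
  push Not at hs
  refine Or.inr ⟨hs, ?_⟩
  obtain ⟨δ, hδ, y, hy, e1⟩ := h.exists_delta hs
  have hd := sub_mem hδ (h.star δ hδ)
  rw [pow_two, ← Nat.card_prod]
  symm
  refine Nat.card_congr (Equiv.ofBijective (fun a : S.sym D × S.sym D =>
    (⟨a.1.1 + a.2.1 * δ, add_mem a.1.2.1 (mul_mem a.2.2.1 hδ)⟩ : D)) ⟨?_, ?_⟩)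
  · rintro ⟨⟨a, ha⟩, ⟨b, hb⟩⟩ ⟨⟨a', ha'⟩, ⟨b', hb'⟩⟩ e2
    have e3 : a + b * δ = a' + b' * δ := congrArg Subtype.val e2
    have e4 := congrArg S.st e3
    rw [st_add, st_add, st_mul, st_mul, ha.2.1, hb.2.1, ha'.2.1, hb'.2.1,
      ← hb.2.2 _ (h.star δ hδ), ← hb'.2.2 _ (h.star δ hδ)] at e4
    have e5 : (b - b') * (δ - S.st δ) = 0 := by
      rw [sub_mul, mul_sub, mul_sub]
      linear_combination (norm := abel1) e3 - e4
    have e6 : b = b' := by
      rw [← sub_eq_zero, ← h.right _ (sub_mem hb.1 hb'.1), ← e1, ← mul_assoc, e5, zero_mul]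
    subst e6
    have e7 : a = a' := add_right_cancel e3
    subst e7
    rfl
  · rintro ⟨z, hz⟩
    have e2 : S.st y = -y := h.inv_unique (neg_mem hd) (h.star y hy) (neg_mem hy) (by
      have := congrArg S.st e1
      rw [st_mul, st_sub, st_st, h.symm, h.comm _ (h.star y hy) _ (sub_mem (h.star δ hδ) hδ)] at this
      rw [neg_sub, this]) (by rw [neg_mul_neg, e1])
    have hz' := sub_mem hz (h.star z hz)
    have hb : (z - S.st z) * y ∈ S.sym D := h.mem_sym.2 ⟨mul_mem hz' hy, by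
      rw [st_mul, e2, st_sub, st_st, h.comm _ hz' y hy, neg_mul, ← mul_neg, neg_sub]⟩
    have e3 : (z - S.st z) * y * (δ - S.st δ) = z - S.st z := by
      rw [mul_assoc, h.comm y hy _ hd, e1, h.right _ hz']
    refine ⟨⟨⟨z - (z - S.st z) * y * δ, h.mem_sym.2 ⟨sub_mem hz (mul_mem hb.1 hδ), ?_⟩⟩, ⟨_, hb⟩⟩,
      Subtype.ext (sub_add_cancel _ _)⟩
    rw [st_sub, st_mul, hb.2.1, ← hb.2.2 _ (h.star δ hδ)]
    rw [mul_sub] at e3
    linear_combination (norm := abel1) e3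

lemma sym_eq (hs : ∀ x ∈ D, S.st x = x) : S.sym D = D :=
  le_antisymm (sym_le D) fun x hx => h.mem_sym.2 ⟨hx, hs x hx⟩

lemma card_sym_le [Finite V] : Nat.card (S.sym D) ≤ Nat.card D :=
  Nat.card_le_card_of_injective (fun x : S.sym D => (⟨x.1, x.2.1⟩ : D))
    fun _ _ e1 => Subtype.ext (congrArg (fun y : D => y.1) e1)

lemma two_le_card_sym [Finite V] : 2 ≤ Nat.card (S.sym D) := by
  have : Nontrivial (S.sym D) := ⟨⟨e, h.e_sym⟩, 0, fun e1 => h.ne (congrArg Subtype.val e1)⟩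
  exact Finite.one_lt_card

lemma two_le_card [Finite V] : 2 ≤ Nat.card D := h.two_le_card_sym.trans h.card_sym_le

lemma card_le_sq [Finite V] : Nat.card D ≤ Nat.card (S.sym D) ^ 2 := by
  rcases h.card_cases with hs | hs
  · rw [h.sym_eq hs]
    exact Nat.le_self_pow two_ne_zero _
  · exact hs.2.le

/-- a nonzero scalar does not kill a nonzero symmetric element that commutes with the scalars -/
lemma eq_zero_of_mul {f z : S.E} (hf : f ∈ S.cent D e) (hs : S.st f = f) (h0 : f ≠ 0) (hz : z ∈ D)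
    (hzf : z * f = 0) : z = 0 := by
  by_contra hz0
  have h1 : S.st z * f = 0 := by
    rw [← hf.2.2 _ (h.star z hz), ← hs, ← st_mul, hzf, st_zero]
  have h2 := (h.cancel (h.norm_sym hz) hf.1 (by rw [mul_assoc, h1, mul_zero])).resolve_right h0
  have h3 := (h.cancel (h.tr_sym hz) hf.1 (by rw [add_mul, hzf, h1, add_zero])).resolve_right h0
  exact h.tr_ne hz hz0 h2 h3

variable {f : S.E} (hf : f ∈ S.cent D e) (hs : S.st f = f) (hi : f * f = f) (h0 : f ≠ 0)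
include hf hs hi h0

omit h0 hs h in
lemma mem_cut' {x : S.E} : x ∈ S.cut D f ↔ ∃ z ∈ D, x = z * f := mem_cut hi hf.2.2

omit h0 hs h in
lemma cut_mul (z w : S.E) (hw : w ∈ D) : z * f * (w * f) = z * w * f := by
  rw [mul_assoc, ← mul_assoc f, hf.2.2 w hw, mul_assoc, hi, mul_assoc]

omit h0 hi in
lemma cut_st {z : S.E} (hz : z ∈ D) : S.st (z * f) = S.st z * f := by
  rw [st_mul, hs, hf.2.2 _ (h.star z hz)]

omit hi in
lemma cut_inj {z w : S.E} (hz : z ∈ D) (hw : w ∈ D) (e1 : z * f = w * f) : z = w :=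
  sub_eq_zero.1 (h.eq_zero_of_mul hf hs h0 (sub_mem hz hw) (by rw [sub_mul, e1, sub_self]))

theorem cut_scal : S.Scal (S.cut D f) f where
  mem := (mem_cut' hf hi).2 ⟨e, h.mem, hf.1.symm⟩
  ne := h0
  symm := hs
  left := fun x hx => by
    obtain ⟨z, hz, rfl⟩ := (mem_cut' hf hi).1 hx
    rw [← mul_assoc, hf.2.2 z hz, mul_assoc, hi]
  right := fun x hx => by
    obtain ⟨z, hz, rfl⟩ := (mem_cut' hf hi).1 hx
    rw [mul_assoc, hi]
  star := fun x hx => by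
    obtain ⟨z, hz, rfl⟩ := (mem_cut' hf hi).1 hx
    exact (mem_cut' hf hi).2 ⟨_, h.star z hz, h.cut_st hf hs hz⟩
  comm := fun x hx y hy => by
    obtain ⟨z, hz, rfl⟩ := (mem_cut' hf hi).1 hx
    obtain ⟨w, hw, rfl⟩ := (mem_cut' hf hi).1 hy
    rw [cut_mul hf hi z w hw, cut_mul hf hi w z hz, h.comm z hz w hw]
  red := fun x hx e1 => by
    obtain ⟨z, hz, rfl⟩ := (mem_cut' hf hi).1 hx
    rw [cut_mul hf hi z z hz] at e1
    rw [h.red z hz (h.eq_zero_of_mul hf hs h0 (mul_mem hz hz) e1), zero_mul]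
  inv := fun x hx e1 e2 => by
    obtain ⟨z, hz, rfl⟩ := (mem_cut' hf hi).1 hx
    rw [h.cut_st hf hs hz] at e1
    obtain ⟨y, hy, e3⟩ := h.inv z hz (h.cut_inj hf hs h0 (h.star z hz) hz e1)
      (fun e4 => e2 (by rw [e4, zero_mul]))
    exact ⟨y * f, (mem_cut' hf hi).2 ⟨y, hy, rfl⟩, by rw [cut_mul hf hi z y hy, e3, hf.1]⟩
  compat := fun x hx y hy e1 v => by
    obtain ⟨z, hz, rfl⟩ := (mem_cut' hf hi).1 hx
    obtain ⟨w, hw, rfl⟩ := (mem_cut' hf hi).1 hy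
    rw [h.cut_st hf hs hz, h.cut_st hf hs hw, cut_mul hf hi _ _ (h.star z hz),
      cut_mul hf hi _ _ (h.star w hw)] at e1
    exact h.compat z hz w hw (h.cut_inj hf hs h0 (h.norm_sym hz).1 (h.norm_sym hw).1 e1) (f v)

omit h hs h0 in
lemma cent_cut : S.cent (S.cut D f) f = S.cor (S.cent D e) f := by
  ext x
  rw [mem_cor]
  constructor
  · rintro ⟨h1, h2, h3⟩
    refine ⟨⟨by rw [← h1, ← mul_assoc, hf.1], by rw [← h2, mul_assoc, hf.2.1], fun d hd => ?_⟩,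
      h1, h2⟩
    have := h3 _ ((mem_cut' hf hi).2 ⟨d, hd, rfl⟩)
    rwa [← hf.2.2 d hd, ← mul_assoc, h2, hf.2.2 d hd, mul_assoc, h1] at this
  · rintro ⟨h1, h2, h3⟩
    refine ⟨h2, h3, fun d hd => ?_⟩
    obtain ⟨z, hz, rfl⟩ := (mem_cut' hf hi).1 hd
    rw [mul_assoc, h2, ← mul_assoc, h1.2.2 z hz, mul_assoc, h3]

lemma card_cut : Nat.card (S.cut D f) = Nat.card D := by
  symm
  refine Nat.card_congr (Equiv.ofBijective (fun z : D =>
    (⟨z.1 * f, (mem_cut' hf hi).2 ⟨z.1, z.2, rfl⟩⟩ : S.cut D f)) ⟨?_, ?_⟩)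
  · intro z w e1
    exact Subtype.ext (h.cut_inj hf hs h0 z.2 w.2 (congrArg Subtype.val e1))
  · rintro ⟨x, hx⟩
    obtain ⟨z, hz, rfl⟩ := (mem_cut' hf hi).1 hx
    exact ⟨⟨z, hz⟩, rfl⟩

lemma card_sym_cut : Nat.card (S.sym (S.cut D f)) = Nat.card (S.sym D) := by
  symm
  have hc := h.cut_scal hf hs hi h0
  refine Nat.card_congr (Equiv.ofBijective (fun z : S.sym D =>
    (⟨z.1 * f, hc.mem_sym.2 ⟨(mem_cut' hf hi).2 ⟨z.1, z.2.1, rfl⟩, by
      rw [h.cut_st hf hs z.2.1, z.2.2.1]⟩⟩ : S.sym (S.cut D f))) ⟨?_, ?_⟩)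
  · intro z w e1
    exact Subtype.ext (h.cut_inj hf hs h0 z.2.1 w.2.1 (congrArg Subtype.val e1))
  · rintro ⟨x, hx⟩
    obtain ⟨z, hz, rfl⟩ := (mem_cut' hf hi).1 hx.1
    refine ⟨⟨z, h.mem_sym.2 ⟨hz, h.cut_inj hf hs h0 (h.star z hz) hz ?_⟩⟩, rfl⟩
    rw [← h.cut_st hf hs hz, hx.2.1]

end Scal

end FS

end Vale.Agent.P183NK
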