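import Vale.Agent.P183CF.Sing
import Mathlib.GroupTheory.Commutator.Basic
import Mathlib.Tactic.Module

/-!
Isometry groups and Eichler-Siegel transformations.
-/

set_option autoImplicit false
set_option linter.all false

namespace Vale.Agent.P183CF

open Module

section gen

variable {F V : Type*} [Field F] [AddCommGroup V] [Module F V]

@[simp] lemma inv_app (g : V ≃ₗ[F] V) (x : V) : g⁻¹ (g x) = x := g.symm_apply_apply x

@[simp] lemma app_inv (g : V ≃ₗ[F] V) (x : V) : g (g⁻¹ x) = x := g.apply_symm_apply x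

@[simp] lemma one_app (x : V) : (1 : V ≃ₗ[F] V) x = x := rfl

lemma inv_fix {g : V ≃ₗ[F] V} {x : V} (h : g x = x) : g⁻¹ x = x := by
  conv_lhs => rw [← h]
  exact inv_app g x

/-- a functional that vanishes on `U` and is `1` at `x` -/
lemma exists_fun {U : Submodule F V} {x : V} (hx : x ∉ U) :
    ∃ f : Dual F V, f x = 1 ∧ ∀ y ∈ U, f y = 0 := by
  obtain ⟨f, h1, h2⟩ := Submodule.exists_le_ker_of_notMem hx
  exact ⟨(f x)⁻¹ • f, by simp [h1], fun y hy => by simp [show f y = 0 from h2 hy]⟩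

/-- a functional that extends `g` from `U` and has a given value at `x` -/
lemma exists_fun' {U : Submodule F V} {x : V} (hx : x ∉ U) (g : Dual F V) (c : F) :
    ∃ f : Dual F V, f x = c ∧ ∀ y ∈ U, f y = g y := by
  obtain ⟨f, h1, h2⟩ := exists_fun hx
  exact ⟨g + (c - g x) • f, by simp [h1], fun y hy => by simp [h2 y hy]⟩

lemma finrank_sup_span [FiniteDimensional F V] (U : Submodule F V) (x : V) :
    finrank F (U ⊔ F ∙ x : Submodule F V) ≤ finrank F U + 1 :=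
  (Submodule.finrank_add_le_finrank_add_finrank _ _).trans
    (Nat.add_le_add_left (finrank_span_le_card ({x} : Set V) |>.trans (by simp)) _)

lemma finrank_span1 (x : V) : finrank F (F ∙ x : Submodule F V) ≤ 1 :=
  (finrank_span_le_card ({x} : Set V)).trans (by simp)

lemma sup_span_le {U W : Submodule F V} {x : V} (hU : U ≤ W) (hx : x ∈ W) : U ⊔ F ∙ x ≤ W :=
  sup_le hU ((Submodule.span_singleton_le_iff_mem _ _).2 hx)

lemma span1_le {W : Submodule F V} {x : V} (hx : x ∈ W) : F ∙ x ≤ W :=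
  (Submodule.span_singleton_le_iff_mem _ _).2 hx

lemma mem_sup_span_r (U : Submodule F V) (x : V) : x ∈ U ⊔ F ∙ x :=
  Submodule.mem_sup_right (Submodule.mem_span_singleton_self x)

lemma mem_sup_span {U : Submodule F V} {x z : V} :
    z ∈ U ⊔ F ∙ x ↔ ∃ y ∈ U, ∃ c : F, z = y + c • x := by
  rw [Submodule.mem_sup]
  constructor
  · rintro ⟨y, hy, w, hw, rfl⟩
    obtain ⟨c, rfl⟩ := Submodule.mem_span_singleton.1 hw
    exact ⟨y, hy, c, rfl⟩
  · rintro ⟨y, hy, c, rfl⟩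
    exact ⟨y, hy, _, Submodule.mem_span_singleton.2 ⟨c, rfl⟩, rfl⟩

end gen

namespace Form

variable {F V : Type*} [Field F] [AddCommGroup V] [Module F V] (φ : Form F V)

/-- the isometry group -/
def Isom : Subgroup (V ≃ₗ[F] V) where
  carrier := {g | (∀ x y, φ.b (g x) (g y) = φ.b x y) ∧ ∀ x, φ.Q (g x) = φ.Q x}
  one_mem' := ⟨fun _ _ => rfl, fun _ => rfl⟩
  mul_mem' := fun ha hb => ⟨fun x y => (ha.1 _ _).trans (hb.1 x y), fun x => (ha.2 _).trans (hb.2 x)⟩
  inv_mem' := fun {g} h => ⟨fun x y => by rw [← h.1, app_inv, app_inv], fun x => by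
    rw [← h.2, app_inv]⟩

/-- the isometries that fix `W^⊥` pointwise -/
def IW (W : Submodule F V) : Subgroup (V ≃ₗ[F] V) where
  carrier := {g | g ∈ φ.Isom ∧ ∀ x ∈ φ.perp W, g x = x}
  one_mem' := ⟨one_mem _, fun _ _ => rfl⟩
  mul_mem' := fun ha hb => ⟨mul_mem ha.1 hb.1, fun x hx => by simp [hb.2 x hx, ha.2 x hx]⟩
  inv_mem' := fun h => ⟨inv_mem h.1, fun x hx => inv_fix (h.2 x hx)⟩

/-- data for an Eichler-Siegel transformation -/
structure RD (u v : V) (l : F) : Prop where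
  sing : φ.Q u = 0
  orth : φ.b u v = 0
  val : φ.Q v = φ.md l

/-- the linear map of an Eichler-Siegel transformation -/
def rl (u v : V) (l : F) : V →ₗ[F] V :=
  LinearMap.id + (φ.b u).smulRight v - (φ.ε • (φ.b v + l • φ.b u)).smulRight u

lemma rl_apply (u v : V) (l : F) (x : V) :
    φ.rl u v l x = x + φ.b u x • v - (φ.ε * (φ.b v x + l * φ.b u x)) • u := by
  simp [rl, mul_add]

variable {φ}

lemma Isom.b {g : V ≃ₗ[F] V} (h : g ∈ φ.Isom) (x y : V) : φ.b (g x) (g y) = φ.b x y := h.1 x y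

lemma Isom.Q {g : V ≃ₗ[F] V} (h : g ∈ φ.Isom) (x : V) : φ.Q (g x) = φ.Q x := h.2 x

lemma Isom.b_left {g : V ≃ₗ[F] V} (h : g ∈ φ.Isom) (x y : V) : φ.b (g x) y = φ.b x (g⁻¹ y) := by
  rw [← h.1 x, app_inv]

lemma Isom.b_right {g : V ≃ₗ[F] V} (h : g ∈ φ.Isom) (x y : V) : φ.b x (g y) = φ.b (g⁻¹ x) y := by
  rw [← h.1 _ y, app_inv]

lemma IW_le (W : Submodule F V) : φ.IW W ≤ φ.Isom := fun _ h => h.1

lemma IW_mono {U W : Submodule F V} (h : U ≤ W) : φ.IW U ≤ φ.IW W :=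
  fun _ hg => ⟨hg.1, fun x hx => hg.2 x (φ.perp_anti h hx)⟩

@[simp] lemma IW_top : φ.IW ⊤ = φ.Isom :=
  le_antisymm (IW_le _) fun g hg => ⟨hg, fun x hx => by
    rw [perp_top, Submodule.mem_bot] at hx
    simp [hx]⟩

lemma IW_bot : φ.IW ⊥ = ⊥ := eq_bot_iff.2 fun g hg => by
  rw [Subgroup.mem_bot]
  ext x
  exact hg.2 x (by simp)

lemma IW.sub_mem [Finite F] [FiniteDimensional F V] {W : Submodule F V} {g : V ≃ₗ[F] V}
    (h : g ∈ φ.IW W) (x : V) : g x - x ∈ W := by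
  rw [← φ.perp_perp W]
  intro y hy
  rw [map_sub, Isom.b_right h.1, inv_fix (h.2 y hy), sub_self]

lemma IW.map_mem [Finite F] [FiniteDimensional F V] {W : Submodule F V} {g : V ≃ₗ[F] V}
    (h : g ∈ φ.IW W) {x : V} (hx : x ∈ W) : g x ∈ W := by
  simpa using W.add_mem (IW.sub_mem h x) hx

lemma mem_IW_of_sub {W : Submodule F V} {g : V ≃ₗ[F] V} (hg : g ∈ φ.Isom)
    (h : ∀ x, g x - x ∈ W) : g ∈ φ.IW W := by
  refine ⟨hg, fun x hx => ?_⟩
  apply φ.b_inj
  ext y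
  have h1 := hx _ (h (g⁻¹ y))
  rw [app_inv, map_sub, LinearMap.sub_apply, sub_eq_zero] at h1
  rw [Isom.b_left hg, φ.herm, ← h1, ← φ.herm]

lemma IW.conj {W : Submodule F V} {g k : V ≃ₗ[F] V} (hk : k ∈ φ.Isom)
    (hW : ∀ x ∈ W, k x ∈ W) (hW' : ∀ x ∈ W, k⁻¹ x ∈ W) (h : g ∈ φ.IW W) :
    k * g * k⁻¹ ∈ φ.IW W := by
  refine ⟨mul_mem (mul_mem hk h.1) (inv_mem hk), fun x hx => ?_⟩
  have : k⁻¹ x ∈ φ.perp W := fun y hy => by
    rw [← Isom.b_left hk]
    exact hx _ (hW y hy)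
  simp only [LinearEquiv.mul_apply, h.2 _ this, app_inv]

lemma IW.commute [Finite F] [FiniteDimensional F V] {U W : Submodule F V} (hUW : U ≤ φ.perp W)
    {g k : V ≃ₗ[F] V} (hg : g ∈ φ.IW U) (hk : k ∈ φ.IW W) : g * k = k * g := by
  ext x
  have h1 := hg.2 _ (φ.le_perp_comm.1 hUW (IW.sub_mem hk x))
  have h2 := hk.2 _ (hUW (IW.sub_mem hg x))
  rw [map_sub] at h1 h2
  simp only [LinearEquiv.mul_apply]
  rw [sub_eq_iff_eq_add] at h1 h2
  rw [h1, h2]
  abel

namespace RD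

variable {u v w : V} {l m : F}

lemma uu (h : φ.RD u v l) : φ.b u u = 0 := φ.b_self_zero h.sing

lemma vu (h : φ.RD u v l) : φ.b v u = 0 := φ.b_symm_zero h.orth

lemma vv (h : φ.RD u v l) : φ.b v v = l + φ.ε * φ.σ l := φ.b_self' h.val

lemma add (h : φ.RD u v l) (h' : φ.RD u w m) : φ.RD u (v + w) (l + m + φ.b v w) :=
  ⟨h.sing, by simp [h.orth, h'.orth], by rw [Q_add, h.val, h'.val, map_add, map_add]⟩

lemma neg (h : φ.RD u v l) : φ.RD u (-v) (φ.ε * φ.σ l) :=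
  ⟨h.sing, by simp [h.orth], by rw [Q_neg, h.val, md_bar]⟩

lemma zero (h : φ.Q u = 0) : φ.RD u 0 0 := ⟨h, by simp, by simp⟩

lemma map (h : φ.RD u v l) {g : V ≃ₗ[F] V} (hg : g ∈ φ.Isom) : φ.RD (g u) (g v) l :=
  ⟨by rw [hg.2, h.sing], by rw [hg.1, h.orth], by rw [hg.2, h.val]⟩

lemma rl_rl (h : φ.RD u v l) (h' : φ.RD u w m) (x : V) :
    φ.rl u v l (φ.rl u w m x) = φ.rl u (v + w) (l + m + φ.b v w) x := by
  simp only [rl_apply, map_add, map_sub, map_smul, LinearMap.add_apply, h.uu, h.vu, h'.orth,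
    smul_eq_mul]
  module

end RD

lemma rl_zero (u x : V) : φ.rl u 0 0 x = x := by simp [rl_apply]

/-- the Eichler-Siegel transformation -/
def rho {u v : V} {l : F} (h : φ.RD u v l) : V ≃ₗ[F] V :=
  LinearEquiv.ofLinear (φ.rl u v l) (φ.rl u (-v) (φ.ε * φ.σ l))
    (by
      ext x
      simp only [LinearMap.comp_apply, h.rl_rl h.neg, add_neg_cancel, map_neg, h.vv,
        LinearMap.id_apply, rl_zero])
    (by
      ext x
      simp only [LinearMap.comp_apply, h.neg.rl_rl h, neg_add_cancel, map_neg, LinearMap.neg_apply,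
        h.vv, LinearMap.id_apply, add_comm _ l, add_neg_cancel, rl_zero])

section rho

variable {u v w : V} {l m : F}

lemma rho_apply (h : φ.RD u v l) (x : V) :
    rho h x = x + φ.b u x • v - (φ.ε * (φ.b v x + l * φ.b u x)) • u := φ.rl_apply u v l x

lemma rho_congr {u' v' : V} {l' : F} (h : φ.RD u v l) (h' : φ.RD u' v' l') (e1 : u = u')
    (e2 : v = v') (e3 : l = l') : rho h = rho h' := by
  subst e1 e2 e3; rfl

lemma rho_mul (h : φ.RD u v l) (h' : φ.RD u w m) : rho h * rho h' = rho (h.add h') := by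
  ext x
  exact h.rl_rl h' x

lemma rho_inv (h : φ.RD u v l) : (rho h)⁻¹ = rho h.neg := by
  ext x
  rfl

lemma rho_zero (h : φ.RD u 0 0) : rho h = 1 := by
  ext x
  exact rl_zero u x

lemma rho_zero_left (h : φ.RD 0 v l) : rho h = 1 := by
  ext x
  simp [rho_apply]

lemma rho_fix (h : φ.RD u v l) {x : V} (h1 : φ.b u x = 0) (h2 : φ.b v x = 0) : rho h x = x := by
  simp [rho_apply, h1, h2]

lemma rho_isom (h : φ.RD u v l) : rho h ∈ φ.Isom := by
  refine ⟨fun x y => ?_, fun x => ?_⟩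
  · simp only [rho_apply, map_add, map_sub, map_smul, LinearMap.add_apply, LinearMap.sub_apply,
      b_smul_left, h.uu, h.vu, h.orth, h.vv, smul_eq_mul, map_mul, σ_ε, φ.herm u x, φ.herm v x]
    have := φ.ε_mul_ε
    linear_combination (-φ.σ (φ.b u x) * (φ.b v y + l * φ.b u y)) * this
  · have h1 := φ.md_bar (φ.b v x * φ.σ (φ.b u x))
    rw [rho_apply, Q_sub, Q_add, φ.Q_smul_zero h.sing, φ.Q_smul' h.val, add_zero, add_assoc,
      add_sub_assoc, ← map_add, ← map_sub, add_eq_left, ← sub_self (φ.md _), ← h1]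
    nth_rewrite 2 [h1]
    rw [← map_sub]
    congr 1
    simp only [map_add, map_smul, LinearMap.add_apply, b_smul_left, h.vu, smul_eq_mul, map_mul,
      σσ', φ.herm u x, φ.herm v x]
    have := φ.ε_mul_ε
    linear_combination (-φ.σ (φ.b u x) * (φ.b v x + l * φ.b u x)) * this

lemma rho_conj (h : φ.RD u v l) {g : V ≃ₗ[F] V} (hg : g ∈ φ.Isom) :
    g * rho h * g⁻¹ = rho (h.map hg) := by
  ext x
  simp only [LinearEquiv.mul_apply, rho_apply, map_add, map_sub, map_smul, app_inv,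
    Isom.b_left hg]

lemma rho_IW {W : Submodule F V} (h : φ.RD u v l) (hu : u ∈ W) (hv : v ∈ W) : rho h ∈ φ.IW W :=
  ⟨rho_isom h, fun x hx => rho_fix h (hx u hu) (hx v hv)⟩

lemma rho_sub_mem {W : Submodule F V} (h : φ.RD u v l) (hu : u ∈ W) (hv : v ∈ W) (x : V) :
    rho h x - x ∈ W := by
  have : rho h x - x = φ.b u x • v - (φ.ε * (φ.b v x + l * φ.b u x)) • u := by
    rw [rho_apply]; abel
  rw [this]
  exact W.sub_mem (W.smul_mem _ hv) (W.smul_mem _ hu)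

end rho

variable (φ) in
/-- the group generated by the Eichler-Siegel transformations with vectors in `W` -/
def EW (W : Submodule F V) : Subgroup (V ≃ₗ[F] V) :=
  Subgroup.closure {g | ∃ (u v : V) (l : F) (h : φ.RD u v l), u ∈ W ∧ v ∈ W ∧ g = rho h}

lemma rho_EW {W : Submodule F V} {u v : V} {l : F} (h : φ.RD u v l) (hu : u ∈ W) (hv : v ∈ W) :
    rho h ∈ φ.EW W := Subgroup.subset_closure ⟨u, v, l, h, hu, hv, rfl⟩

lemma EW_le {W : Submodule F V} {N : Subgroup (V ≃ₗ[F] V)}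
    (h : ∀ (u v : V) (l : F) (h : φ.RD u v l), u ∈ W → v ∈ W → rho h ∈ N) : φ.EW W ≤ N := by
  refine (Subgroup.closure_le _).2 ?_
  rintro _ ⟨u, v, l, h', hu, hv, rfl⟩
  exact h u v l h' hu hv

lemma EW_le_IW (W : Submodule F V) : φ.EW W ≤ φ.IW W := EW_le fun _ _ _ h hu hv => rho_IW h hu hv

lemma EW_le_Isom (W : Submodule F V) : φ.EW W ≤ φ.Isom := (EW_le_IW W).trans (IW_le W)

lemma EW_mono {U W : Submodule F V} (h : U ≤ W) : φ.EW U ≤ φ.EW W :=
  EW_le fun _ _ _ h' hu hv => rho_EW h' (h hu) (h hv)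

lemma EW.conj' {U W : Submodule F V} {g k : V ≃ₗ[F] V} (hk : k ∈ φ.Isom) (hW : ∀ x ∈ U, k x ∈ W)
    (h : g ∈ φ.EW U) : k * g * k⁻¹ ∈ φ.EW W := by
  have : φ.EW U ≤ (φ.EW W).comap (MulAut.conj k).toMonoidHom := EW_le fun u v l h hu hv => by
    show k * rho h * k⁻¹ ∈ φ.EW W
    rw [rho_conj h hk]
    exact rho_EW _ (hW u hu) (hW v hv)
  exact this h

lemma EW.conj [Finite F] [FiniteDimensional F V] {W : Submodule F V} {g k : V ≃ₗ[F] V}
    (hk : k ∈ φ.IW W) (h : g ∈ φ.EW W) : k * g * k⁻¹ ∈ φ.EW W :=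
  EW.conj' hk.1 (fun _ hx => IW.map_mem hk hx) h

lemma EW.map_mem {W : Submodule F V} {g : V ≃ₗ[F] V} (h : g ∈ φ.EW W) (x : V) : g x - x ∈ W := by
  induction h using Subgroup.closure_induction generalizing x with
  | mem g hg =>
    obtain ⟨u, v, l, h', hu, hv, rfl⟩ := hg
    exact rho_sub_mem h' hu hv x
  | one => simp
  | mul a c _ _ ha hc => simpa using W.add_mem (ha (c x)) (hc x)
  | inv a _ ha => simpa using W.neg_mem (ha (a⁻¹ x))

end Form

end Vale.Agent.P183CF
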