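import Vale.Agent.P183CF.PolRing
import Vale.Agent.P183RL.Tr

/-!
The global structure theorems.
-/

set_option autoImplicit false
set_option linter.all false

namespace Vale.Agent.P183NK

open Subgroup Vale.Agent.P183A Vale.Agent.P183CF Module

namespace FS

variable {p : ℕ} [Fact p.Prime] {V : Type} [AddCommGroup V] [Module (ZMod p) V] {S : FS p V}
  {F : Type} [Field F] [Module F V]

/-- the preimage of a subring -/
def pre (F : Type) [Field F] [Module F V] (R : S.NR) : AddSubgroup (End F V) :=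
  R.toAddSubgroup.comap (S.up F).toAddMonoidHom

lemma mem_pre {R : S.NR} {a : End F V} : a ∈ pre F R ↔ S.up F a ∈ R := Iff.rfl

lemma pre_mul {R : S.NR} : ∀ x ∈ pre F R, ∀ y ∈ pre F R, x * y ∈ pre F R := fun x hx y hy => by
  rw [mem_pre, map_mul]
  exact mul_mem hx hy

lemma comm_r1 {φ : Form F V} {x : S.E} {v w : V} (e : φ.b w v = 1)
    (h : x * S.up F (φ.r1 v w) = S.up F (φ.r1 v w) * x) : x v ∈ F ∙ v := by
  have := congrArg (fun f : S.E => f v) h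
  simp only [End.mul_apply, up_apply, Form.r1_apply, e, one_smul] at this
  rw [this]
  exact Submodule.smul_mem _ _ (Submodule.mem_span_singleton_self v)

variable [Finite F] [Finite V]

namespace Real

variable {K : S.NR} {φ : Form F V} {τ : F →+ ZMod p} (h : S.Real K φ τ)
include h

omit [Finite F] [Finite V] in
lemma st_r1' {R : S.NR} (hs : ∀ x ∈ R, S.st x ∈ R) {a w : V} (e : φ.r1 a (φ.ε • w) ∈ pre F R) :
    φ.r1 w a ∈ pre F R := by
  have := hs _ (mem_pre.1 e)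
  rw [h.st_r1] at this
  rwa [show φ.r1 w a = φ.ε • φ.r1 (φ.ε • w) a by ext; simp [smul_smul, mul_comm _ φ.ε]]

theorem perfect (hd : 21 ≤ finrank F V) :
    ⁅S.om (S.cent K 1), S.om (S.cent K 1)⁆ = S.om (S.cent K 1) := by
  have := fd (F := F) (V := V)
  rw [h.om_eq hd, ← Subgroup.map_commutator, Form.EW_perfect φ.nd_top (by rw [finrank_top]; omega)]

theorem normal (hd : 21 ≤ finrank F V) {X : Subgroup S.Eˣ} (hN : Nm (S.om (S.cent K 1)) X)
    {g : S.Eˣ} (hg : g ∈ X) (hI : g ∈ S.iso (S.cent K 1)) (h0 : g.1 ∉ K) :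
    S.om (S.cent K 1) ≤ X := by
  have := fd (F := F) (V := V)
  rw [h.iso_eq] at hI
  obtain ⟨k, hk, rfl⟩ := hI
  rw [h.om_eq hd] at hN ⊢
  refine map_le_iff_le_comap.2 (Form.EW_le_of_normal φ.nd_top (by rw [finrank_top]; omega)
    (fun a ha x hx => ?_) (k := k) hg hk (fun _ _ => trivial) fun ⟨c, hc⟩ =>
      h0 ((h.scal _).2 ⟨c, fun v => hc v trivial⟩))
  simpa [mem_comap] using hN _ ⟨a, ha, rfl⟩ _ hx

theorem invar (hd : 23 ≤ finrank F V) {R : S.NR} (hN : S.NmR (S.om (S.cent K 1)) R) {x : S.E}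
    (hx : x ∈ R) (hA : x ∈ S.cent K 1) (h0 : x ∉ K) : S.cent K 1 ≤ R := by
  have := fd (F := F) (V := V)
  obtain ⟨a, rfl⟩ := h.mem_cent'.1 hA
  intro y hy
  obtain ⟨b, rfl⟩ := h.mem_cent'.1 hy
  exact Form.top_of_inv (φ := φ) hd (R := pre F R) pre_mul
    (fun g hg x hx => hN _ (h.EW_le_om (by omega) hg) _ hx) hx (fun e => h0 ((h.scal _).2 e)) b

theorem mem_of_comm (hd : 11 ≤ finrank F V) {x : S.E}
    (hx : ∀ g ∈ S.om (S.cent K 1), x * g.1 = g.1 * x) : x ∈ K := by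
  have := fd (F := F) (V := V)
  obtain ⟨c, hc⟩ := Form.scalar_of_comm φ.nd_top (by rw [finrank_top]; omega) x.toAddMonoidHom
    fun g hg v => congrArg (fun f : S.E => f v) (hx _ (h.EW_le_om hd hg))
  exact (h.scal x).2 ⟨c, fun v => hc v trivial⟩

theorem fix_om (hd : 11 ≤ finrank F V) {v : V} (hv : ∀ g ∈ S.om (S.cent K 1), g.1 v = v) :
    v = 0 := by
  have := fd (F := F) (V := V)
  by_contra h0
  have d1 := finrank_span1 (F := F) v
  obtain ⟨w, -, h1, h2, -⟩ := φ.nd_top.exists_orth (U := F ∙ v) le_top (by rw [finrank_top]; omega)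
    (φ.Q v)
  obtain ⟨g, hg, e⟩ := Form.trans1 φ.nd_top (by rw [finrank_top]; omega) trivial trivial h0
    (fun e : w = 0 => h1 (e ▸ zero_mem _)) h2.symm
  exact h1 (by rw [← e, ← upU_apply (S := S), hv _ (h.EW_le_om hd hg)]
               exact Submodule.mem_span_singleton_self v)

lemma card_cent : Nat.card (S.cent K 1) = Nat.card F ^ (finrank F V * finrank F V) := by
  have := fd (F := F) (V := V)
  rw [← Module.finrank_linearMap F F V V, ← Module.natCard_eq_pow_finrank]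
  symm
  refine Nat.card_congr (Equiv.ofBijective (fun a => (⟨S.up F a, h.up_mem a⟩ : S.cent K 1))
    ⟨fun a b e => up_inj (congrArg Subtype.val e), fun ⟨x, hx⟩ => ?_⟩)
  obtain ⟨a, rfl⟩ := h.mem_cent'.1 hx
  exact ⟨a, rfl⟩

lemma ctr_le : S.ctr (S.cent K 1) 1 ≤ K := by
  have := fd (F := F) (V := V)
  rintro x ⟨hx, hc⟩
  obtain ⟨a, rfl⟩ := h.mem_cent'.1 hx
  obtain ⟨c, hc⟩ := Form.Pol.scalar_of_all (X := ⊤) (T := a) fun v _ => by
    by_cases h0 : v = 0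
    · simp [h0]
    obtain ⟨f, hf, -⟩ := exists_fun (U := (⊥ : Submodule F V)) (x := v) (by simpa using h0)
    obtain ⟨w, rfl⟩ := φ.riesz f
    exact comm_r1 hf (hc.2.2 _ (h.up_mem _))
  exact (h.scal _).2 ⟨c, fun v => hc v trivial⟩

lemma ideal {R : S.NR} (hi : ∀ x ∈ R, ∀ y ∈ S.cent K 1, x * y ∈ R ∧ y * x ∈ R) {x : S.E}
    (hx : x ∈ R) (hA : x ∈ S.cent K 1) (h0 : x ≠ 0) : S.cent K 1 ≤ R := by
  have := fd (F := F) (V := V)
  obtain ⟨a, rfl⟩ := h.mem_cent'.1 hA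
  obtain ⟨v, hv⟩ : ∃ v, a v ≠ 0 := by
    by_contra hn
    push Not at hn
    exact h0 (LinearMap.ext hn)
  obtain ⟨f, hf, -⟩ := exists_fun (U := (⊥ : Submodule F V)) (x := a v) (by simpa using hv)
  obtain ⟨w, rfl⟩ := φ.riesz f
  intro y hy
  obtain ⟨b, rfl⟩ := h.mem_cent'.1 hy
  refine Form.top_of_r1 (φ := φ) (R := pre F R) (fun c z => ?_) b
  have := (hi _ (hi _ hx _ (h.up_mem (φ.r1 v z))).1 _ (h.up_mem (φ.r1 c w))).2
  rwa [← map_mul, ← map_mul, Form.mul_r1, Form.r1_mul, hf, one_smul] at this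

end Real

namespace RealA

variable {Z : S.NR} {φ : Form F V} {τ : F →+ ZMod p} {X Y : Submodule F V}
  (h : S.RealA Z φ τ X Y)
include h

theorem perfectA (hd : 3 ≤ finrank F X) :
    ⁅S.om (S.cent Z 1), S.om (S.cent Z 1)⁆ = S.om (S.cent Z 1) := by
  have := Real.fd (F := F) (V := V)
  rw [h.om_eqA hd, ← Subgroup.map_commutator, h.pol.EL_perfect hd]

omit [Finite F] [Finite V] in
lemma mem_of_scalar {k : V ≃ₗ[F] V} (hk : k ∈ φ.LV X Y) {c : F} (hc : ∀ x ∈ X, k x = c • x) :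
    (S.upU F k).1 ∈ Z := by
  refine (h.scalA _).2 ⟨c, c⁻¹, hc, fun y hy => h.pol.symm.ext_x (Form.LV.my hk hy)
    (Y.smul_mem _ hy) fun x hx => ?_⟩
  by_cases h0 : c = 0
  · rw [k.injective (a₁ := x) (a₂ := 0) (by simp [hc x hx, h0])]
    simp
  · rw [map_smul, ← hk.1.1 x y, hc x hx]
    simp [h.σ1, h0]

theorem normalA (hd : 4 ≤ finrank F X) {N : Subgroup S.Eˣ} (hN : Nm (S.om (S.cent Z 1)) N)
    {g : S.Eˣ} (hg : g ∈ N) (hI : g ∈ S.iso (S.cent Z 1)) (h0 : g.1 ∉ Z) :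
    S.om (S.cent Z 1) ≤ N := by
  have := Real.fd (F := F) (V := V)
  rw [h.iso_eqA] at hI
  obtain ⟨k, hk, rfl⟩ := hI
  rw [h.om_eqA (by omega)] at hN ⊢
  refine map_le_iff_le_comap.2 (h.pol.EL_le_of_normal hd (fun a ha x hx => ?_) (k := k) hg hk
    fun ⟨c, hc⟩ => h0 (h.mem_of_scalar hk hc))
  simpa [mem_comap] using hN _ ⟨a, ha, rfl⟩ _ hx

lemma le_of_r1 {R : S.NR} (hs : ∀ x ∈ R, S.st x ∈ R) (e : ∀ a ∈ X, ∀ w ∈ Y, φ.r1 a w ∈ pre F R) :
    S.cent Z 1 ≤ R := by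
  have := Real.fd (F := F) (V := V)
  intro y hy
  obtain ⟨b, h1, h2, rfl⟩ := h.mem_centA'.1 hy
  exact h.pol.mem_of_r1 e (fun a ha w hw => h.st_r1' hs (e w hw _ (Y.smul_mem _ ha))) h1 h2

omit [Finite F] [Finite V] in
lemma not_scalar {a : End F V} (h0 : S.up F a ∉ Z) :
    (¬ ∃ c : F, ∀ v ∈ X, a v = c • v) ∨ ¬ ∃ c : F, ∀ v ∈ Y, a v = c • v := by
  by_contra hn
  push Not at hn
  obtain ⟨⟨c, hc⟩, d, hd⟩ := hn
  exact h0 ((h.scalA _).2 ⟨c, d, hc, hd⟩)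

theorem invarA (hd : 9 ≤ finrank F X) {R : S.NR} (hs : ∀ x ∈ R, S.st x ∈ R)
    (hN : S.NmR (S.om (S.cent Z 1)) R) {x : S.E} (hx : x ∈ R) (hA : x ∈ S.cent Z 1) (h0 : x ∉ Z) :
    S.cent Z 1 ≤ R := by
  have := Real.fd (F := F) (V := V)
  obtain ⟨a, h1, h2, rfl⟩ := h.mem_centA'.1 hA
  have k : ∀ {X Y : Submodule F V}, S.RealA Z φ τ X Y → 9 ≤ finrank F X → (∀ v ∈ X, a v ∈ X) →
      (¬ ∃ c : F, ∀ v ∈ X, a v = c • v) → S.cent Z 1 ≤ R := fun h hd h1 h0 =>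
    h.le_of_r1 hs fun c hc w hw => h.pol.r1_of_inv hd pre_mul (fun g hg x hx => hN (S.upU F g) (by
      rw [h.om_eqA (by omega)]; exact mem_map_of_mem _ hg) _ hx) hx h1 h0 hc hw
  exact (h.not_scalar h0).elim (k h hd h1) (k h.symm (by rwa [h.pol.finrank_eq]) h2)

theorem mem_of_commA (hd : 3 ≤ finrank F X) {x : S.E} (hA : x ∈ S.cent Z 1)
    (hx : ∀ g ∈ S.om (S.cent Z 1), x * g.1 = g.1 * x) : x ∈ Z := by
  have := Real.fd (F := F) (V := V)
  obtain ⟨a, h1, h2, rfl⟩ := h.mem_centA'.1 hA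
  have k : ∀ {X Y : Submodule F V}, S.RealA Z φ τ X Y → 3 ≤ finrank F X → (∀ v ∈ X, a v ∈ X) →
      ∃ c : F, ∀ v ∈ X, a v = c • v := fun h hd h1 =>
    h.pol.scalar_of_commA (by omega) h1 fun g hg v => congrArg (fun f : S.E => f v)
      (hx (S.upU F g) (by rw [h.om_eqA hd]; exact mem_map_of_mem _ hg))
  by_contra h0
  exact (h.not_scalar h0).elim (fun e => e (k h hd h1))
    fun e => e (k h.symm (by rwa [h.pol.finrank_eq]) h2)

theorem fix_omA (hd : 3 ≤ finrank F X) {v : V} (hv : ∀ g ∈ S.om (S.cent Z 1), g.1 v = v) :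
    v = 0 := by
  have := Real.fd (F := F) (V := V)
  rw [h.om_eqA hd] at hv
  exact h.pol.eq_zero_of_fix (by omega) fun g hg => hv _ (mem_map_of_mem _ hg)

lemma card_centA : Nat.card (S.cent Z 1) = (Nat.card F ^ 2) ^ (finrank F X * finrank F X) := by
  have := Real.fd (F := F) (V := V)
  have e1 : Nat.card (End F X) = Nat.card F ^ (finrank F X * finrank F X) := by
    rw [← Module.finrank_linearMap F F X X, ← Module.natCard_eq_pow_finrank]
  have e2 : Nat.card (End F Y) = Nat.card F ^ (finrank F X * finrank F X) := by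
    rw [← h.pol.finrank_eq, ← Module.finrank_linearMap F F Y Y, ← Module.natCard_eq_pow_finrank]
  rw [← pow_mul, mul_comm 2, pow_mul, pow_two]
  nth_rewrite 1 [← e1]
  rw [← e2, ← Nat.card_prod]
  symm
  let g : End F X × End F Y → End F V := fun a =>
    X.subtype ∘ₗ a.1 ∘ₗ Submodule.projectionOnto X Y h.pol.isCompl +
      Y.subtype ∘ₗ a.2 ∘ₗ Submodule.projectionOnto Y X h.pol.symm.isCompl
  have g1 : ∀ a (x : X), g a x = a.1 x := fun a x => by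
    simp [g, Submodule.projectionOnto_apply_right h.pol.symm.isCompl x]
  have g2 : ∀ a (x : Y), g a x = a.2 x := fun a x => by
    simp [g, Submodule.projectionOnto_apply_right h.pol.isCompl x]
  refine Nat.card_congr (Equiv.ofBijective (fun a => (⟨S.up F (g a), h.up_memA.2
    ⟨fun v hv => by rw [g1 a ⟨v, hv⟩]; exact (a.1 _).2,
      fun v hv => by rw [g2 a ⟨v, hv⟩]; exact (a.2 _).2⟩⟩ : S.cent Z 1))
    ⟨fun a b e => ?_, fun ⟨x, hx⟩ => ?_⟩)
  · have e3 : g a = g b := up_inj (congrArg Subtype.val e)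
    exact Prod.ext (LinearMap.ext fun x => Subtype.ext (by rw [← g1, e3, g1]))
      (LinearMap.ext fun x => Subtype.ext (by rw [← g2, e3, g2]))
  · obtain ⟨a, h1, h2, rfl⟩ := h.mem_centA'.1 hx
    refine ⟨(a.restrict h1, a.restrict h2), Subtype.ext (congrArg (S.up F) ?_)⟩
    exact h.pol.map_ext (fun v hv => g1 _ ⟨v, hv⟩) fun v hv => g2 _ ⟨v, hv⟩

lemma ctr_leA : S.ctr (S.cent Z 1) 1 ≤ Z := by
  have := Real.fd (F := F) (V := V)
  rintro x ⟨hx, hc⟩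
  obtain ⟨a, -, -, rfl⟩ := h.mem_centA'.1 hx
  have k : ∀ {X Y : Submodule F V}, S.RealA Z φ τ X Y → ∃ c : F, ∀ v ∈ X, a v = c • v :=
    fun h => Form.Pol.scalar_of_all fun v hv => by
      by_cases h0 : v = 0
      · simp [h0]
      obtain ⟨w, hw, e⟩ := h.pol.exists_dual1 hv h0
      exact comm_r1 e (hc.2.2 _ (h.r1_mem hv hw))
  by_contra h0
  exact (h.not_scalar h0).elim (fun e => e (k h)) fun e => e (k h.symm)

lemma idealA {R : S.NR} (hs : ∀ x ∈ R, S.st x ∈ R)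
    (hi : ∀ x ∈ R, ∀ y ∈ S.cent Z 1, x * y ∈ R ∧ y * x ∈ R) {x : S.E}
    (hx : x ∈ R) (hA : x ∈ S.cent Z 1) (h0 : x ≠ 0) : S.cent Z 1 ≤ R := by
  have := Real.fd (F := F) (V := V)
  obtain ⟨a, h1, h2, rfl⟩ := h.mem_centA'.1 hA
  have k : ∀ {X Y : Submodule F V}, S.RealA Z φ τ X Y → (∀ v ∈ X, a v ∈ X) → ∀ v ∈ X, a v ≠ 0 →
      S.cent Z 1 ≤ R := fun h h1 v hv h0 => h.le_of_r1 hs fun c hc z hz => by
    obtain ⟨w, hw, e⟩ := h.pol.exists_dual1 (h1 v hv) h0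
    have := (hi _ (hi _ hx _ (h.r1_mem hv hz)).1 _ (h.r1_mem hc hw)).2
    rwa [← map_mul, ← map_mul, Form.mul_r1, Form.r1_mul, e, one_smul] at this
  by_contra hn
  refine h0 (h.pol.map_ext (fun v hv => ?_) fun v hv => ?_)
  · by_contra e
    exact hn (k h h1 v hv e)
  · by_contra e
    exact hn (k h.symm h2 v hv e)

end RealA

omit [Finite F] F

namespace Scal

variable {Z : S.NR} (h : S.Scal Z 1) {n : ℕ}
include h

theorem perfect (hr : S.Rank Z 1 n) (hn : 21 ≤ n) :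
    ⁅S.om (S.cent Z 1), S.om (S.cent Z 1)⁆ = S.om (S.cent Z 1) := by
  have := h.toLoc.nontrivial
  rcases h.real_cases with ⟨F, _, _, _, φ, τ, r⟩ | ⟨F, _, _, _, φ, τ, X, Y, r⟩
  · exact r.perfect (by rwa [r.rank_iff.1 hr])
  · exact r.perfectA (by rw [r.rank_iffA.1 hr]; omega)

theorem normal (hr : S.Rank Z 1 n) (hn : 21 ≤ n) {N : Subgroup S.Eˣ}
    (hN : Nm (S.om (S.cent Z 1)) N) {g : S.Eˣ} (hg : g ∈ N) (hI : g ∈ S.iso (S.cent Z 1))
    (h0 : g.1 ∉ Z) : S.om (S.cent Z 1) ≤ N := by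
  have := h.toLoc.nontrivial
  rcases h.real_cases with ⟨F, _, _, _, φ, τ, r⟩ | ⟨F, _, _, _, φ, τ, X, Y, r⟩
  · exact r.normal (by rwa [r.rank_iff.1 hr]) hN hg hI h0
  · exact r.normalA (by rw [r.rank_iffA.1 hr]; omega) hN hg hI h0

theorem invar (hr : S.Rank Z 1 n) (hn : 23 ≤ n) {R : S.NR} (hs : ∀ x ∈ R, S.st x ∈ R)
    (hN : S.NmR (S.om (S.cent Z 1)) R) {x : S.E} (hx : x ∈ R) (hA : x ∈ S.cent Z 1) (h0 : x ∉ Z) :
    S.cent Z 1 ≤ R := by
  have := h.toLoc.nontrivial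
  rcases h.real_cases with ⟨F, _, _, _, φ, τ, r⟩ | ⟨F, _, _, _, φ, τ, X, Y, r⟩
  · exact r.invar (by rwa [r.rank_iff.1 hr]) hN hx hA h0
  · exact r.invarA (by rw [r.rank_iffA.1 hr]; omega) hs hN hx hA h0

/-- the commutant of `Ω` in `A` is `Z` -/
theorem mem_of_comm (hr : S.Rank Z 1 n) (hn : 11 ≤ n) {x : S.E} (hA : x ∈ S.cent Z 1)
    (hx : ∀ g ∈ S.om (S.cent Z 1), x * g.1 = g.1 * x) : x ∈ Z := by
  have := h.toLoc.nontrivial
  rcases h.real_cases with ⟨F, _, _, _, φ, τ, r⟩ | ⟨F, _, _, _, φ, τ, X, Y, r⟩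
  · exact r.mem_of_comm (by rwa [r.rank_iff.1 hr]) hx
  · exact r.mem_of_commA (by rw [r.rank_iffA.1 hr]; omega) hA hx

theorem fix_om (hr : S.Rank Z 1 n) (hn : 11 ≤ n) {v : V}
    (hv : ∀ g ∈ S.om (S.cent Z 1), g.1 v = v) : v = 0 := by
  have := h.toLoc.nontrivial
  rcases h.real_cases with ⟨F, _, _, _, φ, τ, r⟩ | ⟨F, _, _, _, φ, τ, X, Y, r⟩
  · exact r.fix_om (by rwa [r.rank_iff.1 hr]) hv
  · exact r.fix_omA (by rw [r.rank_iffA.1 hr]; omega) hv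

theorem rank_card : ∃ r, S.Rank Z 1 r ∧ Nat.card (S.cent Z 1) = Nat.card Z ^ (r * r) := by
  have := h.toLoc.nontrivial
  rcases h.real_cases with ⟨F, _, _, _, φ, τ, r⟩ | ⟨F, _, _, _, φ, τ, X, Y, r⟩
  · exact ⟨_, r.rank_iff.2 rfl, by rw [r.card_cent, r.card_K]⟩
  · exact ⟨_, r.rank_iffA.2 rfl, by rw [r.card_centA, r.card_Z]⟩

theorem ctr_eq1 : S.ctr (S.cent Z 1) 1 = Z := by
  refine le_antisymm ?_ fun x hx => ⟨h.le_cent hx, h.toLoc.le_cent_cent hx⟩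
  rcases h.real_cases with ⟨F, _, _, _, φ, τ, r⟩ | ⟨F, _, _, _, φ, τ, X, Y, r⟩
  · exact r.ctr_le
  · exact r.ctr_leA

theorem simp1 : S.Simp (S.cent Z 1) 1 where
  toLoc := h.toLoc.cent
  simple := fun R hR hs hi => by
    by_cases h0 : R = ⊥
    · exact Or.inl h0
    obtain ⟨x, hx, hx0⟩ : ∃ x ∈ R, x ≠ 0 := by
      by_contra hn
      push Not at hn
      exact h0 (eq_bot_iff.2 fun x hx => NonUnitalSubring.mem_bot.2 (hn x hx))
    refine Or.inr (le_antisymm hR ?_)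
    rcases h.real_cases with ⟨F, _, _, _, φ, τ, r⟩ | ⟨F, _, _, _, φ, τ, X, Y, r⟩
    · exact r.ideal hi hx (hR hx) hx0
    · exact r.idealA hs hi hx (hR hx) hx0

end Scal

end FS

open FS

theorem n1g : N1g 21 := fun _ _ _ _ _ _ S Z n h hr hn => by
  refine ⟨(h.perfect hr hn).ge, fun X hX hN => ?_⟩
  by_cases h0 : ∀ g ∈ X, g.1 ∈ Z
  · exact Or.inl fun g hg x hx => (hx.2.2 _ (h0 g hg)).symm
  · push Not at h0
    obtain ⟨g, hg, h1⟩ := h0
    exact Or.inr (h.normal hr hn hN hg (hX hg) h1)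

theorem n2g : N2g 23 := fun _ _ _ _ _ _ S Z n h hr hn R hR hs hN => by
  by_cases h0 : R ≤ Z
  · exact Or.inl h0
  · obtain ⟨x, hx, h1⟩ := SetLike.not_le_iff_exists.1 h0
    exact Or.inr (le_antisymm hR (h.invar hr hn hs hN hx (hR hx) h1))

theorem rkg : RKg := fun _ _ _ _ _ _ S Z h => h.rank_card

end Vale.Agent.P183NK
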