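import Vale.Agent.P183CF.Pol
import Mathlib.LinearAlgebra.Matrix.SpecialLinearGroup
import Mathlib.LinearAlgebra.Matrix.GeneralLinearGroup.Defs
import Mathlib.LinearAlgebra.Matrix.Swap

/-!
The Levi subgroup `GL(X)` attached to a hyperbolic frame.
-/

set_option autoImplicit false
set_option linter.all false

namespace Vale.Agent.P183CF

open Module Matrix

section gl

variable {F : Type*} [Field F] {ι : Type*} [DecidableEq ι] [Fintype ι]

/-- in dimension at least three `SL` lies in the derived group of `GL` -/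
theorem toGL_mem_commutator (hι : 3 ≤ Fintype.card ι) (A : SpecialLinearGroup ι F) :
    SpecialLinearGroup.toGL A ∈ commutator (GL ι F) := by
  have : Nontrivial ι := Fintype.one_lt_card_iff_nontrivial.1 (by omega)
  refine SpecialLinearGroup.diagonal_transvection_induction'
    (fun A => SpecialLinearGroup.toGL A ∈ commutator (GL ι F)) A (fun i j hij c hc => ?_)
    (fun i j hij a => ?_) fun A B ha hb => by rw [map_mul]; exact mul_mem ha hb
  · let d : GL ι F := ⟨diagonal (Function.update 1 i c), diagonal (Function.update 1 i c⁻¹), by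
      rw [diagonal_mul_diagonal, ← diagonal_one]
      congr 1
      ext k
      by_cases h : k = i <;> simp [h, hc], by
      rw [diagonal_mul_diagonal, ← diagonal_one]
      congr 1
      ext k
      by_cases h : k = i <;> simp [h, hc]⟩
    let s : GL ι F := ⟨swap F i j, swap F i j, swap_mul_self i j, swap_mul_self i j⟩
    have : _ ∈ commutator (GL ι F) :=
      Subgroup.commutator_mem_commutator (Subgroup.mem_top d) (Subgroup.mem_top s)
    convert this using 1
    apply Units.ext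
    show _ = diagonal (Function.update 1 i c) * swap F i j * diagonal (Function.update 1 i c⁻¹) *
      swap F i j
    rw [Matrix.mul_assoc, Matrix.mul_assoc, ← Matrix.mul_assoc (swap F i j)]
    ext k l
    rw [diagonal_mul]
    simp only [swap, PEquiv.toMatrix_toPEquiv_mul, PEquiv.mul_toMatrix_toPEquiv, submatrix_apply, id,
      Equiv.symm_swap, diagonal_apply, EmbeddingLike.apply_eq_iff_eq]
    show diagonal _ k l = _
    rw [diagonal_apply]
    by_cases h1 : k = l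
    · subst h1
      by_cases h2 : k = i
      · subst h2
        simp [hij.symm]
      · by_cases h3 : k = j
        · subst h3
          simp [h2]
        · simp [h2, h3, Equiv.swap_apply_of_ne_of_ne h2 h3]
    · simp [h1]
  · obtain ⟨l, hl⟩ : ∃ l, l ∉ ({i, j} : Finset ι) := by
      by_contra hn
      push Not at hn
      have := Finset.card_le_card (fun x _ => hn x : Finset.univ ⊆ ({i, j} : Finset ι))
      have h2 := Finset.card_le_two (a := i) (b := j)
      rw [Finset.card_univ] at this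
      omega
    simp only [Finset.mem_insert, Finset.mem_singleton, not_or] at hl
    have hil : i ≠ l := fun e => hl.1 e.symm
    have : _ ∈ commutator (GL ι F) := Subgroup.commutator_mem_commutator
      (Subgroup.mem_top (SpecialLinearGroup.toGL (SpecialLinearGroup.transvection hil a)))
      (Subgroup.mem_top (SpecialLinearGroup.toGL (SpecialLinearGroup.transvection hl.2 (1 : F))))
    convert this using 1
    rw [commutatorElement_def, ← map_inv, ← map_inv, ← map_mul, ← map_mul, ← map_mul,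
      SpecialLinearGroup.transvection_inv, SpecialLinearGroup.transvection_inv]
    congr 1
    apply Subtype.ext
    show transvection i j a = transvection i l a * transvection l j 1 * transvection i l (-a) *
      transvection l j (-1)
    simp [transvection, mul_add, add_mul, hij, hij.symm, hil, hil.symm, hl.1, hl.2, Ne.symm hl.2,
      ← single_neg]
    abel

end gl

namespace Form

variable {F V : Type*} [Field F] [AddCommGroup V] [Module F V] (φ : Form F V)
  {ι : Type*} [DecidableEq ι] [Fintype ι]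

/-- the map that acts as `A` on the span of `e`, as `B` on the span of `f`, and trivially on the
complement -/
def lm (e f : ι → V) (A B : Matrix ι ι F) : End F V :=
  1 + Fintype.linearCombination F e ∘ₗ (A - 1).mulVecLin ∘ₗ LinearMap.pi (fun i => φ.ε • φ.b (f i)) +
    Fintype.linearCombination F f ∘ₗ (B - 1).mulVecLin ∘ₗ LinearMap.pi (fun i => φ.b (e i))

lemma lm_apply (e f : ι → V) (A B : Matrix ι ι F) (x : V) : φ.lm e f A B x =
    x + ∑ i, ((A - 1) *ᵥ φ.ca f x) i • e i + ∑ i, ((B - 1) *ᵥ φ.cc e x) i • f i := rfl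

/-- the dual matrix -/
def dm (A : GL ι F) : Matrix ι ι F := (A⁻¹.1.map φ.σ)ᵀ

lemma dm_one : φ.dm (1 : GL ι F) = 1 := by simp [dm]

lemma dm_mul (A B : GL ι F) : φ.dm (A * B) = φ.dm A * φ.dm B := by
  rw [dm, dm, dm, _root_.mul_inv_rev, Units.val_mul, Matrix.map_mul, transpose_mul]

lemma dm_dot (A : GL ι F) (a c : ι → F) :
    (fun i => φ.σ ((A.1 *ᵥ a) i)) ⬝ᵥ (φ.dm A *ᵥ c) = (fun i => φ.σ (a i)) ⬝ᵥ c := by
  have h1 : (fun i => φ.σ ((A.1 *ᵥ a) i)) = A.1.map φ.σ *ᵥ fun i => φ.σ (a i) := by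
    ext i
    simp [mulVec, dotProduct]
  rw [h1, dm, dotProduct_mulVec, vecMul_transpose, mulVec_mulVec, ← Matrix.map_mul, Units.inv_mul]
  simp

lemma dm_dot' (A : GL ι F) (a c : ι → F) :
    (fun i => φ.σ ((φ.dm A *ᵥ c) i)) ⬝ᵥ (A.1 *ᵥ a) = (fun i => φ.σ (c i)) ⬝ᵥ a := by
  have h1 : ∀ a c : ι → F, (fun i => φ.σ (c i)) ⬝ᵥ a = φ.σ ((fun i => φ.σ (a i)) ⬝ᵥ c) := by
    intro a c
    simp [dotProduct, mul_comm]
  rw [h1, h1 a, dm_dot]

variable {φ}

namespace Frame

variable {e f : ι → V} (h : φ.Frame e f)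
include h

lemma decomp (x : V) : ∃ (a c : ι → F), ∃ z ∈ φ.perp (φ.FS e f),
    x = ∑ i, a i • e i + ∑ i, c i • f i + z := 
  ⟨_, _, _, h.rest_mem x, (add_sub_cancel _ _).symm⟩

lemma lm_comb (A B : Matrix ι ι F) (a c : ι → F) {z : V} (hz : z ∈ φ.perp (φ.FS e f)) :
    φ.lm e f A B (∑ i, a i • e i + ∑ i, c i • f i + z) =
      ∑ i, (A *ᵥ a) i • e i + ∑ i, (B *ᵥ c) i • f i + z := by
  obtain ⟨h1, h2⟩ := mem_perp_FS.1 hz
  have e1 : φ.ca f (∑ i, a i • e i + ∑ i, c i • f i + z) = a := by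
    ext j
    simp [ca, h.fe, h.ff, h2, mul_comm _ φ.ε]
  have e2 : φ.cc e (∑ i, a i • e i + ∑ i, c i • f i + z) = c := by
    ext j
    simp [cc, h.ee, h.ef, h1]
  rw [lm_apply, e1, e2]
  simp only [sub_mulVec, one_mulVec, Pi.sub_apply, sub_smul, Finset.sum_sub_distrib]
  abel

lemma lm_mul (A B A' B' : Matrix ι ι F) (x : V) :
    φ.lm e f A B (φ.lm e f A' B' x) = φ.lm e f (A * A') (B * B') x := by
  obtain ⟨a, c, z, hz, rfl⟩ := h.decomp x
  rw [h.lm_comb _ _ _ _ hz, h.lm_comb _ _ _ _ hz, h.lm_comb _ _ _ _ hz, mulVec_mulVec, mulVec_mulVec]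

omit h in
lemma lm_one (x : V) : φ.lm e f 1 1 x = x := by simp [lm_apply]

/-- the Levi subgroup -/
def lev : GL ι F →* (V ≃ₗ[F] V) where
  toFun A := LinearEquiv.ofLinear (φ.lm e f A.1 (φ.dm A)) (φ.lm e f A⁻¹.1 (φ.dm A⁻¹))
    (LinearMap.ext fun x => by
      simp only [LinearMap.comp_apply, h.lm_mul, ← dm_mul, Units.mul_inv, mul_inv_cancel, dm_one,
        lm_one, LinearMap.id_apply])
    (LinearMap.ext fun x => by
      simp only [LinearMap.comp_apply, h.lm_mul, ← dm_mul, Units.inv_mul, inv_mul_cancel, dm_one,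
        lm_one, LinearMap.id_apply])
  map_one' := LinearEquiv.ext fun x => by
    show φ.lm e f 1 (φ.dm 1) x = x
    rw [dm_one, lm_one]
  map_mul' A B := LinearEquiv.ext fun x => by
    show φ.lm e f (A.1 * B.1) (φ.dm (A * B)) x = φ.lm e f A.1 (φ.dm A) (φ.lm e f B.1 (φ.dm B) x)
    rw [h.lm_mul, dm_mul]

lemma lev_apply (A : GL ι F) (x : V) : h.lev A x = φ.lm e f A.1 (φ.dm A) x := rfl

lemma lev_comb (A : GL ι F) (a c : ι → F) {z : V} (hz : z ∈ φ.perp (φ.FS e f)) :
    h.lev A (∑ i, a i • e i + ∑ i, c i • f i + z) =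
      ∑ i, (A.1 *ᵥ a) i • e i + ∑ i, (φ.dm A *ᵥ c) i • f i + z := h.lm_comb _ _ _ _ hz

lemma lev_e (A : GL ι F) (a : ι → F) : h.lev A (∑ i, a i • e i) = ∑ i, (A.1 *ᵥ a) i • e i := by
  simpa using h.lev_comb A a 0 (zero_mem _)

lemma lev_f (A : GL ι F) (a : ι → F) : h.lev A (∑ i, a i • f i) = ∑ i, (φ.dm A *ᵥ a) i • f i := by
  simpa using h.lev_comb A 0 a (zero_mem _)

lemma lev_e' (A : GL ι F) (j : ι) : h.lev A (e j) = ∑ i, A.1 i j • e i := by
  simpa [Pi.single_apply] using h.lev_e A (Pi.single j 1)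

lemma lev_fix (A : GL ι F) {z : V} (hz : z ∈ φ.perp (φ.FS e f)) : h.lev A z = z := by
  simpa using h.lev_comb A 0 0 hz

lemma lev_isom (A : GL ι F) : h.lev A ∈ φ.Isom := by
  refine ⟨fun x y => ?_, fun x => ?_⟩
  · obtain ⟨a, c, z, hz, rfl⟩ := h.decomp x
    obtain ⟨a', c', z', hz', rfl⟩ := h.decomp y
    have k : ∀ s ∈ φ.FS e f, ∀ t ∈ φ.FS e f, φ.b (s + z) (t + z') = φ.b s t + φ.b z z' :=
      fun s hs t ht => by simp [hz' s hs, φ.mem_perp'.1 hz t ht]
    rw [h.lev_comb _ _ _ hz, h.lev_comb _ _ _ hz', k _ (comb_mem _ _) _ (comb_mem _ _),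
      k _ (comb_mem _ _) _ (comb_mem _ _), h.b_comb, h.b_comb, dm_dot, dm_dot']
  · obtain ⟨a, c, z, hz, rfl⟩ := h.decomp x
    rw [h.lev_comb _ _ _ hz, Q_add _ _ z, Q_add _ _ z, h.Q_comb, h.Q_comb, dm_dot,
      hz _ (comb_mem _ _), hz _ (comb_mem _ _)]

lemma lev_IW (A : GL ι F) : h.lev A ∈ φ.IW (φ.FS e f) := ⟨h.lev_isom A, fun _ => h.lev_fix A⟩

lemma lev_scalar {A : GL ι F} {c : F} (e1 : ∀ j, h.lev A (e j) = c • e j) : A.1 = c • 1 := by
  ext i j
  have h1 : A.1 i j = φ.ca f (c • e j) i := by rw [← e1, h.lev_e', h.ca_e]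
  rw [h1]
  by_cases hij : i = j <;> simp [ca, h.fe, hij, mul_left_comm]

lemma lev_inj : Function.Injective h.lev := by
  rw [injective_iff_map_eq_one]
  intro A hA
  apply Units.ext
  simpa using h.lev_scalar (A := A) (c := 1) fun j => by simp [hA]

lemma lev_sub (A : GL ι F) (x : V) : h.lev A x =
    x + ∑ i, ((A.1 - 1) *ᵥ φ.ca f x) i • e i + ∑ i, ((φ.dm A - 1) *ᵥ φ.cc e x) i • f i := rfl

variable {X Y : Submodule F V}

lemma lev_LV [FiniteDimensional F V] (P : φ.Pol X Y) (he : ∀ i, e i ∈ X) (hf : ∀ i, f i ∈ Y)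
    (A : GL ι F) : h.lev A ∈ φ.LV X Y := by
  refine mem_LV (h.lev_isom A) (fun x hx => ?_) fun x hx => ?_
  · rw [lev_sub, show φ.cc e x = 0 from funext fun i => P.xx (he i) hx]
    simpa using X.add_mem hx (X.sum_mem fun i _ => X.smul_mem _ (he i))
  · rw [lev_sub, show φ.ca f x = 0 from funext fun i => by simp [ca, P.yy (hf i) hx]]
    simpa using Y.add_mem hx (Y.sum_mem fun i _ => Y.smul_mem _ (hf i))

lemma exists_lev [FiniteDimensional F V] (P : φ.Pol X Y) (he : Submodule.span F (Set.range e) = X)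
    (hf : ∀ i, f i ∈ Y) {g : V ≃ₗ[F] V} (hg : g ∈ φ.LV X Y) : ∃ A, h.lev A = g := by
  have he' : ∀ i, e i ∈ X := fun i => he ▸ Submodule.subset_span ⟨i, rfl⟩
  have hx : ∀ x ∈ X, ∃ a : ι → F, ∑ i, a i • e i = x := fun x hx =>
    (Submodule.mem_span_range_iff_exists_fun F).1 (he ▸ hx)
  let M : (V ≃ₗ[F] V) → Matrix ι ι F := fun g => Matrix.of fun i j => φ.ca f (g (e j)) i
  have h1 : ∀ g ∈ φ.LV X Y, ∀ a : ι → F, g (∑ i, a i • e i) = ∑ i, (M g *ᵥ a) i • e i := by
    intro g hg a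
    obtain ⟨c, hc⟩ := hx _ (LV.mx hg (X.sum_mem fun i (_ : i ∈ Finset.univ) =>
      X.smul_mem (a i) (he' i)))
    have h2 := h.ca_e c
    rw [hc] at h2
    rw [← hc, ← h2]
    congr 2
    ext i
    simp [M, ca, mulVec, dotProduct, Finset.mul_sum, mul_comm, mul_left_comm]
  have h2 : ∀ g ∈ φ.LV X Y, M g * M g⁻¹ = 1 := by
    intro g hg
    refine (Matrix.ext_iff_mulVec).2 fun a => ?_
    have e1 := h1 g hg (M g⁻¹ *ᵥ a)
    rw [← h1 _ (inv_mem hg), app_inv, mulVec_mulVec] at e1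
    rw [← h.ca_e (_ *ᵥ a), ← e1, h.ca_e, one_mulVec]
  refine ⟨⟨M g, M g⁻¹, h2 g hg, by simpa using h2 _ (inv_mem hg)⟩,
    P.ext (h.lev_LV P he' hf _) hg fun x hx' => ?_⟩
  obtain ⟨a, rfl⟩ := hx x hx'
  rw [h.lev_e, h1 g hg]

lemma lev_tv [FiniteDimensional F V] (P : φ.Pol X Y) (he : Submodule.span F (Set.range e) = X)
    (hf : ∀ i, f i ∈ Y) {A : GL ι F} {i j : ι} (hij : i ≠ j) {c : F}
    (hA : A.1 = transvection i j c) : h.lev A ∈ φ.EL X Y := by
  have he' : ∀ i, e i ∈ X := fun i => he ▸ Submodule.subset_span ⟨i, rfl⟩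
  have h1 := P.rd (X.smul_mem (c * φ.ε) (he' i)) (hf j) (by simp [h.fe, hij.symm])
  rw [P.ext (h.lev_LV P he' hf A) (P.tv_LV h1 (X.smul_mem _ (he' i)) (hf j)) fun x hx => ?_]
  · exact tv_EL h1 (X.smul_mem _ (he' i)) (hf j)
  rw [P.tv_x h1 (X.smul_mem _ (he' i)) hx, lev_sub,
    show φ.cc e x = 0 from funext fun i => P.xx (he' i) hx, hA]
  simp [transvection, single_mulVec, Function.update_apply, ca, smul_smul, mul_comm, mul_left_comm,
    mul_assoc]

end Frame

namespace Pol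

variable {X Y : Submodule F V} (P : φ.Pol X Y) [Finite F] [FiniteDimensional F V]
include P

/-- a basis of `X` has a dual basis in `Y` -/
lemma exists_frame {e : ι → V} (he : ∀ i, e i ∈ X) (hli : LinearIndependent F e) :
    ∃ f : ι → V, (∀ i, f i ∈ Y) ∧ φ.Frame e f := by
  obtain ⟨f, -, h⟩ := φ.nd_top.exists_frame (fun _ => trivial) hli (fun i => P.tx.1 _ (he i))
    fun i j => P.xx (he i) (he j)
  choose a ha c hc e1 using fun i => P.decomp (f i)
  refine ⟨c, hc, h.Qe, fun i => P.ty.1 _ (hc i), h.ee, fun i j => P.yy (hc i) (hc j), fun i j => ?_⟩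
  rw [← h.ef, ← e1, map_add, P.xx (he i) (ha j), zero_add]

lemma exists_frame_le {k : ℕ} (hk : k ≤ finrank F X) :
    ∃ e f : Fin k → V, φ.Frame e f ∧ (∀ i, e i ∈ X) ∧ (∀ i, f i ∈ Y) ∧
      (k = finrank F X → Submodule.span F (Set.range e) = X) := by
  let B := Module.finBasis F X
  have hli : LinearIndependent F fun i : Fin k => (B (Fin.castLE hk i)).1 :=
    (B.linearIndependent.map' X.subtype X.ker_subtype).comp _ (Fin.castLE_injective hk)
  obtain ⟨f, hf, h⟩ := P.exists_frame (fun i => (B (Fin.castLE hk i)).2) hli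
  refine ⟨_, f, h, fun i => (B _).2, hf, fun e => Submodule.eq_of_le_of_finrank_eq
    (Submodule.span_le.2 (by rintro _ ⟨i, rfl⟩; exact (B _).2)) ?_⟩
  rw [finrank_span_eq_card hli, Fintype.card_fin, e]

theorem commutator_le : ⁅φ.LV X Y, φ.LV X Y⁆ ≤ φ.EL X Y := by
  obtain ⟨e, f, h, he, hf, hs⟩ := P.exists_frame_le le_rfl
  have h1 : ∀ A : GL (Fin (finrank F X)) F, ∃ r ∈ φ.EL X Y, ∃ D : GL (Fin (finrank F X)) F,
      (∃ d, D.1 = diagonal d) ∧ h.lev A = r * h.lev D := by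
    intro A
    refine diagonal_transvection_induction_of_det_ne_zero
      (fun M => ∀ A : GL (Fin (finrank F X)) F, A.1 = M → ∃ r ∈ φ.EL X Y,
        ∃ D : GL (Fin (finrank F X)) F, (∃ d, D.1 = diagonal d) ∧ h.lev A = r * h.lev D) A.1
      A.det_ne_zero (fun d _ A hA => ⟨1, one_mem _, A, ⟨d, hA⟩, by simp⟩)
      (fun t A hA => ⟨_, h.lev_tv P (hs rfl) hf t.hij hA, 1, ⟨1, by simp⟩, by simp⟩)
      (fun M N hM hN iM iN A hA => ?_) A rfl
    obtain ⟨r, hr, D, ⟨d, hd⟩, e1⟩ := iM (GeneralLinearGroup.mkOfDetNeZero M hM) rfl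
    obtain ⟨s, hs', D', ⟨d', hd'⟩, e2⟩ := iN (GeneralLinearGroup.mkOfDetNeZero N hN) rfl
    refine ⟨_, mul_mem hr (EL.conj (h.lev_LV P he hf D) hs'), D * D',
      ⟨_, by rw [Units.val_mul, hd, hd', diagonal_mul_diagonal]⟩, ?_⟩
    rw [show A = GeneralLinearGroup.mkOfDetNeZero M hM * GeneralLinearGroup.mkOfDetNeZero N hN from
      Units.ext hA, map_mul, map_mul, e1, e2]
    group
  refine Subgroup.commutator_le.2 fun g hg k hk => ?_
  obtain ⟨A, rfl⟩ := h.exists_lev P (hs rfl) hf hg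
  obtain ⟨B, rfl⟩ := h.exists_lev P (hs rfl) hf hk
  obtain ⟨r, hr, D, ⟨d, hd⟩, e1⟩ := h1 A
  obtain ⟨s, hs', D', ⟨d', hd'⟩, e2⟩ := h1 B
  have hc : h.lev D * h.lev D' = h.lev D' * h.lev D := by
    rw [← map_mul, ← map_mul]
    congr 1
    apply Units.ext
    rw [Units.val_mul, Units.val_mul, hd, hd', diagonal_mul_diagonal, diagonal_mul_diagonal]
    simp [mul_comm]
  have haW := h.lev_LV P he hf D
  have hcW := h.lev_LV P he hf D'
  rw [commutatorElement_def, e1, e2]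
  generalize h.lev D = a at *
  generalize h.lev D' = c at *
  have e3 : r * a * (s * c) * (r * a)⁻¹ * (s * c)⁻¹ =
      r * (a * s * a⁻¹) * (c * r⁻¹ * c⁻¹) * s⁻¹ := by
    calc _ = r * a * s * a⁻¹ * (a * c) * a⁻¹ * r⁻¹ * c⁻¹ * s⁻¹ := by group
      _ = _ := by rw [hc]; group
  rw [e3]
  exact mul_mem (mul_mem (mul_mem hr (EL.conj haW hs')) (EL.conj hcW (inv_mem hr))) (inv_mem hs')

theorem commutator_LV (hd : 3 ≤ finrank F X) : ⁅φ.LV X Y, φ.LV X Y⁆ = φ.EL X Y :=
  le_antisymm P.commutator_le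
    ((P.EL_perfect hd).symm.le.trans (Subgroup.commutator_mono P.EL_le_LV P.EL_le_LV))

end Pol

end Form

end Vale.Agent.P183CF
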