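import Vale.Agent.P183CF.Res

/-!
The literal classical groups have models.
-/

set_option autoImplicit false
set_option linter.all false

namespace Vale.Agent.P183NK

open Subgroup Vale.Agent.P183A Vale.Agent.P183CF Module Matrix

namespace FS

variable {p : ℕ} [Fact p.Prime] {V : Type} [AddCommGroup V] [Module (ZMod p) V] {S : FS p V}
  {F : Type} [Field F] [Module F V]

theorem Real.scal' [Nontrivial V] {K : S.NR} {φ : Form F V} {τ : F →+ ZMod p} (h : S.Real K φ τ) :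
    S.Scal K 1 where
  mem := h.mem_K.2 ⟨1, (map_one _).symm⟩
  ne := one_ne_zero
  symm := S.st_one
  left := fun _ _ => one_mul _
  right := fun _ _ => mul_one _
  star := fun _ => h.star
  comm := fun x hx y hy => by
    obtain ⟨c, rfl⟩ := h.mem_K.1 hx
    obtain ⟨d, rfl⟩ := h.mem_K.1 hy
    rw [← map_mul, ← map_mul, mul_comm]
  red := fun x hx e => by
    obtain ⟨c, rfl⟩ := h.mem_K.1 hx
    rw [← map_mul, map_eq_zero, mul_self_eq_zero] at e
    rw [e, map_zero]
  inv := fun x hx _ e => by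
    obtain ⟨c, rfl⟩ := h.mem_K.1 hx
    exact ⟨_, h.sc_mem c⁻¹, by rw [← map_mul, mul_inv_cancel₀ (by simpa using e), map_one]⟩
  compat := fun x hx y hy e v => by
    obtain ⟨c, rfl⟩ := h.mem_K.1 hx
    obtain ⟨d, rfl⟩ := h.mem_K.1 hy
    rw [h.st_sc, h.st_sc, ← map_mul, ← map_mul] at e
    by_cases ho : S.orth
    · rw [sc_apply, sc_apply, h.q_smul ho, h.q_smul ho, mul_comm _ c, mul_comm _ d, Real.sc_inj e]
    · rw [(S.alt ho _).1, (S.alt ho _).1]

theorem Real.exists_A [Finite F] [Finite V] [Nontrivial V] {K : S.NR} {φ : Form F V}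
    {τ : F →+ ZMod p} (h : S.Real K φ τ) {X Y : Submodule F V} (P : φ.Pol X Y)
    (hσ : ∀ c, φ.σ c = c) : ∃ Z, S.Scal Z 1 ∧ S.RealA Z φ τ X Y := by
  have hm : ∀ c d c' d' : F, S.up F (P.dg c d) * S.up F (P.dg c' d') =
      S.up F (P.dg (c * c') (d * d')) := fun c d c' d' => P.map_ext
    (fun v hv => by simp [P.dg_x _ _ hv, smul_smul, mul_comm])
    fun v hv => by simp [P.dg_y _ _ hv, smul_smul, mul_comm]
  have hs : ∀ c : F, S.up F (P.dg c c) = S.sc F c := fun c => P.map_ext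
    (fun v hv => by simp [P.dg_x _ _ hv]) fun v hv => by simp [P.dg_y _ _ hv]
  let Z : S.NR :=
    { carrier := {x | ∃ c d : F, (∀ v ∈ X, x v = c • v) ∧ ∀ v ∈ Y, x v = d • v}
      zero_mem' := ⟨0, 0, by simp, by simp⟩
      add_mem' := fun ⟨c, d, h1, h2⟩ ⟨c', d', h3, h4⟩ => ⟨c + c', d + d',
        fun v hv => by simp [h1 v hv, h3 v hv, add_smul], fun v hv => by
          simp [h2 v hv, h4 v hv, add_smul]⟩
      mul_mem' := fun ⟨c, d, h1, h2⟩ ⟨c', d', h3, h4⟩ => ⟨c * c', d * d',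
        fun v hv => by simp [h3 v hv, h1 _ (X.smul_mem c' hv), smul_smul], fun v hv => by
          simp [h4 v hv, h2 _ (Y.smul_mem d' hv), smul_smul]⟩
      neg_mem' := fun ⟨c, d, h1, h2⟩ => ⟨-c, -d, fun v hv => by simp [h1 v hv],
        fun v hv => by simp [h2 v hv]⟩ }
  let r0 : ∀ K', S.Real K' φ τ → K' = S.sym Z → S.RealA Z φ τ X Y := fun K' h' e =>
    ⟨e ▸ h', P, hσ, fun _ => Iff.rfl⟩
  have hZ : ∀ x, x ∈ Z ↔ ∃ c d, x = S.up F (P.dg c d) := fun x => ⟨fun ⟨c, d, e1, e2⟩ =>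
    ⟨c, d, P.map_ext (fun v hv => by rw [e1 v hv, up_apply, P.dg_x _ _ hv])
      fun v hv => by rw [e2 v hv, up_apply, P.dg_y _ _ hv]⟩,
    fun ⟨c, d, e⟩ => e ▸ ⟨c, d, fun _ => P.dg_x c d, fun _ => P.dg_y c d⟩⟩
  have hst : ∀ c d, S.st (S.up F (P.dg c d)) = S.up F (P.dg d c) := fun c d =>
    h.st_of fun v w => by
      obtain ⟨a, ha, b, hb, rfl⟩ := P.decomp v
      obtain ⟨a', ha', b', hb', rfl⟩ := P.decomp w
      simp [P.dg_x _ _ ha, P.dg_x _ _ ha', P.dg_y _ _ hb, P.dg_y _ _ hb', hσ, P.xx ha ha',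
        P.yy hb hb']
  have := Real.fd (F := F) (V := V)
  obtain ⟨x0, hx0, hx1⟩ := Submodule.exists_mem_ne_zero_of_ne_bot (p := X) (by
    rintro rfl
    have h1 := P.two_mul
    have h2 : 0 < finrank F V := Module.finrank_pos
    rw [finrank_bot] at h1
    omega)
  have hinj : ∀ c d c' d', S.up F (P.dg c d) = S.up F (P.dg c' d') → c = c' := fun c d c' d' e =>
    smul_left_injective F hx1 (by
      show c • x0 = c' • x0
      rw [← P.dg_x c d hx0, up_inj e, P.dg_x _ _ hx0])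
  have hc : ∀ x ∈ Z, ∀ y ∈ Z, x * y = y * x := fun x hx y hy => by
    obtain ⟨c, d, rfl⟩ := (hZ x).1 hx
    obtain ⟨c', d', rfl⟩ := (hZ y).1 hy
    rw [hm, hm, mul_comm c, mul_comm d]
  have hK : K = S.sym Z := by
    ext x
    rw [h.mem_K]
    constructor
    · rintro ⟨c, rfl⟩
      rw [← hs]
      exact ⟨(hZ _).2 ⟨c, c, rfl⟩, hst c c, hc _ ((hZ _).2 ⟨c, c, rfl⟩)⟩
    · rintro ⟨hx, e, -⟩
      obtain ⟨c, d, rfl⟩ := (hZ x).1 hx
      rw [hst] at e
      exact ⟨c, by rw [hinj _ _ _ _ e, hs]⟩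
  refine ⟨Z, ⟨⟨⟨1, 1, by simp, by simp⟩, one_ne_zero, S.st_one, fun _ _ => one_mul _,
    fun _ _ => mul_one _, fun x hx => ?_⟩, hc, fun x hx e => ?_, fun x hx e e0 => ?_,
    fun x hx y hy e v => ?_⟩, r0 K h hK⟩
  · obtain ⟨c, d, rfl⟩ := (hZ x).1 hx
    exact (hZ _).2 ⟨d, c, hst c d⟩
  · obtain ⟨c, d, rfl⟩ := (hZ x).1 hx
    have e0 : (0 : S.E) = S.up F (P.dg 0 0) := by rw [hs, map_zero]
    rw [hm, e0] at e
    have e1 := congrArg S.st e
    rw [hst, hst] at e1
    rw [mul_self_eq_zero.1 (hinj _ _ _ _ e), mul_self_eq_zero.1 (hinj _ _ _ _ e1), e0]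
  · obtain ⟨y, hy, e1⟩ := h.scal'.inv x (hK ▸ ⟨hx, e, hc x hx⟩) e e0
    exact ⟨y, (hK ▸ hy : y ∈ S.sym Z).1, e1⟩
  · obtain ⟨c, d, rfl⟩ := (hZ x).1 hx
    obtain ⟨c', d', rfl⟩ := (hZ y).1 hy
    rw [hst, hst, hm, hm] at e
    obtain ⟨a, ha, b, hb, rfl⟩ := P.decomp v
    refine h.q_of_Q ?_
    simp only [up_apply, map_add, P.dg_x _ _ ha, P.dg_y _ _ hb]
    rw [P.Q_comb (X.smul_mem _ ha) (Y.smul_mem _ hb), P.Q_comb (X.smul_mem _ ha) (Y.smul_mem _ hb)]
    simp only [Form.b_smul_left, map_smul, smul_eq_mul, hσ]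
    congr 1
    linear_combination φ.b a b * hinj _ _ _ _ e

variable (p) in
theorem exists_fs [Finite F] [Finite V] [CharP F p] (φ : Form F V)
    (ht : (φ.ε = 1 ∧ ((∃ x, φ.σ x ≠ x) ∨ ∀ t ∈ φ.Λ, t = 0)) ∨
      (φ.ε = -1 ∧ ∀ t, t + φ.ε * φ.σ t = 0 → t ∈ φ.Λ)) :
    ∃ (S : FS p V) (K : S.NR) (τ : F →+ ZMod p), S.Real K φ τ := by
  classical
  obtain ⟨τ, hτ, hτσ⟩ : ∃ τ : F →+ ZMod p, τ ≠ 0 ∧ ∀ c, τ (φ.σ c) = τ c := by
    letI := ZMod.algebra F p
    obtain ⟨τ0, h1, -⟩ := exists_fun (U := (⊥ : Submodule (ZMod p) F)) (x := 1) (by simp)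
    by_cases hs : ∃ x, φ.σ x ≠ x
    · obtain ⟨θ, hθ⟩ := φ.exists_tr hs
      refine ⟨AddMonoidHom.mk' (fun c => τ0 (c + φ.σ c)) fun a b => by
        rw [map_add φ.σ, ← map_add τ0, add_add_add_comm], fun e => one_ne_zero (h1.symm.trans ?_),
        fun c => ?_⟩
      · rw [← hθ]
        exact congrArg (fun f : F →+ ZMod p => f θ) e
      · show τ0 (φ.σ c + φ.σ (φ.σ c)) = τ0 (c + φ.σ c)
        rw [φ.σσ, add_comm]
    · push Not at hs
      exact ⟨τ0.toAddMonoidHom, fun e => one_ne_zero (h1.symm.trans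
        (congrArg (fun f : F →+ ZMod p => f 1) e)), fun c => by rw [hs]⟩
  let B : LinearMap.BilinForm (ZMod p) V := (AddMonoidHom.mk' (fun x =>
    (τ.comp (φ.b x).toAddMonoidHom).toZModLinearMap p) fun x y => LinearMap.ext fun z => by
      show τ (φ.b (x + y) z) = τ (φ.b x z) + τ (φ.b y z)
      simp).toZModLinearMap p
  have hB : ∀ x y, B x y = τ (φ.b x y) := fun _ _ => rfl
  let orth : Prop := φ.ε = 1 ∧ ∀ t ∈ φ.Λ, τ t = 0
  have ha : ¬ orth → φ.ε = -1 ∧ ∀ t, t + φ.ε * φ.σ t = 0 → t ∈ φ.Λ := fun ho =>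
    ht.resolve_left fun ⟨h1, h2⟩ => ho ⟨h1, fun t ht => by
      rcases h2 with h2 | h2
      · obtain ⟨θ, hθ⟩ := φ.exists_tr h2
        have e1 := φ.Λ_max t ht
        rw [h1, one_mul] at e1
        have e : t = θ * t + φ.σ (θ * φ.σ t) := by
          rw [map_mul, φ.σσ, ← add_mul, hθ, one_mul]
        rw [e, map_add, hτσ, ← map_add, ← mul_add, e1, mul_zero, map_zero]
      · rw [h2 t ht, map_zero]⟩
  have hn : ∀ x, (∀ y, B x y = 0) → x = 0 := fun x e => φ.nondeg x fun y =>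
    tau_nd hτ fun c => by simpa [hB] using e (c • y)
  have hn' : ∀ y, (∀ x, B x y = 0) → y = 0 := fun y e => φ.nondeg y fun x =>
    φ.b_symm_zero (tau_nd hτ fun c => by simpa [hB] using e (φ.σ c • x))
  let S := ofForm B (fun v => if orth then τ (φ.q v) else 0) orth hn hn' (fun ho x y => by
      simp only [if_pos ho, hB, ← map_add]
      rw [← sub_eq_zero, ← map_sub]
      exact ho.2 _ (φ.q_add x y)) (fun c x => by
      by_cases ho : orth
      · simp only [if_pos ho]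
        rw [← ZMod.natCast_zmod_val c, Nat.cast_smul_eq_nsmul, ← Nat.cast_smul_eq_nsmul F,
          ← Nat.cast_mul, ← nsmul_eq_mul, ← map_nsmul, ← sub_eq_zero, ← map_sub]
        have := ho.2 _ (φ.q_smul (c.val : F) x)
        rwa [map_natCast, ← Nat.cast_mul, ← nsmul_eq_mul] at this
      · simp [ho]) fun ho x => ⟨if_neg ho, by
      rw [hB, φ.b_self, (ha ho).1, neg_one_mul, map_add, map_neg, hτσ, add_neg_cancel]⟩
  exact ⟨S, (S.sc F).range.toNonUnitalSubring, τ, fun x => exists_congr fun c =>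
    ⟨fun e v => by rw [← e]; rfl, fun e => (LinearMap.ext e).symm⟩, hB, hτσ, hτ,
    fun ho => ⟨ho.1, fun v => if_pos ho, ho.2⟩, ha⟩

theorem model_of [Finite V] {Z : S.NR} (h : S.Scal Z 1) {n : ℕ} (hr : S.Rank Z 1 n) (hn : 11 ≤ n)
    {G T : Type} [Group G] [Group T] (j : G →* S.Eˣ) (hj : Function.Injective j)
    (hI : j.range = S.iso (S.cent Z 1)) (hT : DerZ G T) :
    ∃ M : Model (⊤ : Subgroup T), M.n = n := by
  obtain ⟨e⟩ := hT
  have h1 : (commutator G).map j = S.om (S.cent Z 1) := by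
    rw [commutator_def, Subgroup.map_commutator, ← MonoidHom.range_eq_map, hI, om]
  let e1 : commutator G ≃* S.om (S.cent Z 1) :=
    ((commutator G).equivMapOfInjective j hj).trans (MulEquiv.subgroupCongr h1)
  refine ⟨⟨p, V, S, Z, h, n, hr, e.symm.toMonoidHom.comp
    ((QuotientGroup.mk' _).comp e1.symm.toMonoidHom), MonoidHom.range_eq_top.2
      (e.symm.surjective.comp ((QuotientGroup.mk'_surjective _).comp e1.symm.surjective)),
    fun g => ?_⟩, rfl⟩
  show e.symm (QuotientGroup.mk (e1.symm g)) = 1 ↔ _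
  rw [map_eq_one_iff _ e.symm.injective, QuotientGroup.eq_one_iff, mem_center_iff]
  constructor
  · intro hc
    refine h.mem_of_comm hr hn (iso_mem (one_mem_cent Z) (om_le_iso _ g.2)) fun k hk => ?_
    have := congrArg (fun x => (e1 x).1.1) (hc (e1.symm ⟨k, hk⟩))
    simpa using this.symm
  · intro hc k
    apply e1.injective
    rw [map_mul, map_mul, e1.apply_symm_apply]
    exact Subtype.ext (Units.ext (iso_cent_comm (om_le_iso _ (e1 k).2) hc))

end FS

open FS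

section

variable {F V : Type} [Field F] [Finite F] [AddCommGroup V] [Module F V] [FiniteDimensional F V]
  {G T : Type} [Group G] [Group T] (φ : Form F V)
  (ht : (φ.ε = 1 ∧ ((∃ x, φ.σ x ≠ x) ∨ ∀ t ∈ φ.Λ, t = 0)) ∨
    (φ.ε = -1 ∧ ∀ t, t + φ.ε * φ.σ t = 0 → t ∈ φ.Λ))
  (j : G →* (V ≃ₗ[F] V)) (hj : Function.Injective j) (hT : DerZ G T)
include ht hj hT

theorem model_form (hd : 11 ≤ finrank F V) (hI : j.range = φ.Isom) :
    ∃ M : Model (⊤ : Subgroup T), M.n = finrank F V := by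
  haveI : Fact (ringChar F).Prime := ⟨CharP.char_is_prime F _⟩
  letI : Module (ZMod (ringChar F)) V := Module.compHom V (ZMod.castHom dvd_rfl F)
  have : Finite V := Module.finite_of_finite F
  have : Nontrivial V := Module.nontrivial_of_finrank_pos (R := F) (by omega)
  obtain ⟨S, K, τ, r⟩ := exists_fs (ringChar F) φ ht
  exact model_of r.scal' (r.rank_iff.2 rfl) hd ((S.upU F).comp j) (upU_inj.comp hj)
    (by rw [MonoidHom.range_comp, hI, r.iso_eq]) hT

theorem model_lin {X Y : Submodule F V} (P : φ.Pol X Y) (hσ : ∀ c, φ.σ c = c)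
    (hd : 11 ≤ finrank F X) (hI : j.range = φ.LV X Y) :
    ∃ M : Model (⊤ : Subgroup T), M.n = finrank F X := by
  haveI : Fact (ringChar F).Prime := ⟨CharP.char_is_prime F _⟩
  letI : Module (ZMod (ringChar F)) V := Module.compHom V (ZMod.castHom dvd_rfl F)
  have : Finite V := Module.finite_of_finite F
  have : Nontrivial V := Module.nontrivial_of_finrank_pos (R := F) (by have := P.two_mul; omega)
  obtain ⟨S, K, τ, r⟩ := exists_fs (ringChar F) φ ht
  obtain ⟨Z, h, r'⟩ := r.exists_A P hσ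
  exact model_of h (r'.rank_iffA.2 rfl) hd ((S.upU F).comp j) (upU_inj.comp hj)
    (by rw [MonoidHom.range_comp, hI, r'.iso_eqA]) hT

end

section

variable {F : Type} [Field F] {ι : Type} [Fintype ι] [DecidableEq ι]

/-- invertible matrices as automorphisms -/
noncomputable def mE : GL ι F ≃* ((ι → F) ≃ₗ[F] (ι → F)) :=
  GeneralLinearGroup.toLin.trans (LinearMap.GeneralLinearGroup.generalLinearEquiv F _)

lemma mE_apply (A : GL ι F) (v : ι → F) : mE A v = A.1 *ᵥ v := rfl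

lemma mat_ext {M N : Matrix ι ι F} (h : ∀ x y, x ⬝ᵥ (M *ᵥ y) = x ⬝ᵥ (N *ᵥ y)) : M = N := by
  ext i j
  simpa using h (Pi.single i 1) (Pi.single j 1)

lemma J_dot (x y : ι ⊕ ι → F) : x ⬝ᵥ (J ι F *ᵥ y) =
    (x ∘ Sum.inr) ⬝ᵥ (y ∘ Sum.inl) - (x ∘ Sum.inl) ⬝ᵥ (y ∘ Sum.inr) := by
  rw [J, fromBlocks_mulVec]
  simp [dotProduct, Fintype.sum_sum_type, neg_mulVec, sub_eq_neg_add]

/-- the standard symplectic form -/
def spForm (ι : Type) [Fintype ι] [DecidableEq ι] (F : Type) [Field F] : Form F (ι ⊕ ι → F) where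
  σ := RingEquiv.refl F
  ε := -1
  Λ := ⊤
  b := (toLinearMap₂' F (J ι F)).toAddMonoidHom
  q := fun _ => 0
  σσ := fun _ => rfl
  εε := Or.inr rfl
  smul_left := fun c x y => by simp
  herm := fun x y => by simp [toLinearMap₂'_apply', J_dot, dotProduct_comm]
  q_add := fun _ _ => trivial
  q_smul := fun _ _ => trivial
  b_self := fun x => by simp [toLinearMap₂'_apply', J_dot, dotProduct_comm]
  Λ_min := fun _ => trivial
  Λ_max := fun t _ => by simp
  Λ_smul := fun _ _ _ => trivial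
  nondeg := fun x h => funext fun i => by
    rcases i with i | i
    · simpa [toLinearMap₂'_apply', J, dotProduct, Matrix.one_apply] using h (Pi.single (Sum.inr i) 1)
    · simpa [toLinearMap₂'_apply', J, dotProduct, Matrix.one_apply] using h (Pi.single (Sum.inl i) 1)

lemma sp_b (x y : ι ⊕ ι → F) : (spForm ι F).b x y = x ⬝ᵥ (J ι F *ᵥ y) := toLinearMap₂'_apply' _ _ _

lemma sp_Q (x y : ι ⊕ ι → F) : (spForm ι F).Q x = (spForm ι F).Q y := rfl

lemma sp_isom (A : GL (ι ⊕ ι) F) : mE A ∈ (spForm ι F).Isom ↔ A.1 ∈ symplecticGroup ι F := by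
  have h1 : ∀ x y, (spForm ι F).b (mE A x) (mE A y) = x ⬝ᵥ ((A.1ᵀ * J ι F * A.1) *ᵥ y) := by
    intro x y
    rw [sp_b, mE_apply, mE_apply, ← mulVec_mulVec, ← mulVec_mulVec, dotProduct_mulVec x,
      vecMul_transpose]
  rw [SymplecticGroup.mem_iff']
  exact ⟨fun h => mat_ext fun x y => by rw [← h1, h.1, sp_b],
    fun h => ⟨fun x y => by rw [h1, h, sp_b], fun x => sp_Q _ _⟩⟩

lemma sp_pol : (spForm ι F).Pol (LinearMap.ker (LinearMap.funLeft F F Sum.inr))
    (LinearMap.ker (LinearMap.funLeft F F Sum.inl)) := by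
  refine ⟨⟨fun x _ => (sp_Q x 0).trans (Form.Q_zero _), fun y hy x hx => ?_⟩,
    ⟨fun x _ => (sp_Q x 0).trans (Form.Q_zero _), fun y hy x hx => ?_⟩, eq_top_iff.2 fun v _ => ?_⟩
  · rw [sp_b, J_dot, show x ∘ Sum.inr = 0 from hx, show y ∘ Sum.inr = 0 from hy]
    simp
  · rw [sp_b, J_dot, show x ∘ Sum.inl = 0 from hx, show y ∘ Sum.inl = 0 from hy]
    simp
  · have : v = Sum.elim (v ∘ Sum.inl) (0 : ι → F) + Sum.elim (0 : ι → F) (v ∘ Sum.inr) := by
      ext i
      rcases i with i | i <;> simp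
    rw [this]
    exact Submodule.add_mem_sup (funext fun _ => rfl) (funext fun _ => rfl)

/-- the standard hermitian form -/
def guForm (ι : Type) [Fintype ι] [DecidableEq ι] (σ : F ≃+* F) (h2 : ∀ x, σ (σ x) = x) (θ : F)
    (hθ : θ + σ θ = 1) : Form F (ι → F) where
  σ := σ
  ε := 1
  Λ := (AddMonoidHom.id F + σ.toAddMonoidHom).ker
  b := AddMonoidHom.mk' (fun x => dotProductBilin F F fun i => σ (x i)) fun x y => by
    rw [← map_add]
    congr 1
    ext i
    simp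
  q := fun x => θ * (fun i => σ (x i)) ⬝ᵥ x
  σσ := h2
  εε := Or.inl rfl
  smul_left := fun c x y => by simp [dotProduct, Finset.mul_sum, mul_assoc]
  herm := fun x y => by simp [dotProduct, h2, mul_comm]
  q_add := fun x y => by
    have h3 : σ θ = 1 - θ := by rw [← hθ]; ring
    simp [dotProduct, h2, h3, mul_comm, add_mul, mul_add, Finset.sum_add_distrib]
    ring
  q_smul := fun c x => by
    simp [dotProduct, Finset.mul_sum, mul_comm, mul_left_comm, mul_assoc]
  b_self := fun x => by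
    have h3 : σ θ = 1 - θ := by rw [← hθ]; ring
    simp [dotProduct, h2, h3, mul_comm]
    ring
  Λ_min := fun t => by simp [h2]
  Λ_max := fun t ht => by simpa using ht
  Λ_smul := fun c t ht => by
    have : t + σ t = 0 := ht
    show σ c * c * t + σ (σ c * c * t) = 0
    rw [map_mul, map_mul, h2]
    linear_combination (σ c * c) * this
  nondeg := fun x h => funext fun i => by simpa using h (Pi.single i 1)

lemma gu_isom {σ : F ≃+* F} {h2 : ∀ x, σ (σ x) = x} {θ : F} {hθ : θ + σ θ = 1} (A : GL ι F) :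
    mE A ∈ (guForm ι σ h2 θ hθ).Isom ↔ (A.1.map σ)ᵀ * A.1 = 1 := by
  have h1 : ∀ x y, (guForm ι σ h2 θ hθ).b (mE A x) (mE A y) =
      (fun i => σ (x i)) ⬝ᵥ (((A.1.map σ)ᵀ * A.1) *ᵥ y) := by
    intro x y
    rw [← mulVec_mulVec, dotProduct_mulVec, vecMul_transpose]
    show (fun i => σ ((A.1 *ᵥ x) i)) ⬝ᵥ (A.1 *ᵥ y) = _
    congr 1
    ext i
    simp [mulVec, dotProduct]
  refine ⟨fun h => mat_ext fun x y => ?_, fun h => ?_⟩
  · have := h.1 (fun i => σ (x i)) y
    rw [h1] at this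
    simpa [h2, guForm] using this
  · have h3 : ∀ x y, (guForm ι σ h2 θ hθ).b (mE A x) (mE A y) = (guForm ι σ h2 θ hθ).b x y :=
      fun x y => by rw [h1, h, one_mulVec]; rfl
    exact ⟨h3, fun x => congrArg (fun t => (guForm ι σ h2 θ hθ).md (θ * t)) (h3 x x)⟩

/-- the form attached to a quadratic form -/
def goForm {V : Type} [AddCommGroup V] [Module F V] (Q : QuadraticForm F V)
    (h : ∀ v, (∀ w, QuadraticMap.polar Q v w = 0) → v = 0) : Form F V where
  σ := RingEquiv.refl F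
  ε := 1
  Λ := ⊥
  b := Q.polarBilin.toAddMonoidHom
  q := Q
  σσ := fun _ => rfl
  εε := Or.inl rfl
  smul_left := fun c x y => by simp
  herm := fun x y => by simp [QuadraticMap.polar_comm]
  q_add := fun x y => by simp [QuadraticMap.polar]
  q_smul := fun c x => by simp [Q.map_smul]
  b_self := fun x => by simp [two_mul]
  Λ_min := fun t => by simp
  Λ_max := fun t ht => by simp [AddSubgroup.mem_bot.1 ht]
  Λ_smul := fun c t ht => by simp [AddSubgroup.mem_bot.1 ht]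
  nondeg := h

lemma go_isom {V : Type} [AddCommGroup V] [Module F V] {Q : QuadraticForm F V}
    {h : ∀ v, (∀ w, QuadraticMap.polar Q v w = 0) → v = 0} (g : V ≃ₗ[F] V) :
    g ∈ (goForm Q h).Isom ↔ ∀ v, Q (g v) = Q v := by
  refine ⟨fun e v => sub_eq_zero.1 ((goForm Q h).md_eq_iff.1 (e.2 v)), fun e => ⟨fun x y => ?_,
    fun v => congrArg (goForm Q h).md (e v)⟩⟩
  show QuadraticMap.polar Q (g x) (g y) = QuadraticMap.polar Q x y
  rw [QuadraticMap.polar, QuadraticMap.polar, ← map_add, e, e, e]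

lemma range_closure {s : Set (GL ι F)} {N : Subgroup ((ι → F) ≃ₗ[F] (ι → F))}
    (h : ∀ A, mE A ∈ N ↔ A ∈ s) :
    ((mE : GL ι F ≃* _).toMonoidHom.comp (closure s).subtype).range = N := by
  have : closure s = N.comap (mE : GL ι F ≃* _).toMonoidHom :=
    le_antisymm ((closure_le _).2 fun A hA => (h A).2 hA) fun A hA => subset_closure ((h A).1 hA)
  rw [MonoidHom.range_comp, range_subtype, this, map_comap_eq_self_of_surjective mE.surjective]

end

theorem lit : LIT := by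
  intro d
  refine ⟨d + 11, fun T _ ⟨F, _, _, n, hn, h⟩ => ?_⟩
  have k : (∃ M : Model (⊤ : Subgroup T), M.n = n) → HasModel d T := fun ⟨M, e⟩ => ⟨M, by omega⟩
  have hsp : ∀ ι : Type, ∀ [Fintype ι] [DecidableEq ι], (spForm ι F).ε = -1 ∧ ∀ t,
      t + (spForm ι F).ε * (spForm ι F).σ t = 0 → t ∈ (spForm ι F).Λ :=
    fun _ _ _ => ⟨rfl, fun _ _ => trivial⟩
  refine k ?_
  rcases h with h | ⟨m, hm, h⟩ | ⟨σ, h2, hs, h⟩ | ⟨Q, hQ, h⟩
  · have P := sp_pol (ι := Fin n) (F := F)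
    have h1 := P.two_mul
    rw [Module.finrank_fintype_fun_eq_card, Fintype.card_sum, Fintype.card_fin] at h1
    obtain ⟨e, f, hf, he, hf', hs⟩ := P.exists_frame_le (k := n) (by omega)
    obtain ⟨M, hM⟩ := model_lin _ (Or.inr (hsp _)) hf.lev hf.lev_inj h P (fun _ => rfl) (by omega)
      (le_antisymm (by rintro _ ⟨A, rfl⟩; exact hf.lev_LV P he hf' A)
        fun g hg => hf.exists_lev P (hs (by omega)) hf' hg)
    exact ⟨M, by omega⟩
  · have h1 : finrank F (Fin m ⊕ Fin m → F) = n := by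
      rw [Module.finrank_fintype_fun_eq_card, Fintype.card_sum, Fintype.card_fin]; omega
    let j0 : symplecticGroup (Fin m) F →* GL (Fin m ⊕ Fin m) F :=
      (symplecticGroup (Fin m) F).subtype.toHomUnits
    rw [← h1]
    refine model_form _ (Or.inr (hsp _)) (mE.toMonoidHom.comp j0) (mE.injective.comp
      fun a b e => Subtype.ext (congrArg Units.val e)) h (by omega) (le_antisymm ?_ fun g hg => ?_)
    · rintro _ ⟨A, rfl⟩
      exact (sp_isom _).2 A.2
    · obtain ⟨A, rfl⟩ := mE.surjective g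
      exact ⟨⟨A.1, (sp_isom A).1 hg⟩, congrArg mE (Units.ext rfl)⟩
  · obtain ⟨θ, hθ⟩ := pre_theta σ h2 hs
    rw [← Module.finrank_fin_fun (n := n) F]
    exact model_form (guForm (Fin n) σ h2 θ hθ) (Or.inl ⟨rfl, Or.inl hs⟩) _
      (mE.injective.comp Subtype.val_injective) h (by rw [Module.finrank_fin_fun]; omega)
      (range_closure gu_isom)
  · rw [← Module.finrank_fin_fun (n := n) F]
    exact model_form (goForm Q hQ) (Or.inl ⟨rfl, Or.inr fun _ h => h⟩) _
      (mE.injective.comp Subtype.val_injective) h (by rw [Module.finrank_fin_fun]; omega)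
      (range_closure fun A => go_isom _)

end Vale.Agent.P183NK
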