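import Vale.Agent.P183CF.RealA

/-!
Invariant subrings and commutants for linear groups.
-/

set_option autoImplicit false
set_option linter.all false

namespace Vale.Agent.P183CF.Form.Pol

open Module

variable {F V : Type*} [Field F] [AddCommGroup V] [Module F V] {φ : Form F V}
  {X Y : Submodule F V} (P : φ.Pol X Y) [Finite F] [FiniteDimensional F V]
include P

lemma pr_mem_of_r1 {R : AddSubgroup (End F V)} (h : ∀ a ∈ X, ∀ w ∈ Y, φ.r1 a w ∈ R) {T : End F V}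
    (hT : ∀ x ∈ X, T x ∈ X) : T * P.pr ∈ R := by
  obtain ⟨e, f, hf, he, hf', hs⟩ := P.exists_frame_le le_rfl
  have : T * P.pr = ∑ i, φ.r1 (T (e i)) (φ.ε • f i) := by
    refine P.map_ext (fun x hx => ?_) fun y hy => ?_
    · obtain ⟨a, rfl⟩ := (Submodule.mem_span_range_iff_exists_fun F).1 (hs rfl ▸ hx)
      rw [End.mul_apply, P.pr_x hx]
      simp [LinearMap.sum_apply, hf.fe, mul_comm _ φ.ε]
    · simp [LinearMap.sum_apply, P.pr_y hy, P.yy (hf' _) hy]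
  rw [this]
  exact sum_mem fun i _ => h _ (hT _ (he i)) _ (Y.smul_mem _ (hf' i))

lemma mem_of_r1 {R : AddSubgroup (End F V)} (h : ∀ a ∈ X, ∀ w ∈ Y, φ.r1 a w ∈ R)
    (h' : ∀ a ∈ Y, ∀ w ∈ X, φ.r1 a w ∈ R) {T : End F V} (hT : ∀ x ∈ X, T x ∈ X)
    (hT' : ∀ x ∈ Y, T x ∈ Y) : T ∈ R := by
  have : T = T * P.pr + T * P.symm.pr := by
    ext v
    simp [← map_add, P.pr_add]
  rw [this]
  exact add_mem (P.pr_mem_of_r1 h hT) (P.symm.pr_mem_of_r1 h' hT')

lemma r1_of_one (hd : 3 ≤ finrank F X) {R : AddSubgroup (End F V)}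
    (hm : ∀ x ∈ R, ∀ y ∈ R, x * y ∈ R) (hc : ∀ g ∈ φ.EL X Y, ∀ x ∈ R, g.conj x ∈ R) {d w : V}
    (hdX : d ∈ X) (hw : w ∈ Y) (hd0 : d ≠ 0) (hw0 : w ≠ 0) (h : φ.r1 d w ∈ R) {a v : V}
    (ha : a ∈ X) (hv : v ∈ Y) : φ.r1 a v ∈ R := by
  have h1 : ∀ u ∈ X, ∀ v ∈ Y, φ.b v u = 0 → φ.r1 u v ∈ R := fun u hu v hv =>
    P.spread hd (R := fun u v => φ.r1 u v ∈ R)
      (fun u u' v h1 h2 => by
        rw [sub_eq_add_neg, r1_add_left, r1_neg_left]; exact add_mem h1 (neg_mem h2))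
      (fun u v v' h1 h2 => by
        rw [show φ.r1 u (v - v') = φ.r1 u v - φ.r1 u v' by ext; simp [sub_smul]]
        exact sub_mem h1 h2)
      (fun g hg u v h1 => by rw [← conj_r1 (P.EL_le_LV hg).1]; exact hc g hg _ h1)
      hdX hw hd0 hw0 h hu hv
  have d1 := finrank_span1 (F := F) v
  have d2 := finrank_span1 (F := F) a
  obtain ⟨u, hu, hu0, hu1⟩ := exists_orth (φ := φ) X (F ∙ v) (F ∙ a) (by omega)
  obtain ⟨z, hz, e1, e2⟩ := P.exists_dual2 hu ha hu0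
  have := hm _ (h1 a ha z hz e2) _ (h1 u hu v hv (hu1 v (Submodule.mem_span_singleton_self v)))
  rwa [r1_mul, e1, one_smul] at this

lemma r1_of_small {S : Submodule F V} (hd : finrank F S + 3 ≤ finrank F X)
    {R : AddSubgroup (End F V)} (hm : ∀ x ∈ R, ∀ y ∈ R, x * y ∈ R)
    (hc : ∀ g ∈ φ.EL X Y, ∀ x ∈ R, g.conj x ∈ R) {y : End F V} (hy : y ∈ R)
    (hyX : ∀ x ∈ X, y x ∈ X) {a : V} (ha : a ∈ X) (ha0 : y a ≠ 0)
    (h1 : ∀ t, y t ∈ S) (h2 : ∀ t ∈ φ.perp S, y t = 0) {c v : V} (hc' : c ∈ X) (hv : v ∈ Y) :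
    φ.r1 c v ∈ R := by
  have d1 := finrank_sup_span S a
  obtain ⟨w, hw, hw0, hw1⟩ := exists_orth (φ := φ) Y (S ⊔ F ∙ a) ⊥
    (by rw [finrank_bot, P.finrank_eq]; omega)
  have hwS : ∀ s ∈ S, φ.b w s = 0 := fun s hs => φ.b_symm_zero (hw1 s (Submodule.mem_sup_left hs))
  have hwa : φ.b w a = 0 := φ.b_symm_zero (hw1 a (mem_sup_span_r _ _))
  have hyw : y w = 0 := h2 w fun s hs => hw1 s (Submodule.mem_sup_left hs)
  have hr := P.rd ha hw hwa
  obtain ⟨g, hg, e1, e2⟩ : ∃ g ∈ φ.EL X Y, g⁻¹ w = w ∧ y (g⁻¹ (y a)) ≠ 0 := by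
    by_cases h3 : a ∈ F ∙ (y a - a)
    · refine ⟨1, one_mem _, rfl, fun e : y (y a) = 0 => ?_⟩
      obtain ⟨t, ht⟩ := Submodule.mem_span_singleton.1 h3
      have e3 := congrArg y ht
      rw [map_smul, map_sub, e, zero_sub] at e3
      have e5 : (t + 1) • y a = 0 := by linear_combination (norm := module) -e3
      have e4 : t = -1 := eq_neg_of_add_eq_zero_left ((smul_eq_zero.1 e5).resolve_right ha0)
      rw [e4, neg_one_smul, neg_sub, sub_eq_self] at ht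
      exact ha0 ht
    · have hs := X.sub_mem (hyX a ha) ha
      obtain ⟨z, hz, e1, e2⟩ := P.exists_dual2 ha hs h3
      have h4 := P.rd hs hz e2
      refine ⟨_, tv_EL h4 hs hz, inv_fix ?_, ?_⟩
      · rw [P.tv_y h4 hz hw, φ.b_symm_zero (show φ.b w (y a - a) = 0 by simp [hwa, hwS _ (h1 a)])]
        simp
      · have : rho h4 a = y a := by rw [P.tv_x h4 hs ha, e1]; simp
        rwa [show (rho h4)⁻¹ (y a) = a from (congrArg _ this.symm).trans (inv_app _ _)]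
  have h3 := hm _ (hc g hg _ hy) _ (sub_mem hy (hc _ (tv_EL hr ha hw) _ hy))
  have h4 : g.conj y * (y - (rho hr).conj y) = φ.r1 (g (y (g⁻¹ (y a)))) w := by
    ext t
    simp only [End.mul_apply, LinearMap.sub_apply, conj_app, rho_inv, rho_apply, map_add, map_sub,
      map_smul, map_neg, hyw, hwS _ (h1 _), smul_zero, zero_smul, r1_apply, e1, map_zero,
      smul_neg, neg_zero, smul_eq_mul, mul_zero, add_zero, sub_zero]
    module
  rw [h4] at h3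
  have hL := P.EL_le_LV hg
  exact P.r1_of_one (by omega) hm hc (LV.mx hL (hyX _ (LV.mx (inv_mem hL) (hyX a ha)))) hw
    (by simpa using e2) (by simpa using hw0) h3 hc' hv

/-- a map that is not scalar on `X` does not commute with some transvection -/
lemma exists_tv (hd : 2 ≤ finrank F X) {T : End F V} (hT : ∀ x ∈ X, T x ∈ X)
    (h0 : ¬ ∃ c : F, ∀ x ∈ X, T x = c • x) :
    ∃ u ∈ X, ∃ v ∈ Y, ∃ h : φ.RD v u 0, ∃ t ∈ X, T (rho h t) ≠ rho h (T t) := by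
  obtain ⟨u, hu, hu1⟩ : ∃ x ∈ X, T x ∉ F ∙ x := by
    by_contra hn
    push Not at hn
    exact h0 (scalar_of_all hn)
  have d1 := finrank_span1 (F := F) u
  obtain ⟨v, hv, hv0, hv1⟩ := exists_orth (φ := φ) Y (F ∙ u) ⊥
    (by rw [finrank_bot, P.finrank_eq]; omega)
  have h := P.rd hu hv (φ.b_symm_zero (hv1 u (Submodule.mem_span_singleton_self u)))
  obtain ⟨t, ht, e⟩ := P.symm.exists_dual1 hv (by simpa using hv0)
  refine ⟨u, hu, v, hv, h, t, ht, fun e1 => hu1 ?_⟩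
  have e2 : φ.b v t ≠ 0 := fun e2 => by simp [φ.b_symm_zero e2] at e
  rw [P.tv_x h hu ht, P.tv_x h hu (hT t ht), map_add, map_smul, add_right_inj] at e1
  rw [← Submodule.smul_mem_iff _ e2, e1]
  exact Submodule.smul_mem _ _ (Submodule.mem_span_singleton_self u)

theorem scalar_of_commA (hd : 2 ≤ finrank F X) {T : End F V} (hT : ∀ x ∈ X, T x ∈ X)
    (h : ∀ g ∈ φ.EL X Y, ∀ t, T (g t) = g (T t)) : ∃ c : F, ∀ x ∈ X, T x = c • x := by
  by_contra h0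
  obtain ⟨u, hu, v, hv, h1, t, -, e⟩ := P.exists_tv hd hT h0
  exact e (h _ (tv_EL h1 hu hv) t)

/-- **Invariant subrings, linear case.** -/
theorem r1_of_inv (hd : 9 ≤ finrank F X) {R : AddSubgroup (End F V)}
    (hm : ∀ x ∈ R, ∀ y ∈ R, x * y ∈ R) (hc : ∀ g ∈ φ.EL X Y, ∀ x ∈ R, g.conj x ∈ R) {x : End F V}
    (hx : x ∈ R) (hxX : ∀ t ∈ X, x t ∈ X) (hx0 : ¬ ∃ c : F, ∀ v ∈ X, x v = c • v) {c w : V}
    (hc' : c ∈ X) (hw : w ∈ Y) : φ.r1 c w ∈ R := by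
  obtain ⟨v, hvX, u, huY, h, t, ht, hne⟩ := P.exists_tv (by omega) hxX hx0
  have hL := P.tv_LV h hvX huY
  obtain ⟨u', hu'⟩ := φ.riesz (φ.b u ∘ₗ x)
  obtain ⟨v', hv'⟩ := φ.riesz (φ.b v ∘ₗ x)
  let S0 : Submodule F V := F ∙ u ⊔ F ∙ v
  have hu : u ∈ S0 := Submodule.mem_sup_left (Submodule.mem_span_singleton_self u)
  have hv : v ∈ S0 := mem_sup_span_r _ _
  let S : Submodule F V := ((S0 ⊔ S0.map x) ⊔ F ∙ u') ⊔ F ∙ v'
  have d1 := finrank_span1 (F := F) u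
  have d2 : finrank F S0 ≤ _ := finrank_sup_span (F ∙ u) v
  have d3 := Submodule.finrank_map_le x S0
  have d4 := Submodule.finrank_add_le_finrank_add_finrank S0 (S0.map x)
  have d5 := finrank_sup_span (S0 ⊔ S0.map x) u'
  have d6 : finrank F S ≤ _ := finrank_sup_span ((S0 ⊔ S0.map x) ⊔ F ∙ u') v'
  have hle : S0 ⊔ S0.map x ≤ S := le_sup_left.trans le_sup_left
  refine P.r1_of_small (S := S) (by omega) hm hc
    (sub_mem (hc _ (tv_EL h hvX huY) _ hx) hx) (fun s hs => X.sub_mem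
      (LV.mx hL (hxX _ (LV.mx (inv_mem hL) hs))) (hxX s hs)) (LV.mx hL ht)
      (by simpa [conj_app, sub_eq_zero] using hne.symm) (fun t => ?_) (fun t ht => ?_) hc' hw
  · have e1 := rho_sub_mem h hu hv (x ((rho h)⁻¹ t))
    have e2 : x ((rho h)⁻¹ t - t) ∈ S0.map x :=
      ⟨_, by rw [rho_inv]; exact rho_sub_mem h.neg hu (neg_mem hv) t, rfl⟩
    have := hle (Submodule.add_mem_sup e1 e2)
    simpa [conj_app] using this
  · have e1 : (rho h)⁻¹ t = t := inv_fix (rho_fix h (ht u (hle (Submodule.mem_sup_left hu)))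
      (ht v (hle (Submodule.mem_sup_left hv))))
    have e2 := ht u' (Submodule.mem_sup_left (mem_sup_span_r _ _))
    have e3 := ht v' (mem_sup_span_r _ _)
    rw [hu'] at e2
    rw [hv'] at e3
    rw [LinearMap.sub_apply, conj_app, e1, rho_fix h e2 e3, sub_self]

/-- there are no fixed vectors -/
lemma eq_zero_of_fix (hd : 2 ≤ finrank F X) {v : V} (h : ∀ g ∈ φ.EL X Y, g v = v) : v = 0 := by
  have k : ∀ {X Y : Submodule F V}, φ.Pol X Y → 2 ≤ finrank F X → ∀ x ∈ X, ∀ y ∈ Y,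
      (∀ g ∈ φ.EL X Y, g (x + y) = x + y) → x = 0 := by
    intro X Y P hd x hx y hy h
    by_contra h0
    obtain ⟨w, hw, e⟩ := P.exists_dual1 hx h0
    have d1 := finrank_span1 (F := F) w
    obtain ⟨u, hu, hu0, hu1⟩ := exists_orth (φ := φ) X (F ∙ w) ⊥ (by rw [finrank_bot]; omega)
    have h1 := P.rd hu hw (hu1 w (Submodule.mem_span_singleton_self w))
    have e1 := congrArg P.pr (h _ (tv_EL h1 hu hw))
    rw [map_add, map_add, map_add, P.pr_y hy, P.pr_y (LV.my (P.tv_LV h1 hu hw) hy), P.tv_x h1 hu hx,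
      e, one_smul, P.pr_x hx, P.pr_x (X.add_mem hx hu)] at e1
    exact hu0 (by simpa using e1)
  obtain ⟨x, hx, y, hy, rfl⟩ := P.decomp v
  rw [k P hd x hx y hy h, k P.symm (by rwa [P.finrank_eq]) y hy x hx fun g hg => by
    rw [add_comm]; exact h g (by rwa [EL_symm]), add_zero]

end Vale.Agent.P183CF.Form.Pol
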