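import Vale.Agent.P183CF.Simple

/-!
Subrings of the endomorphism ring that are invariant under `EW ⊤`.
-/

set_option autoImplicit false
set_option linter.all false

namespace Vale.Agent.P183CF

open Module

namespace Form

variable {F V : Type*} [Field F] [AddCommGroup V] [Module F V] {φ : Form F V}

variable (φ) in
/-- the rank one map `x ↦ b w x • a` -/
def r1 (a w : V) : End F V := (φ.b w).smulRight a

@[simp] lemma r1_apply (a w x : V) : φ.r1 a w x = φ.b w x • a := rfl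

lemma r1_add_left (a c w : V) : φ.r1 (a + c) w = φ.r1 a w + φ.r1 c w := by ext; simp

lemma r1_add_right (a w z : V) : φ.r1 a (w + z) = φ.r1 a w + φ.r1 a z := by ext; simp [add_smul]

lemma r1_neg_left (a w : V) : φ.r1 (-a) w = -φ.r1 a w := by ext; simp

@[simp] lemma r1_zero_left (w : V) : φ.r1 0 w = 0 := by ext; simp

@[simp] lemma r1_zero_right (a : V) : φ.r1 a 0 = 0 := by ext; simp

lemma r1_mul (a w c z : V) : φ.r1 a w * φ.r1 c z = φ.r1 (φ.b w c • a) z := by
  ext; simp [smul_smul, mul_comm]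

lemma mul_r1 (T : End F V) (a w : V) : T * φ.r1 a w = φ.r1 (T a) w := by ext; simp

lemma conj_app (g : V ≃ₗ[F] V) (T : End F V) (x : V) : g.conj T x = g (T (g⁻¹ x)) := rfl

lemma conj_r1 {g : V ≃ₗ[F] V} (hg : g ∈ φ.Isom) (a w : V) :
    g.conj (φ.r1 a w) = φ.r1 (g a) (g w) := by
  ext x
  simp [conj_app, Isom.b_left hg]

variable [Finite F] [FiniteDimensional F V]

/-- every endomorphism is a sum of rank one maps -/
lemma top_of_r1 {R : AddSubgroup (End F V)} (h : ∀ a w, φ.r1 a w ∈ R) (T : End F V) : T ∈ R := by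
  let B := Module.finBasis F V
  choose w hw using fun i => φ.riesz (B.coord i)
  have : T = ∑ i, φ.r1 (T (B i)) (w i) := by
    ext x
    conv_lhs => rw [← B.sum_repr x, map_sum]
    simp [LinearMap.sum_apply, hw]
  rw [this]
  exact sum_mem fun i _ => h _ _

lemma top_of_one (hd : 11 ≤ finrank F V) {R : AddSubgroup (End F V)}
    (hm : ∀ x ∈ R, ∀ y ∈ R, x * y ∈ R) (hc : ∀ g ∈ φ.EW ⊤, ∀ x ∈ R, g.conj x ∈ R) {a u : V}
    (hu : φ.Q u = 0) (hu0 : u ≠ 0) (ha : a ∉ F ∙ u) (h : φ.r1 a u ∈ R) (T : End F V) : T ∈ R := by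
  have hd' : 11 ≤ finrank F (⊤ : Submodule F V) := by rwa [finrank_top]
  let N : AddSubgroup V :=
    { carrier := {a | ∀ w, φ.Q w = 0 → φ.r1 a w ∈ R}
      zero_mem' := fun w _ => by simp
      add_mem' := fun ha hb w hw => by rw [r1_add_left]; exact add_mem (ha w hw) (hb w hw)
      neg_mem' := fun ha w hw => by rw [r1_neg_left]; exact neg_mem (ha w hw) }
  have h1 : ∀ w, φ.Q w = 0 → w ∉ F ∙ u → φ.r1 a w ∈ R := by
    intro w hw hw0
    obtain ⟨f1, hf1, -⟩ := exists_fun' (U := (⊥ : Submodule F V)) (x := u) (by simpa using hu0) 0 φ.ε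
    obtain ⟨f, hf, hf'⟩ := exists_fun' hw0 f1 (φ.ε * φ.σ (φ.b u a))
    have d1 := finrank_span1 (F := F) u
    have d2 := finrank_sup_span (F ∙ u) w
    obtain ⟨c, -, hc0, hc1, hc2⟩ := φ.nd_top.exists_dual (U := F ∙ u ⊔ F ∙ w) le_top (by omega) f
      (φ.Q a)
    have e1 : φ.b u c = 1 := by
      rw [φ.herm, hc2 u (Submodule.mem_sup_left (Submodule.mem_span_singleton_self u)),
        hf' u (Submodule.mem_span_singleton_self u), hf1]
      simp
    have e2 : φ.b u a = φ.b w c := by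
      rw [φ.herm c w, hc2 w (mem_sup_span_r _ _), hf]
      simp
    obtain ⟨g, hg, e3, e4⟩ := trans2 φ.nd_top hd' trivial trivial trivial trivial hu0
      (fun e : w = 0 => hw0 (e ▸ zero_mem _)) ha (fun e => hc0 (Submodule.mem_sup_right e))
      (hu.trans hw.symm) hc1.symm e2
    have h2 := hc g hg _ h
    rw [conj_r1 (EW_le_Isom _ hg), e3, e4] at h2
    have h3 := hm _ h _ h2
    rwa [r1_mul, e1, one_smul] at h3
  have haN : a ∈ N := by
    intro w hw
    by_cases hw0 : w ∈ F ∙ u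
    · have d1 := finrank_span1 (F := F) u
      obtain ⟨z, -, hz0, hz1, hz2⟩ := φ.nd_top.exists_orth (U := F ∙ u) le_top (by omega) 0
      have : w = (w - z) + z := by simp
      rw [this, r1_add_right]
      refine add_mem (h1 _ ?_ fun e => hz0 ?_) (h1 z hz1 hz0)
      · rw [Q_sub, hw, hz1, hz2 w hw0]; simp
      · simpa using Submodule.sub_mem _ hw0 e
    · exact h1 w hw hw0
  have h2 := le_of_inv φ.nd_top (by omega) N (fun g hg x hx w hw => by
    have hgI := EW_le_Isom _ hg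
    have := hc g hg _ (hx (g⁻¹ w) (by rw [(inv_mem hgI).2, hw]))
    rwa [conj_r1 hgI, app_inv] at this) haN (by
    rw [perp_top, Submodule.mem_bot]
    rintro rfl
    exact ha (zero_mem _))
  refine top_of_r1 (φ := φ) (fun c w => ?_) T
  obtain ⟨w1, -, w2, -, -, -, e1, e2, rfl⟩ := φ.nd_top.sum_sing (by omega) (Submodule.mem_top (x := w))
  rw [r1_add_right]
  exact add_mem (h2 c trivial w1 e1) (h2 c trivial w2 e2)

lemma top_of_small {S : Submodule F V} (hd : 2 * finrank F S + 11 ≤ finrank F V)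
    {R : AddSubgroup (End F V)} (hm : ∀ x ∈ R, ∀ y ∈ R, x * y ∈ R)
    (hc : ∀ g ∈ φ.EW ⊤, ∀ x ∈ R, g.conj x ∈ R) {y : End F V} (hy : y ∈ R) (hy0 : y ≠ 0)
    (h1 : ∀ t, y t ∈ S) (h2 : ∀ t ∈ φ.perp S, y t = 0) (T : End F V) : T ∈ R := by
  have hd' : 2 * finrank F S + 11 ≤ finrank F (⊤ : Submodule F V) := by rwa [finrank_top]
  obtain ⟨v, hv⟩ : ∃ v, y v ≠ 0 := by
    by_contra hcon
    push Not at hcon
    exact hy0 (LinearMap.ext hcon)
  have d1 := finrank_sup_span S v
  obtain ⟨u, -, hu0, hu1, hu2⟩ := φ.nd_top.exists_orth (U := S ⊔ F ∙ v) le_top (by omega) 0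
  have huS : ∀ s ∈ S, φ.b u s = 0 := fun s hs => φ.b_symm_zero (hu2 s (Submodule.mem_sup_left hs))
  have huv : φ.b u v = 0 := φ.b_symm_zero (hu2 v (mem_sup_span_r _ _))
  have hyu : y u = 0 := h2 u fun s hs => hu2 s (Submodule.mem_sup_left hs)
  have hu00 : u ≠ 0 := fun e => hu0 (e ▸ zero_mem _)
  obtain ⟨l, hl⟩ := φ.md_surj (φ.Q v)
  have hr : φ.RD u v l := ⟨hu1, huv, hl.symm⟩
  have d2 := finrank_sup_span (S ⊔ F ∙ v) u
  obtain ⟨c, -, hc0, hc1, hc2⟩ := φ.nd_top.exists_dual' (U := (S ⊔ F ∙ v) ⊔ F ∙ u) le_top (by omega)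
    v (φ.Q (y v))
  have hau : y v ∉ F ∙ u := by
    intro e
    obtain ⟨d, hd⟩ := Submodule.mem_span_singleton.1 e
    have hd0 : d ≠ 0 := by
      rintro rfl
      exact hv (by rw [← hd, zero_smul])
    apply hu0
    have := S.smul_mem d⁻¹ (h1 v)
    rw [← hd, smul_smul, inv_mul_cancel₀ hd0, one_smul] at this
    exact Submodule.mem_sup_left this
  obtain ⟨g, hg, e1, e2⟩ := trans2 φ.nd_top (by omega) trivial trivial trivial trivial hu00 hu00
    (fun e => hc0 (Submodule.mem_sup_right e)) hau rfl hc1 (by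
      rw [hc2 u (mem_sup_span_r _ _), huv, huS _ (h1 v)])
  have hyc : y c = y v := by
    rw [← sub_eq_zero, ← map_sub]
    refine h2 _ fun s hs => ?_
    rw [map_sub, hc2 s (Submodule.mem_sup_left (Submodule.mem_sup_left hs)), sub_self]
  have h3 := hm _ (hc g hg _ hy) _ (sub_mem hy (hc _ (rho_EW hr trivial trivial) _ hy))
  have h4 : g.conj y * (y - (rho hr).conj y) = φ.r1 (g (y v)) u := by
    ext t
    have e3 : g⁻¹ u = u := inv_fix e1
    have e4 : g⁻¹ (y v) = c := by rw [← e2, inv_app]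
    simp only [End.mul_apply, LinearMap.sub_apply, conj_app, rho_inv, rho_apply, map_add, map_sub,
      map_smul, map_neg, hyu, huS _ (h1 _), smul_zero, zero_smul, r1_apply, e3, e4, hyc, map_zero,
      smul_neg, neg_zero, smul_eq_mul, mul_zero, add_zero, sub_zero]
    module
  rw [h4] at h3
  refine top_of_one (by omega) hm hc hu1 hu00 (fun e => hau ?_) h3 T
  obtain ⟨d, hd⟩ := Submodule.mem_span_singleton.1 e
  rw [← e1, ← map_smul] at hd
  exact Submodule.mem_span_singleton.2 ⟨d, g.injective hd⟩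

omit [Finite F] [FiniteDimensional F V] in
lemma comm_of_rho {W : Submodule F V} {x : V → V}
    (h : ∀ (u v : V) (l : F) (h : φ.RD u v l), u ∈ W → v ∈ W → ∀ t, x (rho h t) = rho h (x t)) :
    ∀ g ∈ φ.EW W, ∀ t, x (g t) = g (x t) := by
  intro g hg
  induction hg using Subgroup.closure_induction with
  | mem g hg =>
    obtain ⟨u, v, l, h', hu, hv, rfl⟩ := hg
    exact h u v l h' hu hv
  | one => simp
  | mul a c _ _ ha hc => intro t; simp [ha, hc]
  | inv a _ ha => intro t; apply a.injective; rw [← ha]; simp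

/-- **Invariant subrings.** -/
theorem top_of_inv (hd : 23 ≤ finrank F V) {R : AddSubgroup (End F V)}
    (hm : ∀ x ∈ R, ∀ y ∈ R, x * y ∈ R) (hc : ∀ g ∈ φ.EW ⊤, ∀ x ∈ R, g.conj x ∈ R) {x : End F V}
    (hx : x ∈ R) (hx0 : ¬ ∃ c : F, ∀ v, x v = c • v) (T : End F V) : T ∈ R := by
  obtain ⟨u, v, l, h, hne⟩ : ∃ (u v : V) (l : F) (h : φ.RD u v l), (rho h).conj x - x ≠ 0 := by
    by_contra hcon
    push Not at hcon
    obtain ⟨c, hc'⟩ := scalar_of_comm φ.nd_top (by rw [finrank_top]; omega) x.toAddMonoidHom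
      (comm_of_rho fun u v l h _ _ t => by
        have := congrArg (fun f : End F V => f (rho h t)) (sub_eq_zero.1 (hcon u v l h))
        simpa [conj_app] using this.symm)
    exact hx0 ⟨c, fun v => hc' v trivial⟩
  obtain ⟨u', hu'⟩ := φ.riesz (φ.b u ∘ₗ x)
  obtain ⟨v', hv'⟩ := φ.riesz (φ.b v ∘ₗ x)
  let S0 : Submodule F V := F ∙ u ⊔ F ∙ v
  have hu : u ∈ S0 := Submodule.mem_sup_left (Submodule.mem_span_singleton_self u)
  have hv : v ∈ S0 := mem_sup_span_r _ _
  let S : Submodule F V := ((S0 ⊔ S0.map x) ⊔ F ∙ u') ⊔ F ∙ v'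
  have d1 := finrank_span1 (F := F) u
  have d2 : finrank F S0 ≤ _ := finrank_sup_span (F ∙ u) v
  have d3 := Submodule.finrank_map_le x S0
  have d4 := Submodule.finrank_add_le_finrank_add_finrank S0 (S0.map x)
  have d5 := finrank_sup_span (S0 ⊔ S0.map x) u'
  have d6 : finrank F S ≤ _ := finrank_sup_span ((S0 ⊔ S0.map x) ⊔ F ∙ u') v'
  have hle : S0 ⊔ S0.map x ≤ S := le_sup_left.trans le_sup_left
  refine top_of_small (S := S) (by omega) hm hc
    (sub_mem (hc _ (rho_EW h trivial trivial) _ hx) hx) hne (fun t => ?_) (fun t ht => ?_) T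
  · have e1 := rho_sub_mem h hu hv (x ((rho h)⁻¹ t))
    have e2 : x ((rho h)⁻¹ t - t) ∈ S0.map x :=
      ⟨_, by rw [rho_inv]; exact rho_sub_mem h.neg hu (neg_mem hv) t, rfl⟩
    have := hle (Submodule.add_mem_sup e1 e2)
    simpa [conj_app] using this
  · have e1 : (rho h)⁻¹ t = t := inv_fix (rho_fix h (ht u (hle (Submodule.mem_sup_left hu)))
      (ht v (hle (Submodule.mem_sup_left hv))))
    have e2 := ht u' (Submodule.mem_sup_left (mem_sup_span_r _ _))
    have e3 := ht v' (mem_sup_span_r _ _)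
    rw [hu'] at e2
    rw [hv'] at e3
    rw [LinearMap.sub_apply, conj_app, e1, rho_fix h e2 e3, sub_self]

end Form

end Vale.Agent.P183CF
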