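import Vale.Agent.P183CF.CB3
import Vale.Agent.P183CF.Ring
import Mathlib.FieldTheory.Finite.Basic

/-!
The bridge between form spaces over the prime field and forms over a field of scalars.
-/

set_option autoImplicit false
set_option linter.all false

namespace Vale.Agent.P183NK

open Subgroup Vale.Agent.P183A Vale.Agent.P183CF Module

section tau

variable {p : ℕ} [Fact p.Prime] {F : Type} [Field F] {τ : F →+ ZMod p}

lemma tau_nd (hτ : τ ≠ 0) {t : F} (h : ∀ c, τ (c * t) = 0) : t = 0 := by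
  by_contra h0
  exact hτ (AddMonoidHom.ext fun c => by simpa [h0] using h (c * t⁻¹))

lemma tau_ext (hτ : τ ≠ 0) {s t : F} (h : ∀ c, τ (c * s) = τ (c * t)) : s = t :=
  sub_eq_zero.1 (tau_nd hτ fun c => by rw [mul_sub, map_sub, h, sub_self])

lemma tau_sq [Finite F] (hτ : τ ≠ 0) {t : F} (h : ∀ c, τ (c * c * t) = 0) : t = 0 := by
  refine tau_nd hτ fun c => ?_
  by_cases h2 : (2 : F) = 0
  · have : CharP F 2 := (CharP.charP_iff_prime_eq_zero Nat.prime_two).2 h2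
    obtain ⟨d, rfl⟩ := FiniteField.isSquare_of_char_two (ringChar.eq F 2) c
    exact h d
  · have h1 : c * t = (c / 2 + 1) * (c / 2 + 1) * t - c / 2 * (c / 2) * t - 1 * 1 * t := by
      field_simp
      ring
    rw [h1, map_sub, map_sub, h, h, h]
    simp

lemma tau_sq_ext [Finite F] (hτ : τ ≠ 0) {s t : F} (h : ∀ c, τ (c * c * s) = τ (c * c * t)) :
    s = t := sub_eq_zero.1 (tau_sq hτ fun c => by rw [mul_sub, map_sub, h, sub_self])

end tau

namespace FS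

variable {p : ℕ} [Fact p.Prime] {V : Type} [AddCommGroup V] [Module (ZMod p) V] (S : FS p V)
  (F : Type) [Field F] [Module F V]

/-- an `F`-linear map as a map over the prime field -/
def up : End F V →+* S.E where
  toFun a := a.toAddMonoidHom.toZModLinearMap p
  map_one' := rfl
  map_mul' _ _ := rfl
  map_zero' := rfl
  map_add' _ _ := rfl

/-- an `F`-linear automorphism as a unit -/
def upU : (V ≃ₗ[F] V) →* S.Eˣ where
  toFun g := ⟨S.up F g.toLinearMap, S.up F g⁻¹.toLinearMap, LinearMap.ext fun x => app_inv g x,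
    LinearMap.ext fun x => inv_app g x⟩
  map_one' := rfl
  map_mul' _ _ := rfl

/-- the scalar maps -/
def sc : F →+* S.E := (S.up F).comp (algebraMap F (End F V))

variable {S F}

@[simp] lemma up_apply (a : End F V) (v : V) : S.up F a v = a v := rfl

@[simp] lemma upU_apply (g : V ≃ₗ[F] V) (v : V) : (S.upU F g).1 v = g v := rfl

lemma upU_val (g : V ≃ₗ[F] V) : (S.upU F g).1 = S.up F g.toLinearMap := rfl

lemma upU_inv_val (g : V ≃ₗ[F] V) : (S.upU F g)⁻¹.1 = S.up F g⁻¹.toLinearMap := rfl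

@[simp] lemma sc_apply (c : F) (v : V) : S.sc F c v = c • v := rfl

lemma up_inj : Function.Injective (S.up F) := fun _ _ h =>
  LinearMap.ext fun v => congrArg (fun f : S.E => f v) h

lemma upU_inj : Function.Injective (S.upU F) := fun _ _ h =>
  LinearEquiv.ext fun v => congrArg (fun f : S.Eˣ => f.1 v) h

lemma up_smul (c : F) (a : End F V) : S.up F (c • a) = S.sc F c * S.up F a := rfl

lemma up_conj (g : V ≃ₗ[F] V) (a : End F V) :
    S.up F (g.conj a) = (S.upU F g).1 * S.up F a * (S.upU F g)⁻¹.1 := rfl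

lemma up_sc_comm (a : End F V) (c : F) : S.up F a * S.sc F c = S.sc F c * S.up F a :=
  LinearMap.ext fun v => a.map_smul c v

/-- a map that commutes with the scalars, as an `F`-linear map -/
def dn (x : S.E) (hx : ∀ (c : F) v, x (c • v) = c • x v) : End F V where
  toFun := x
  map_add' := x.map_add
  map_smul' := hx

@[simp] lemma dn_apply (x : S.E) (hx : ∀ (c : F) v, x (c • v) = c • x v) (v : V) :
    dn x hx v = x v := rfl

@[simp] lemma up_dn (x : S.E) (hx : ∀ (c : F) v, x (c • v) = c • x v) : S.up F (dn x hx) = x := rfl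

/-- a unit that commutes with the scalars, as an `F`-linear automorphism -/
def dnU (g : S.Eˣ) (hg : ∀ (c : F) v, g.1 (c • v) = c • g.1 v) : V ≃ₗ[F] V where
  toFun := g.1
  map_add' := g.1.map_add
  map_smul' := hg
  invFun := g⁻¹.1
  left_inv := u_inv_app g
  right_inv := u_app_inv g

@[simp] lemma dnU_apply (g : S.Eˣ) (hg : ∀ (c : F) v, g.1 (c • v) = c • g.1 v) (v : V) :
    dnU g hg v = g.1 v := rfl

@[simp] lemma upU_dnU (g : S.Eˣ) (hg : ∀ (c : F) v, g.1 (c • v) = c • g.1 v) :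
    S.upU F (dnU g hg) = g := Units.ext rfl

/-- the representation of a group of units that commute with the scalars -/
def rep (Γ : Subgroup S.Eˣ) (hΓ : ∀ g ∈ Γ, ∀ (c : F) v, g.1 (c • v) = c • g.1 v) :
    Γ →* (V ≃ₗ[F] V) where
  toFun g := dnU g.1 (hΓ g.1 g.2)
  map_one' := rfl
  map_mul' _ _ := rfl

@[simp] lemma rep_apply (Γ : Subgroup S.Eˣ) (hΓ : ∀ g ∈ Γ, ∀ (c : F) v, g.1 (c • v) = c • g.1 v)
    (g : Γ) (v : V) : rep Γ hΓ g v = g.1.1 v := rfl

lemma upU_rep (Γ : Subgroup S.Eˣ) (hΓ : ∀ g ∈ Γ, ∀ (c : F) v, g.1 (c • v) = c • g.1 v) (g : Γ) :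
    S.upU F (rep Γ hΓ g) = g.1 := Units.ext rfl

variable (S) in
/-- The form space `S` with the field of scalars `K` comes from the form `φ` over `F` by applying
the functional `τ`. -/
structure Real (K : S.NR) (φ : Form F V) (τ : F →+ ZMod p) : Prop where
  scal : ∀ x : S.E, x ∈ K ↔ ∃ c : F, ∀ v, x v = c • v
  β : ∀ x y, S.β x y = τ (φ.b x y)
  τσ : ∀ c, τ (φ.σ c) = τ c
  τne : τ ≠ 0
  qo : S.orth → φ.ε = 1 ∧ (∀ v, S.q v = τ (φ.q v)) ∧ ∀ t ∈ φ.Λ, τ t = 0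
  qa : ¬ S.orth → φ.ε = -1 ∧ ∀ t, t + φ.ε * φ.σ t = 0 → t ∈ φ.Λ

namespace Real

variable {K : S.NR} {φ : Form F V} {τ : F →+ ZMod p} (h : S.Real K φ τ)
include h

lemma mem_K {x : S.E} : x ∈ K ↔ ∃ c, x = S.sc F c :=
  (h.scal x).trans (exists_congr fun c => ⟨fun e => LinearMap.ext e, fun e v => by rw [e]; rfl⟩)

lemma sc_mem (c : F) : S.sc F c ∈ K := h.mem_K.2 ⟨c, rfl⟩

lemma mem_cent {x : S.E} : x ∈ S.cent K 1 ↔ ∀ (c : F) v, x (c • v) = c • x v := by
  rw [mem_cent_one]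
  refine ⟨fun e c v => congrArg (fun f : S.E => f v) (e _ (h.sc_mem c)), fun e d hd => ?_⟩
  obtain ⟨c, rfl⟩ := h.mem_K.1 hd
  exact LinearMap.ext (e c)

lemma up_mem (a : End F V) : S.up F a ∈ S.cent K 1 := h.mem_cent.2 a.map_smul

lemma mem_cent' {x : S.E} : x ∈ S.cent K 1 ↔ ∃ a, x = S.up F a :=
  ⟨fun e => ⟨dn x (h.mem_cent.1 e), rfl⟩, fun ⟨a, e⟩ => e ▸ h.up_mem a⟩

lemma exists_upU {g : S.Eˣ} (hg : g.1 ∈ S.cent K 1) : ∃ k, g = S.upU F k :=
  ⟨dnU g (h.mem_cent.1 hg), (upU_dnU _ _).symm⟩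

lemma β_smul (c : F) (x y : V) : S.β x (c • y) = τ (c * φ.b x y) := by rw [h.β]; simp

lemma b_ext {x y x' y' : V} (e : ∀ c : F, S.β x (c • y) = S.β x' (c • y')) :
    φ.b x y = φ.b x' y' := tau_ext h.τne fun c => by rw [← h.β_smul, e, h.β_smul]

lemma b_zero {x y : V} : φ.b x y = 0 ↔ ∀ c : F, S.β x (c • y) = 0 :=
  ⟨fun e c => by rw [h.β_smul, e]; simp, fun e => tau_nd h.τne fun c => by rw [← h.β_smul, e]⟩

lemma st_of {x y : S.E} (e : ∀ v w, φ.b (x v) w = φ.b v (y w)) : S.st x = y :=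
  S.st_ext fun v w => by rw [h.β, h.β, e]

lemma st_sc (c : F) : S.st (S.sc F c) = S.sc F (φ.σ c) := h.st_of fun v w => by simp

lemma star {x : S.E} (hx : x ∈ K) : S.st x ∈ K := by
  obtain ⟨c, rfl⟩ := h.mem_K.1 hx
  rw [h.st_sc]
  exact h.sc_mem _

lemma st_mem {x : S.E} (hx : x ∈ S.cent K 1) : S.st x ∈ S.cent K 1 :=
  st_mem_cent (fun _ => h.star) S.st_one hx

/-- the involution is the adjoint for `φ.b` -/
lemma adj {x : S.E} (hx : x ∈ S.cent K 1) (v w : V) : φ.b (x v) w = φ.b v (S.st x w) :=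
  tau_ext h.τne fun c => by
    rw [← h.β_smul, ← h.β_smul, S.st_spec, h.mem_cent.1 (h.st_mem hx)]

lemma adj' {x : S.E} (hx : x ∈ S.cent K 1) (v w : V) : φ.b v (x w) = φ.b (S.st x v) w := by
  rw [h.adj (h.st_mem hx), st_st]

lemma st_r1 (a w : V) : S.st (S.up F (φ.r1 a w)) = S.up F (φ.ε • φ.r1 w a) :=
  h.st_of fun v u => by simp [φ.herm w v, mul_comm, mul_left_comm]

lemma q_of_Q {v w : V} (e : φ.Q v = φ.Q w) : S.q v = S.q w := by
  by_cases ho : S.orth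
  · obtain ⟨-, h1, h2⟩ := h.qo ho
    rw [h1, h1, ← sub_eq_zero, ← map_sub]
    exact h2 _ (φ.md_eq_iff.1 e)
  · rw [(S.alt ho v).1, (S.alt ho w).1]

lemma q_smul (ho : S.orth) (c : F) (v : V) : S.q (c • v) = τ (φ.σ c * c * φ.q v) := by
  obtain ⟨-, h1, h2⟩ := h.qo ho
  rw [h1, ← sub_eq_zero, ← map_sub]
  exact h2 _ (φ.q_smul c v)

lemma Λ_top (ho : ¬ S.orth) (hs : ∀ c, φ.σ c = c) (t : F) : t ∈ φ.Λ :=
  (h.qa ho).2 t (by rw [(h.qa ho).1, hs]; ring)

variable [Finite F]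

lemma Λ_bot (ho : S.orth) (hs : ∀ c, φ.σ c = c) {t : F} (ht : t ∈ φ.Λ) : t = 0 :=
  tau_sq h.τne fun c => (h.qo ho).2.2 _ (by simpa [hs] using φ.Λ_smul c t ht)

lemma Q_of_q {v w : V} (e : ∀ c : F, S.q (c • v) = S.q (c • w)) (e' : φ.b v v = φ.b w w) :
    φ.Q v = φ.Q w := by
  have h1 : φ.q v - φ.q w + φ.ε * φ.σ (φ.q v - φ.q w) = 0 := by
    rw [φ.b_self, φ.b_self] at e'
    rw [map_sub]
    linear_combination e'
  refine φ.md_eq_iff.2 ?_
  by_cases hs : ∃ x, φ.σ x ≠ x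
  · exact φ.mem_Λ_of_ne hs h1
  push Not at hs
  by_cases ho : S.orth
  · rw [tau_sq_ext h.τne (s := φ.q v) (t := φ.q w) fun c => by
      have := e c
      rwa [h.q_smul ho, h.q_smul ho, hs] at this]
    simp
  · exact h.Λ_top ho hs _

lemma Q_iff {v w : V} :
    φ.Q v = φ.Q w ↔ (∀ c : F, S.q (c • v) = S.q (c • w)) ∧ φ.b v v = φ.b w w :=
  ⟨fun e => ⟨fun c => h.q_of_Q (φ.Q_smul_congr e c), φ.b_self_congr e⟩, fun e => h.Q_of_q e.1 e.2⟩

lemma sing {v : V} : S.Sing K v ↔ φ.Q v = 0 := by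
  rw [← φ.Q_zero, h.Q_iff]
  simp only [smul_zero, q_zero, map_zero]
  rw [h.b_zero]
  constructor
  · intro e
    exact ⟨fun c => (e _ (h.sc_mem c)).1, fun c => S.β_symm_zero (e _ (h.sc_mem c)).2⟩
  · rintro ⟨e1, e2⟩ z hz
    obtain ⟨c, rfl⟩ := h.mem_K.1 hz
    exact ⟨e1 c, S.β_symm_zero (e2 c)⟩

lemma isom_iff {g : V ≃ₗ[F] V} :
    g ∈ φ.Isom ↔ S.st (S.upU F g).1 * (S.upU F g).1 = 1 ∧ ∀ v, S.q (g v) = S.q v := by
  constructor
  · intro e
    exact ⟨uni_of_β fun x y => by simp [h.β, e.1], fun v => h.q_of_Q (e.2 v)⟩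
  · rintro ⟨e1, e2⟩
    have e3 : ∀ x y, φ.b (g x) (g y) = φ.b x y := fun x y => h.b_ext fun c => by
      rw [← map_smul]
      exact uni_β e1 x _
    exact ⟨e3, fun v => h.Q_of_q (fun c => by rw [← map_smul, e2]) (e3 v v)⟩

variable [Finite V]

lemma upU_mem_iso {J : S.NR} {g : V ≃ₗ[F] V} :
    S.upU F g ∈ S.iso J ↔ (S.upU F g).1 - 1 ∈ J ∧ g ∈ φ.Isom := by
  rw [mem_iso, h.isom_iff]
  rfl

lemma mem_iso' {J : S.NR} (hJ : J ≤ S.cent K 1) {g : S.Eˣ} :
    g ∈ S.iso J ↔ g.1 - 1 ∈ J ∧ ∃ k ∈ φ.Isom, S.upU F k = g := by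
  constructor
  · intro e
    obtain ⟨k, rfl⟩ := h.exists_upU (iso_mem (one_mem_cent K) (iso_mono hJ e))
    exact ⟨iso_sub e, k, (h.upU_mem_iso.1 e).2, rfl⟩
  · rintro ⟨e, k, hk, rfl⟩
    exact h.upU_mem_iso.2 ⟨e, hk⟩

theorem iso_eq : S.iso (S.cent K 1) = φ.Isom.map (S.upU F) := by
  ext g
  rw [h.mem_iso' le_rfl, Subgroup.mem_map]
  refine ⟨fun e => e.2, fun e => ⟨?_, e⟩⟩
  obtain ⟨k, -, rfl⟩ := e
  exact sub_mem (h.up_mem _) (one_mem_cent K)

omit [Finite F] h in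
lemma fd : FiniteDimensional F V := Module.Finite.of_finite

theorem om_eq (hd : 21 ≤ finrank F V) : S.om (S.cent K 1) = (φ.EW ⊤).map (S.upU F) := by
  have := fd (F := F) (V := V)
  rw [om, h.iso_eq, ← Subgroup.map_commutator, ← Form.IW_top,
    Form.commutator_IW φ.nd_top (by rwa [finrank_top])]

lemma EW_le_om (hd : 11 ≤ finrank F V) {g : V ≃ₗ[F] V} (hg : g ∈ φ.EW ⊤) :
    S.upU F g ∈ S.om (S.cent K 1) := by
  have := fd (F := F) (V := V)
  rw [om, h.iso_eq, ← Subgroup.map_commutator]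
  refine Subgroup.mem_map_of_mem _ (Subgroup.commutator_mono (Form.EW_le_Isom ⊤)
    (Form.EW_le_Isom ⊤) ?_)
  rwa [Form.EW_perfect φ.nd_top (by rwa [finrank_top])]

omit [Finite F] [Finite V]

omit h in
lemma sc_inj [Nontrivial V] : Function.Injective (S.sc F) := (S.sc F).injective

lemma charP [Nontrivial V] : CharP F p := by
  refine (CharP.charP_iff_prime_eq_zero Fact.out).2 (sc_inj (S := S) ?_)
  rw [map_natCast, map_zero]
  ext v
  simp [← Nat.cast_smul_eq_nsmul (ZMod p)]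

lemma card_K [Nontrivial V] : Nat.card K = Nat.card F := by
  symm
  refine Nat.card_congr (Equiv.ofBijective (fun c => (⟨S.sc F c, h.sc_mem c⟩ : K)) ⟨?_, ?_⟩)
  · exact fun a b e => sc_inj (congrArg Subtype.val e)
  · rintro ⟨x, hx⟩
    obtain ⟨c, rfl⟩ := h.mem_K.1 hx
    exact ⟨c, rfl⟩

lemma σ_eq_iff [Nontrivial V] : (∀ c, φ.σ c = c) ↔ ∀ z ∈ K, S.st z = z := by
  refine ⟨fun e z hz => ?_, fun e c => sc_inj (S := S) ?_⟩
  · obtain ⟨c, rfl⟩ := h.mem_K.1 hz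
    rw [h.st_sc, e]
  · rw [← h.st_sc, e _ (h.sc_mem c)]

/-- `K`-submodules are subspaces -/
def sub (U : AddSubgroup V) (hU : ∀ z ∈ K, ∀ v ∈ U, z v ∈ U) : Submodule F V where
  carrier := U
  add_mem' := U.add_mem
  zero_mem' := U.zero_mem
  smul_mem' := fun c v hv => hU _ (h.sc_mem c) v hv

lemma mem_sub {U : AddSubgroup V} {hU : ∀ z ∈ K, ∀ v ∈ U, z v ∈ U} {v : V} :
    v ∈ h.sub U hU ↔ v ∈ U := Iff.rfl

lemma sub_inv (W : Submodule F V) {z : S.E} (hz : z ∈ K) {v : V} (hv : v ∈ W) : z v ∈ W := by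
  obtain ⟨c, rfl⟩ := h.mem_K.1 hz
  exact W.smul_mem c hv

lemma perp_eq (W : Submodule F V) : S.perp W.toAddSubgroup = (φ.perp W).toAddSubgroup := by
  ext y
  refine ⟨fun e x hx => φ.b_symm_zero (h.b_zero.2 fun c => S.β_symm_zero (e _ (W.smul_mem c hx))),
    fun e x hx => ?_⟩
  rw [h.β, e x hx, map_zero]

lemma rank_iff [Finite F] [Finite V] [Nontrivial V] {n : ℕ} : S.Rank K 1 n ↔ finrank F V = n := by
  have := fd (F := F) (V := V)
  have hq : 1 < Nat.card F := Finite.one_lt_card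
  have h1 : Nat.card (LinearMap.range (1 : S.E)) = Nat.card V := by
    rw [show LinearMap.range (1 : S.E) = ⊤ from LinearMap.range_id]
    exact Nat.card_congr Submodule.topEquiv.toEquiv
  rw [Rank, h1, h.card_K, Module.natCard_eq_pow_finrank (K := F)]
  exact (Nat.pow_right_injective hq).eq_iff

end Real

lemma Loc.nontrivial {J : S.NR} {e : S.E} (h : S.Loc J e) : Nontrivial V := by
  by_contra hV
  have := not_nontrivial_iff_subsingleton.1 hV
  exact h.ne (LinearMap.ext fun _ => Subsingleton.elim _ _)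

end FS

end Vale.Agent.P183NK
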