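import Vale.Agent.P183CF.RealEx
import Vale.Agent.P183CF.Levi

/-!
The bridge for split rings of scalars: linear groups.
-/

set_option autoImplicit false
set_option linter.all false

namespace Vale.Agent.P183CF.Form.Pol

open Module

variable {F V : Type*} [Field F] [AddCommGroup V] [Module F V] {φ : Form F V}
  {X Y : Submodule F V} (P : φ.Pol X Y)

/-- the projection onto `X` along `Y` -/
noncomputable def pr : End F V := X.subtype ∘ₗ Submodule.projectionOnto X Y P.isCompl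

lemma pr_x {x : V} (hx : x ∈ X) : P.pr x = x :=
  congrArg Subtype.val (Submodule.projectionOnto_apply_left P.isCompl ⟨x, hx⟩)

lemma pr_y {x : V} (hx : x ∈ Y) : P.pr x = 0 :=
  congrArg Subtype.val (Submodule.projectionOnto_apply_right P.isCompl ⟨x, hx⟩)

lemma pr_mem (x : V) : P.pr x ∈ X := (Submodule.projectionOnto X Y P.isCompl x).2

lemma pr_add (x : V) : P.pr x + P.symm.pr x = x := by
  obtain ⟨a, ha, c, hc, rfl⟩ := P.decomp x
  simp [P.pr_x ha, P.pr_y hc, P.symm.pr_x hc, P.symm.pr_y ha]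

/-- the map that is `c` on `X` and `d` on `Y` -/
noncomputable def dg (c d : F) : End F V := c • P.pr + d • P.symm.pr

lemma dg_x (c d : F) {x : V} (hx : x ∈ X) : P.dg c d x = c • x := by
  simp [dg, P.pr_x hx, P.symm.pr_y hx]

lemma dg_y (c d : F) {x : V} (hx : x ∈ Y) : P.dg c d x = d • x := by
  simp [dg, P.pr_y hx, P.symm.pr_x hx]

include P in
lemma map_ext {M : Type*} [AddCommGroup M] {G : Type*} [FunLike G V M] [AddMonoidHomClass G V M]
    {f g : G} (h1 : ∀ x ∈ X, f x = g x) (h2 : ∀ x ∈ Y, f x = g x) : f = g :=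
  DFunLike.ext _ _ fun v => by
    obtain ⟨a, ha, c, hc, rfl⟩ := P.decomp v
    rw [map_add, map_add, h1 a ha, h2 c hc]

end Vale.Agent.P183CF.Form.Pol

namespace Vale.Agent.P183NK

open Subgroup Vale.Agent.P183A Vale.Agent.P183CF Module

namespace FS

variable {p : ℕ} [Fact p.Prime] {V : Type} [AddCommGroup V] [Module (ZMod p) V] {S : FS p V}
  {F : Type} [Field F] [Module F V]

variable (S) in
/-- The split ring of scalars `Z = F × F` acts on `V = X ⊕ Y`. -/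
structure RealA (Z : S.NR) (φ : Form F V) (τ : F →+ ZMod p) (X Y : Submodule F V) : Prop
    extends S.Real (S.sym Z) φ τ where
  pol : φ.Pol X Y
  σ1 : ∀ c, φ.σ c = c
  scalA : ∀ x : S.E, x ∈ Z ↔ ∃ c d : F, (∀ v ∈ X, x v = c • v) ∧ ∀ v ∈ Y, x v = d • v

namespace RealA

variable {Z : S.NR} {φ : Form F V} {τ : F →+ ZMod p} {X Y : Submodule F V}
  (h : S.RealA Z φ τ X Y)
include h

lemma symm : S.RealA Z φ τ Y X :=
  ⟨h.toReal, h.pol.symm, h.σ1, fun x => (h.scalA x).trans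
    ⟨fun ⟨c, d, e⟩ => ⟨d, c, e.symm⟩, fun ⟨c, d, e⟩ => ⟨d, c, e.symm⟩⟩⟩

lemma dg_mem (c d : F) : S.up F (h.pol.dg c d) ∈ Z :=
  (h.scalA _).2 ⟨c, d, fun _ => h.pol.dg_x c d, fun _ => h.pol.dg_y c d⟩

lemma mem_Z {x : S.E} : x ∈ Z ↔ ∃ c d, x = S.up F (h.pol.dg c d) := by
  refine ⟨fun hx => ?_, fun ⟨c, d, e⟩ => e ▸ h.dg_mem c d⟩
  obtain ⟨c, d, e1, e2⟩ := (h.scalA x).1 hx
  exact ⟨c, d, h.pol.map_ext (fun v hv => by rw [e1 v hv, up_apply, h.pol.dg_x _ _ hv])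
    fun v hv => by rw [e2 v hv, up_apply, h.pol.dg_y _ _ hv]⟩

lemma pr_mem : S.up F h.pol.pr ∈ Z :=
  (h.scalA _).2 ⟨1, 0, fun _ hv => by simp [h.pol.pr_x hv], fun _ hv => by simp [h.pol.pr_y hv]⟩

lemma st_dg (c d : F) : S.st (S.up F (h.pol.dg c d)) = S.up F (h.pol.dg d c) :=
  h.st_of fun v w => by
    obtain ⟨a, ha, b, hb, rfl⟩ := h.pol.decomp v
    obtain ⟨a', ha', b', hb', rfl⟩ := h.pol.decomp w
    simp [h.pol.dg_x _ _ ha, h.pol.dg_x _ _ ha', h.pol.dg_y _ _ hb, h.pol.dg_y _ _ hb', h.σ1,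
      h.pol.xx ha ha', h.pol.yy hb hb']

lemma cent_le : S.cent Z 1 ≤ S.cent (S.sym Z) 1 := cent_anti (sym_le Z) 1

lemma mem_centA {x : S.E} : x ∈ S.cent Z 1 ↔
    (∀ (c : F) v, x (c • v) = c • x v) ∧ (∀ v ∈ X, x v ∈ X) ∧ ∀ v ∈ Y, x v ∈ Y := by
  constructor
  · intro hx
    have k : ∀ {X Y : Submodule F V}, S.RealA Z φ τ X Y → ∀ v ∈ X, x v ∈ X := by
      intro X Y h v hv
      have := congrArg (fun f : S.E => f v) (hx.2.2 _ h.pr_mem)
      simp only [End.mul_apply, up_apply, h.pol.pr_x hv] at this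
      rw [this]
      exact h.pol.pr_mem _
    exact ⟨h.mem_cent.1 (h.cent_le hx), k h, k h.symm⟩
  · rintro ⟨h1, h2, h3⟩
    refine mem_cent_one.2 fun z hz => ?_
    obtain ⟨c, d, e1, e2⟩ := (h.scalA z).1 hz
    exact h.pol.map_ext (fun v hv => by simp [e1 v hv, e1 _ (h2 v hv), h1])
      fun v hv => by simp [e2 v hv, e2 _ (h3 v hv), h1]

lemma up_memA {a : End F V} :
    S.up F a ∈ S.cent Z 1 ↔ (∀ v ∈ X, a v ∈ X) ∧ ∀ v ∈ Y, a v ∈ Y := by
  rw [h.mem_centA]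
  exact ⟨fun e => e.2, fun e => ⟨a.map_smul, e⟩⟩

lemma mem_centA' {x : S.E} : x ∈ S.cent Z 1 ↔
    ∃ a : End F V, (∀ v ∈ X, a v ∈ X) ∧ (∀ v ∈ Y, a v ∈ Y) ∧ x = S.up F a := by
  refine ⟨fun hx => ?_, fun ⟨a, h1, h2, e⟩ => e ▸ h.up_memA.2 ⟨h1, h2⟩⟩
  obtain ⟨h1, h2, h3⟩ := h.mem_centA.1 hx
  exact ⟨dn x h1, h2, h3, rfl⟩

lemma r1_mem {a w : V} (ha : a ∈ X) (hw : w ∈ Y) : S.up F (φ.r1 a w) ∈ S.cent Z 1 :=
  h.up_memA.2 ⟨fun _ _ => X.smul_mem _ ha, fun v hv => by simp [h.pol.yy hw hv]⟩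

variable [Finite F]

lemma singA {x y : V} (hx : x ∈ X) (hy : y ∈ Y) : S.Sing Z (x + y) ↔ φ.b x y = 0 := by
  constructor
  · intro e
    refine φ.b_symm_zero (h.b_zero.2 fun c => S.β_symm_zero ?_)
    have := (e _ (h.dg_mem c 0)).2
    simpa [h.pol.dg_x _ _ hx, h.pol.dg_y _ _ hy, h.β, h.pol.xx hx hx] using this
  · intro e z hz
    obtain ⟨c, d, e1, e2⟩ := (h.scalA z).1 hz
    rw [map_add, e1 x hx, e2 y hy]
    refine ⟨?_, by simp [h.β, h.pol.xx hx hx, h.pol.yy hy hy, e, φ.b_symm_zero e]⟩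
    rw [← S.q_zero]
    refine h.q_of_Q ?_
    rw [h.pol.Q_comb (X.smul_mem c hx) (Y.smul_mem d hy)]
    simp [e]

variable [Finite V]

theorem iso_eqA : S.iso (S.cent Z 1) = (φ.LV X Y).map (S.upU F) := by
  have := Real.fd (F := F) (V := V)
  ext g
  rw [h.mem_iso' h.cent_le, Subgroup.mem_map]
  constructor
  · rintro ⟨e, k, hk, rfl⟩
    have := h.mem_centA.1 (add_mem e (one_mem_cent Z))
    rw [sub_add_cancel] at this
    exact ⟨k, Form.mem_LV hk this.2.1 this.2.2, rfl⟩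
  · rintro ⟨k, hk, rfl⟩
    exact ⟨sub_mem (h.up_memA.2 ⟨fun _ => Form.LV.mx hk, fun _ => Form.LV.my hk⟩) (one_mem_cent Z),
      k, hk.1, rfl⟩

theorem om_eqA (hd : 3 ≤ finrank F X) : S.om (S.cent Z 1) = (φ.EL X Y).map (S.upU F) := by
  have := Real.fd (F := F) (V := V)
  rw [om, h.iso_eqA, ← Subgroup.map_commutator, h.pol.commutator_LV hd]

lemma ne_bot [Nontrivial V] : X ≠ ⊥ := by
  have := Real.fd (F := F) (V := V)
  rintro rfl
  have h1 := h.pol.two_mul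
  have h2 : 0 < finrank F V := Module.finrank_pos
  rw [finrank_bot] at h1
  omega

lemma dg_inj [Nontrivial V] {c d c' d' : F} (e : h.pol.dg c d = h.pol.dg c' d') :
    c = c' ∧ d = d' := by
  obtain ⟨x, hx, hx0⟩ := Submodule.exists_mem_ne_zero_of_ne_bot h.ne_bot
  obtain ⟨y, hy, hy0⟩ := Submodule.exists_mem_ne_zero_of_ne_bot h.symm.ne_bot
  refine ⟨smul_left_injective F hx0 ?_, smul_left_injective F hy0 ?_⟩
  · show c • x = c' • x
    rw [← h.pol.dg_x c d hx, e, h.pol.dg_x _ _ hx]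
  · show d • y = d' • y
    rw [← h.pol.dg_y c d hy, e, h.pol.dg_y _ _ hy]

lemma card_Z [Nontrivial V] : Nat.card Z = Nat.card F ^ 2 := by
  symm
  rw [pow_two, ← Nat.card_prod]
  refine Nat.card_congr (Equiv.ofBijective
    (fun c : F × F => (⟨S.up F (h.pol.dg c.1 c.2), h.dg_mem _ _⟩ : Z)) ⟨?_, ?_⟩)
  · exact fun a b e => Prod.ext_iff.2 (h.dg_inj (up_inj (congrArg Subtype.val e)))
  · rintro ⟨x, hx⟩
    obtain ⟨c, d, rfl⟩ := h.mem_Z.1 hx
    exact ⟨(c, d), rfl⟩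

lemma rank_iffA [Nontrivial V] {n : ℕ} : S.Rank Z 1 n ↔ finrank F X = n := by
  have := Real.fd (F := F) (V := V)
  have hq : 1 < Nat.card F := Finite.one_lt_card
  have h1 : Nat.card (LinearMap.range (1 : S.E)) = Nat.card V := by
    rw [show LinearMap.range (1 : S.E) = ⊤ from LinearMap.range_id]
    exact Nat.card_congr Submodule.topEquiv.toEquiv
  rw [Rank, h1, h.card_Z, Module.natCard_eq_pow_finrank (K := F), ← h.pol.two_mul, ← pow_mul,
    (Nat.pow_right_injective hq).eq_iff]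
  omega

end RealA

/-- **Realisation, split case.** -/
theorem exists_realA [Finite V] {Z : S.NR} (h : S.Scal Z 1) {η : S.E} (s : S.Spl Z 1 η) :
    ∃ (F : Type) (_ : Field F) (_ : Finite F) (_ : Module F V) (φ : Form F V) (τ : F →+ ZMod p)
      (X Y : Submodule F V), S.RealA Z φ τ X Y ∧ (∀ v, v ∈ X ↔ η v = v) ∧
        ∀ v, v ∈ Y ↔ S.st η v = v := by
  have := h.toLoc.nontrivial
  obtain ⟨F, _, _, _, φ, τ, r⟩ := exists_real h.sym_scal fun x hx h0 => h.inv_sym hx h0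
  have hl : ∀ z ∈ Z, ∀ (c : F) v, z (c • v) = c • z v := fun z hz =>
    r.mem_cent.1 (cent_anti (sym_le Z) 1 (h.le_cent hz))
  let W : ∀ η, S.Spl Z 1 η → Submodule F V := fun η s => LinearMap.range (dn η (hl η s.mem))
  have hW : ∀ η (s : S.Spl Z 1 η) v, v ∈ W η s ↔ η v = v := fun η s v =>
    mem_range_idem (s.idem h)
  have h0 : ∀ η (s : S.Spl Z 1 η) v, η v = v → S.st η v = 0 := fun η s v e => by
    rw [← e, ← End.mul_apply, s.mul' h]; rfl
  have hT : ∀ η (s : S.Spl Z 1 η), φ.TS (W η s) := fun η s => by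
    have h1 : ∀ x ∈ W η s, ∀ y ∈ W η s, φ.b x y = 0 := fun x hx y hy => by
      rw [← (hW η s x).1 hx, r.adj (cent_anti (sym_le Z) 1 (h.le_cent s.mem)),
        h0 η s y ((hW η s y).1 hy), map_zero]
    refine ⟨fun x hx => ?_, fun y hy x hx => h1 x hx y hy⟩
    rw [← φ.Q_zero]
    refine r.Q_of_q (fun c => ?_) (by simp [h1 x hx x hx])
    rw [← (hW η s x).1 hx, ← hl η s.mem, h.compat η s.mem 0 (zero_mem _) (by simp [s.mul])]
    simp
  refine ⟨F, inferInstance, inferInstance, inferInstance, φ, τ, W η s, W _ (s.star h),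
    ⟨r, ⟨hT η s, hT _ (s.star h), eq_top_iff.2 fun v _ => ?_⟩,
      r.σ_eq_iff.2 fun z hz => hz.2.1, fun x => ⟨fun hx => ?_, ?_⟩⟩, hW η s, hW _ (s.star h)⟩
  · have : v = η v + S.st η v := by rw [← LinearMap.add_apply, s.add]; rfl
    rw [this]
    exact Submodule.add_mem_sup ⟨v, rfl⟩ ⟨v, rfl⟩
  · obtain ⟨a, ha, b, hb, rfl⟩ := s.decomp h hx
    obtain ⟨c, rfl⟩ := r.mem_K.1 ha
    obtain ⟨d, rfl⟩ := r.mem_K.1 hb
    refine ⟨c, d, fun v hv => ?_, fun v hv => ?_⟩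
    · rw [hW η s] at hv
      simp [hv, h0 η s v hv]
    · rw [hW _ (s.star h)] at hv
      have := h0 _ (s.star h) v hv
      rw [st_st] at this
      simp [hv, this]
  · rintro ⟨c, d, e1, e2⟩
    have : x = S.sc F c * η + S.sc F d * S.st η := by
      ext v
      have e3 : v = η v + S.st η v := by rw [← LinearMap.add_apply, s.add]; rfl
      conv_lhs => rw [e3, map_add, e1 (η v) ⟨v, rfl⟩, e2 (S.st η v) ⟨v, rfl⟩]
      rfl
    rw [this]
    exact add_mem (mul_mem (r.sc_mem c).1 s.mem) (mul_mem (r.sc_mem d).1 (s.star h).mem)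

theorem Scal.real_cases [Finite V] {Z : S.NR} (h : S.Scal Z 1) :
    (∃ (F : Type) (_ : Field F) (_ : Finite F) (_ : Module F V) (φ : Form F V) (τ : F →+ ZMod p),
      S.Real Z φ τ) ∨
    ∃ (F : Type) (_ : Field F) (_ : Finite F) (_ : Module F V) (φ : Form F V) (τ : F →+ ZMod p)
      (X Y : Submodule F V), S.RealA Z φ τ X Y := by
  rcases h.cases with hf | ⟨η, s⟩
  · exact Or.inl (exists_real h hf)
  · obtain ⟨F, _, _, _, φ, τ, X, Y, r, -⟩ := exists_realA h s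
    exact Or.inr ⟨F, _, inferInstance, _, φ, τ, X, Y, r⟩

end FS

end Vale.Agent.P183NK
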