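import Vale.Agent.P183CF.Glob
import Vale.Agent.P183RL.Main

/-!
Restriction of a form space to the image of a symmetric idempotent; the theorems `BAS`, `N1`, `N2`.
-/

set_option autoImplicit false
set_option linter.all false

namespace Vale.Agent.P183NK

open Subgroup Vale.Agent.P183A Module

namespace FS

variable {p : ℕ} [Fact p.Prime] {V : Type} [AddCommGroup V] [Module (ZMod p) V] {S : FS p V}

/-- extension by zero -/
def exz (e : End (ZMod p) V) (a : End (ZMod p) (LinearMap.range e)) : End (ZMod p) V :=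
  (LinearMap.range e).subtype ∘ₗ a ∘ₗ e.rangeRestrict

/-- compression -/
def cps (e : End (ZMod p) V) (x : End (ZMod p) V) : End (ZMod p) (LinearMap.range e) :=
  e.rangeRestrict ∘ₗ x ∘ₗ (LinearMap.range e).subtype

section

variable {e : End (ZMod p) V} (hi : e * e = e)

lemma exz_apply (a : End (ZMod p) (LinearMap.range e)) (v : V) :
    exz e a v = (a (e.rangeRestrict v)).1 := rfl

lemma cps_apply (x : End (ZMod p) V) (v : LinearMap.range e) : (cps e x v).1 = e (x v.1) := rfl

lemma exz_add (a b : End (ZMod p) (LinearMap.range e)) : exz e (a + b) = exz e a + exz e b := rfl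

lemma exz_one : exz e 1 = e := rfl

include hi

lemma fix_val (v : LinearMap.range e) : e v.1 = v.1 := (mem_range_idem hi).1 v.2

lemma rr_val (v : LinearMap.range e) : e.rangeRestrict v.1 = v := Subtype.ext (fix_val hi v)

lemma exz_val (a : End (ZMod p) (LinearMap.range e)) (v : LinearMap.range e) :
    exz e a v.1 = (a v).1 := by rw [exz_apply, rr_val hi]

lemma exz_mul (a b : End (ZMod p) (LinearMap.range e)) : exz e (a * b) = exz e a * exz e b := by
  ext v
  rw [End.mul_apply, exz_apply b, exz_val hi]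
  rfl

lemma mul_exz (a : End (ZMod p) (LinearMap.range e)) : e * exz e a = exz e a :=
  LinearMap.ext fun v => fix_val hi _

lemma exz_mul' (a : End (ZMod p) (LinearMap.range e)) : exz e a * e = exz e a := by
  ext v
  exact exz_val hi a (e.rangeRestrict v)

lemma exz_inj : Function.Injective (exz e) := fun a b h => LinearMap.ext fun v => Subtype.ext (by
  rw [← exz_val hi, h, exz_val hi])

omit hi in
lemma exz_cps {x : End (ZMod p) V} (h1 : e * x = x) (h2 : x * e = x) : exz e (cps e x) = x := by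
  ext v
  show (e * (x * e)) v = _
  rw [h2, h1]

end

variable (S) in
/-- the restriction of the form space to `e V` -/
def res (e : S.E) (hs : S.st e = e) (hi : e * e = e) : FS p (LinearMap.range e) where
  β := S.β.domRestrict₁₂ _ _
  q := fun v => S.q v.1
  orth := S.orth
  st := fun a => cps e (S.st (exz e a))
  st_spec := fun a x y => by
    show S.β (a x).1 y.1 = S.β x.1 (e (S.st (exz e a) y.1))
    rw [← β_idem hs, fix_val hi, ← S.st_spec, exz_val hi]
  nondeg := fun x h => Subtype.ext (S.nondeg _ fun y => by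
    rw [← fix_val hi x, β_idem hs]
    exact h (e.rangeRestrict y))
  q_add := fun ho x y => S.q_add ho x.1 y.1
  q_smul := fun c x => S.q_smul c x.1
  alt := fun ho x => S.alt ho x.1

variable {e : S.E} (hs : S.st e = e) (hi : e * e = e)

lemma exz_st (a : (S.res e hs hi).E) : exz e ((S.res e hs hi).st a) = S.st (exz e a) :=
  exz_cps (by simpa [hs] using congrArg S.st (exz_mul' hi a))
    (by simpa [hs] using congrArg S.st (mul_exz hi a))

/-- the restriction of a subring -/
def resR (J : S.NR) : (S.res e hs hi).NR where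
  carrier := {a | exz e a ∈ J}
  add_mem' := fun ha hb => J.add_mem ha hb
  zero_mem' := J.zero_mem
  mul_mem' := fun {a b} ha hb => by
    show exz e (a * b) ∈ J
    rw [exz_mul hi]
    exact J.mul_mem ha hb
  neg_mem' := fun ha => J.neg_mem ha

lemma mem_resR {J : S.NR} {a : (S.res e hs hi).E} : a ∈ resR hs hi J ↔ exz e a ∈ J := Iff.rfl

theorem rl_res {J : S.NR} (hJ : S.Loc J e) : Rl (S.res e hs hi) (resR hs hi J) S J (exz e) where
  mem := fun _ hx => hx
  surj := fun y hy => ⟨cps e y, by rwa [mem_resR, exz_cps (hJ.left y hy) (hJ.right y hy)],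
    exz_cps (hJ.left y hy) (hJ.right y hy)⟩
  inj := fun x _ h => exz_inj hi h
  add := fun _ _ _ _ => rfl
  mul := fun x _ y _ => exz_mul hi x y
  star := fun x hx => by
    rw [mem_resR, exz_st]
    exact hJ.star _ hx
  st := fun x _ => exz_st hs hi x
  q := fun x _ _ => by
    refine ⟨fun h v => ?_, fun h v => ?_⟩
    · have h1 : e ((1 + exz e x) v) = ((1 + x) (e.rangeRestrict v)).1 := by
        rw [LinearMap.add_apply, map_add, exz_apply, fix_val hi]
        rfl
      have h2 : (1 + exz e x) v - ((1 + x) (e.rangeRestrict v)).1 = v - e v := by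
        show v + _ - (e v + _) = _
        rw [exz_apply, add_sub_add_right_eq_sub]
      rw [q_idem hs hi, q_idem hs hi v, h1, h2]
      exact congrArg (· + _) (h (e.rangeRestrict v))
    · have := h v.1
      rw [LinearMap.add_apply, exz_val hi] at this
      exact this

lemma cent_resR {J : S.NR} (hJ : S.Loc J e) :
    (S.res e hs hi).cent (resR hs hi J) 1 = resR hs hi (S.cent J e) := by
  ext a
  rw [mem_cent_one, mem_resR]
  refine ⟨fun h => ⟨mul_exz hi a, exz_mul' hi a, fun d hd => ?_⟩, fun h d hd => exz_inj hi ?_⟩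
  · obtain ⟨c, hc, rfl⟩ := (rl_res hs hi hJ).surj d hd
    rw [← exz_mul hi, h c hc, exz_mul hi]
  · rw [exz_mul hi, exz_mul hi, h.2.2 _ hd]

lemma loc_resR {J : S.NR} (hJ : S.Loc J e) : (S.res e hs hi).Loc (resR hs hi J) 1 where
  mem := hJ.mem
  ne := fun h => hJ.ne (congrArg (exz e) h)
  symm := st_one _
  left := fun _ _ => one_mul _
  right := fun _ _ => mul_one _
  star := (rl_res hs hi hJ).star

namespace Scal

variable {D : S.NR} (h : S.Scal D e)

theorem res : (S.res e h.symm h.toLoc.idem).Scal (resR h.symm h.toLoc.idem D) 1 where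
  toLoc := loc_resR _ _ h.toLoc
  comm := fun x hx y hy => exz_inj h.toLoc.idem (by
    rw [exz_mul h.toLoc.idem, exz_mul h.toLoc.idem, h.comm _ hx _ hy])
  red := fun x hx e1 => exz_inj h.toLoc.idem (h.red _ hx (by
    rw [← exz_mul h.toLoc.idem, e1]; rfl))
  inv := fun x hx e1 e2 => by
    obtain ⟨y, hy, e3⟩ := h.inv _ hx (by rw [← exz_st, e1]) fun e4 => e2 (exz_inj h.toLoc.idem e4)
    obtain ⟨c, hc, rfl⟩ := (rl_res h.symm h.toLoc.idem h.toLoc).surj y hy
    exact ⟨c, hc, exz_inj h.toLoc.idem (by rw [exz_mul h.toLoc.idem, e3]; rfl)⟩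
  compat := fun x hx y hy e1 v => by
    have := h.compat _ hx _ hy (by
      rw [← exz_st h.symm h.toLoc.idem, ← exz_st h.symm h.toLoc.idem, ← exz_mul h.toLoc.idem, e1,
        exz_mul h.toLoc.idem]) v.1
    rwa [exz_val h.toLoc.idem, exz_val h.toLoc.idem] at this

lemma rank_res {r : ℕ} :
    (S.res e h.symm h.toLoc.idem).Rank (resR h.symm h.toLoc.idem D) 1 r ↔ S.Rank D e r := by
  have h1 : Nat.card (LinearMap.range (1 : (S.res e h.symm h.toLoc.idem).E)) =
      Nat.card (LinearMap.range e) := by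
    rw [show LinearMap.range (1 : (S.res e h.symm h.toLoc.idem).E) = ⊤ from LinearMap.range_id]
    exact Nat.card_congr Submodule.topEquiv.toEquiv
  rw [Rank, Rank, h1, (rl_res h.symm h.toLoc.idem h.toLoc).card_eq]

lemma rl_cent : Rl (S.res e h.symm h.toLoc.idem)
    ((S.res e h.symm h.toLoc.idem).cent (resR h.symm h.toLoc.idem D) 1) S (S.cent D e) (exz e) := by
  rw [cent_resR _ _ h.toLoc]
  exact rl_res _ _ h.toLoc.cent

include h

variable [Finite V]

lemma rank_unique {r r' : ℕ} (h1 : S.Rank D e r) (h2 : S.Rank D e r') : r = r' :=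
  Nat.pow_right_injective h.two_le_card (h1.symm.trans h2)

theorem exists_rank' : ∃ r, S.Rank D e r := by
  obtain ⟨r, hr, -⟩ := h.res.rank_card
  exact ⟨r, h.rank_res.1 hr⟩

theorem simp_cent : S.Simp (S.cent D e) e := h.rl_cent.simp h.res.simp1

theorem ctr_cent : S.ctr (S.cent D e) e = D := by
  refine le_antisymm (fun x hx => ?_) fun x hx => ⟨h.le_cent hx, h.toLoc.le_cent_cent hx⟩
  obtain ⟨a, ha, rfl⟩ := h.rl_cent.surj x hx.1
  have := (h.rl_cent.mem_ctr h.res.toLoc.cent h.toLoc.cent ha).1 hx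
  rwa [h.res.ctr_eq1] at this

theorem deg_cent {r : ℕ} (hr : S.Rank D e r) : S.Deg (S.cent D e) e r := by
  obtain ⟨r', h1, h2⟩ := h.res.rank_card
  obtain rfl := h.rank_unique hr (h.rank_res.1 h1)
  rw [h.rl_cent.deg h.res.toLoc.cent h.toLoc.cent, Deg, h.res.ctr_eq1, h2]

/-- `Ω` has no fixed vector on `e V` -/
theorem fix_om' {r : ℕ} (hr : S.Rank D e r) (hn : 11 ≤ r) {v : V} (hv : e v = v)
    (hf : ∀ g ∈ S.om (S.cent D e), g.1 v = v) : v = 0 := by
  have := h.res.fix_om (h.rank_res.2 hr) hn (v := ⟨v, v, hv⟩) fun g hg => by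
    have e1 := hf _ ((h.rl_cent.hom_om (g := ⟨g, om_le_iso _ hg⟩)).2 hg)
    rw [Rl.hom_val, LinearMap.add_apply] at e1
    have e2 := exz_val h.toLoc.idem (g.1 - 1) ⟨v, v, hv⟩
    refine Subtype.ext ?_
    rw [show exz e (g.1 - 1) v = (g.1 ⟨v, v, hv⟩).1 - v from e2] at e1
    simpa using e1
  exact congrArg Subtype.val this

theorem tc_cent {r : ℕ} (hr : S.Rank D e r) (hn : 11 ≤ r) : S.TC (S.cent D e) e :=
  fun _ hv hf => h.fix_om' hr hn hv fun g hg => hf g (om_le_iso _ hg)

end Scal

end FS

theorem bas : BAS 11 := fun _ _ _ _ _ _ _ _ _ _ h hr =>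
  ⟨h.simp_cent, h.ctr_cent, h.deg_cent hr, h.tc_cent hr⟩

theorem n1 : N1 21 := n1_of_global rkg n1g

theorem n2 : N2 23 := n2_of_global rkg n2g

end Vale.Agent.P183NK
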