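import Vale.Agent.P183CF.Eich

/-!
Witt's theorem inside the group generated by the Eichler-Siegel transformations.
-/

set_option autoImplicit false
set_option linter.all false

namespace Vale.Agent.P183CF

open Module

namespace Form

variable {F V : Type*} [Field F] [AddCommGroup V] [Module F V] {φ : Form F V}

/-- one Eichler-Siegel transformation moves `x` to `x'` -/
lemma step0 {x x' u : V} (hQ : φ.Q x = φ.Q x') (hu : φ.Q u = 0) (h1 : φ.b u x = 1)
    (h2 : φ.b u x' = 1) : ∃ (l : F) (h : φ.RD u (x' - x) l), rho h x = x' := by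
  refine ⟨-φ.b (x' - x) x, ⟨hu, by simp [h1, h2], ?_⟩, ?_⟩
  · have := φ.Q_add x (x' - x)
    rw [add_sub_cancel, ← hQ, add_assoc, left_eq_add, φ.md_b_comm] at this
    rw [map_neg, eq_neg_iff_add_eq_zero, this]
  · simp [rho_apply, h1]

variable [Finite F] [FiniteDimensional F V] {W : Submodule F V}

lemma step1 (hW : φ.Nd W) {U : Submodule F V} (hU : U ≤ W) (hd : 2 * finrank F U + 9 ≤ finrank F W)
    {x x' : V} (hx : x ∈ W) (hx' : x' ∈ W) (h1 : x ∉ U) (h2 : x' ∉ U ⊔ F ∙ x)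
    (hQ : φ.Q x = φ.Q x') (hb : ∀ y ∈ U, φ.b y x = φ.b y x') :
    ∃ g ∈ φ.EW W, (∀ y ∈ U, g y = y) ∧ g x = x' := by
  obtain ⟨f1, hf1, hf1'⟩ := exists_fun h1
  obtain ⟨f, hf, hf'⟩ := exists_fun' h2 f1 1
  have d1 := finrank_sup_span U x
  have d2 := finrank_sup_span (U ⊔ F ∙ x) x'
  obtain ⟨u, hu, -, hu1, hu2⟩ := hW.exists_dual (sup_span_le (sup_span_le hU hx) hx') (by omega) f 0
  have e1 : φ.b u x = 1 := by
    rw [hu2 x (Submodule.mem_sup_left (mem_sup_span_r U x)), hf' x (mem_sup_span_r U x), hf1]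
  have e2 : φ.b u x' = 1 := by rw [hu2 x' (mem_sup_span_r _ _), hf]
  obtain ⟨l, h, hl⟩ := step0 hQ hu1 e1 e2
  refine ⟨rho h, rho_EW h hu (W.sub_mem hx' hx), fun y hy => rho_fix h ?_ ?_, hl⟩
  · rw [hu2 y (Submodule.mem_sup_left (Submodule.mem_sup_left hy)),
      hf' y (Submodule.mem_sup_left hy), hf1' y hy]
  · apply φ.b_symm_zero
    rw [map_sub, hb y hy, sub_self]

/-- extension by one vector -/
theorem step (hW : φ.Nd W) {U : Submodule F V} (hU : U ≤ W) (hd : 2 * finrank F U + 9 ≤ finrank F W)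
    {x x' : V} (hx : x ∈ W) (hx' : x' ∈ W) (h1 : x ∉ U) (h2 : x' ∉ U)
    (hQ : φ.Q x = φ.Q x') (hb : ∀ y ∈ U, φ.b y x = φ.b y x') :
    ∃ g ∈ φ.EW W, (∀ y ∈ U, g y = y) ∧ g x = x' := by
  have d1 := finrank_sup_span U x
  have d2 := finrank_sup_span (U ⊔ F ∙ x) x'
  obtain ⟨z, hz, hz0, hz1, hz2⟩ := hW.exists_dual (sup_span_le (sup_span_le hU hx) hx') (by omega)
    (φ.b x) (φ.Q x)
  have hb' : ∀ y ∈ U, φ.b y x = φ.b y z := fun y hy => by
    rw [φ.herm x y, φ.herm z y, hz2 y (Submodule.mem_sup_left (Submodule.mem_sup_left hy))]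
  obtain ⟨g, hg, hg1, hg2⟩ := step1 hW hU hd hx hz h1 (fun h => hz0 (Submodule.mem_sup_left h))
    hz1.symm hb'
  obtain ⟨k, hk, hk1, hk2⟩ := step1 hW hU hd hx' hz h2 (fun h => hz0 (by
    refine (sup_le (le_sup_left.trans le_sup_left) le_sup_right :
      U ⊔ F ∙ x' ≤ (U ⊔ F ∙ x) ⊔ F ∙ x') h)) (hQ.symm.trans hz1.symm)
    (fun y hy => (hb y hy).symm.trans (hb' y hy))
  refine ⟨k⁻¹ * g, mul_mem (inv_mem hk) hg, fun y hy => ?_, ?_⟩
  · simp only [LinearEquiv.mul_apply, hg1 y hy, inv_fix (hk1 y hy)]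
  · simp only [LinearEquiv.mul_apply, hg2, ← hk2, inv_app]

/-- **Witt's theorem for small subspaces.** -/
theorem witt (hW : φ.Nd W) {U : Submodule F V} (hU : U ≤ W) (hd : 2 * finrank F U + 7 ≤ finrank F W)
    (f : V →ₗ[F] V) (hf : ∀ x ∈ U, f x ∈ W) (hinj : ∀ x ∈ U, f x = 0 → x = 0)
    (hb : ∀ x ∈ U, ∀ y ∈ U, φ.b (f x) (f y) = φ.b x y) (hQ : ∀ x ∈ U, φ.Q (f x) = φ.Q x) :
    ∃ g ∈ φ.EW W, ∀ x ∈ U, g x = f x := by
  induction hn : finrank F U generalizing U with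
  | zero =>
    have : U = ⊥ := Submodule.finrank_eq_zero.1 hn
    subst this
    exact ⟨1, one_mem _, fun x hx => by rw [Submodule.mem_bot] at hx; simp [hx]⟩
  | succ n ih =>
    have hne : U ≠ ⊥ := by
      rintro rfl
      simp at hn
    obtain ⟨x, hx, hx0⟩ := Submodule.exists_mem_ne_zero_of_ne_bot hne
    obtain ⟨l, hl, -⟩ := exists_fun (U := (⊥ : Submodule F V)) (x := x) (by simpa using hx0)
    let U0 : Submodule F V := U ⊓ LinearMap.ker l
    have hx1 : x ∉ U0 := fun h => by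
      have : l x = 0 := h.2
      simp [hl] at this
    have hdec : ∀ y ∈ U, y - l y • x ∈ U0 := fun y hy =>
      ⟨U.sub_mem hy (U.smul_mem _ hx), by simp [hl]⟩
    have hsup : U0 ⊔ F ∙ x = U := by
      refine le_antisymm (sup_span_le inf_le_left hx) fun y hy => ?_
      exact mem_sup_span.2 ⟨_, hdec y hy, l y, by simp⟩
    have hlt : finrank F U0 < finrank F U :=
      Submodule.finrank_lt_finrank_of_lt (lt_of_le_of_ne inf_le_left fun h => hx1 (h ▸ hx))
    have d1 := finrank_sup_span U0 x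
    rw [hsup] at d1
    have h0 : U0 ≤ U := inf_le_left
    obtain ⟨g, hg, hg1⟩ := ih (h0.trans hU) (by omega) (fun y hy => hf y (h0 hy))
      (fun y hy => hinj y (h0 hy)) (fun y hy z hz => hb y (h0 hy) z (h0 hz))
      (fun y hy => hQ y (h0 hy)) (by omega)
    have hgI := EW_le_Isom W hg
    have d2 : finrank F (U0.map f) ≤ finrank F U0 := Submodule.finrank_map_le f U0
    obtain ⟨k, hk, hk1, hk2⟩ := step hW (U := U0.map f) (by
      rintro _ ⟨y, hy, rfl⟩
      exact hf y (h0 hy)) (by omega) (IW.map_mem (EW_le_IW W hg) (hU hx)) (hf x hx) (by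
      rintro ⟨y, hy, e⟩
      rw [← hg1 y hy] at e
      exact hx1 (g.injective e ▸ hy)) (by
      rintro ⟨y, hy, e⟩
      have := hinj (y - x) (U.sub_mem (h0 hy) hx) (by rw [map_sub, e, sub_self])
      exact hx1 (sub_eq_zero.1 this ▸ hy)) (by rw [hgI.2, hQ x hx]) (by
      rintro _ ⟨y, hy, rfl⟩
      rw [hb y (h0 hy) x hx, ← hg1 y hy, hgI.1])
    refine ⟨k * g, mul_mem hk hg, fun y hy => ?_⟩
    obtain ⟨z, hz, c, rfl⟩ := mem_sup_span.1 (hsup ▸ hy)
    simp only [LinearEquiv.mul_apply, map_add, map_smul, hk2, hg1 z hz, hk1 _ ⟨z, hz, rfl⟩]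

/-- transitivity on nonzero vectors with a given value of `Q` -/
lemma trans1 (hW : φ.Nd W) (hd : 9 ≤ finrank F W) {x x' : V} (hx : x ∈ W) (hx' : x' ∈ W)
    (h1 : x ≠ 0) (h2 : x' ≠ 0) (hQ : φ.Q x = φ.Q x') : ∃ g ∈ φ.EW W, g x = x' := by
  obtain ⟨g, hg, -, h⟩ := step hW (U := ⊥) bot_le (by simpa using hd) hx hx' (by simpa using h1)
    (by simpa using h2) hQ (fun y hy => by rw [Submodule.mem_bot] at hy; simp [hy])
  exact ⟨g, hg, h⟩

/-- transitivity on independent pairs of a given isometry type -/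
lemma trans2 (hW : φ.Nd W) (hd : 11 ≤ finrank F W) {x x' y y' : V} (hx : x ∈ W) (hx' : x' ∈ W)
    (hy : y ∈ W) (hy' : y' ∈ W) (h1 : x ≠ 0) (h2 : x' ≠ 0) (h3 : y ∉ F ∙ x) (h4 : y' ∉ F ∙ x')
    (hQ : φ.Q x = φ.Q x') (hQ' : φ.Q y = φ.Q y') (hb : φ.b x y = φ.b x' y') :
    ∃ g ∈ φ.EW W, g x = x' ∧ g y = y' := by
  obtain ⟨g, hg, hg1⟩ := trans1 hW (by omega) hx hx' h1 h2 hQ
  have hgI := EW_le_Isom W hg
  have d1 := finrank_span1 (F := F) x'
  obtain ⟨k, hk, hk1, hk2⟩ := step hW (U := F ∙ x') (span1_le hx') (by omega)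
    (IW.map_mem (EW_le_IW W hg) hy) hy' (by
      intro h
      obtain ⟨c, hc⟩ := Submodule.mem_span_singleton.1 h
      rw [← hg1, ← map_smul] at hc
      exact h3 (Submodule.mem_span_singleton.2 ⟨c, g.injective hc⟩)) h4 (by rw [hgI.2, hQ']) (by
      intro z hz
      obtain ⟨c, rfl⟩ := Submodule.mem_span_singleton.1 hz
      rw [b_smul_left, b_smul_left, ← hb, ← hg1, hgI.1])
  exact ⟨k * g, mul_mem hk hg, by
    simp only [LinearEquiv.mul_apply, hg1, hk1 _ (Submodule.mem_span_singleton_self _)], by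
    simp only [LinearEquiv.mul_apply, hk2]⟩

omit [Finite F] in
/-- a nonzero nondegenerate space has a nondegenerate subspace of dimension one or two -/
lemma Nd.exists_small {U : Submodule F V} (hU : φ.Nd U) (hne : U ≠ ⊥) :
    ∃ X ≤ U, φ.Nd X ∧ X ≠ ⊥ ∧ finrank F X ≤ 2 := by
  obtain ⟨x, hx, hx0⟩ := Submodule.exists_mem_ne_zero_of_ne_bot hne
  by_cases hxx : φ.b x x = 0
  · obtain ⟨y, hy, hxy⟩ : ∃ y ∈ U, φ.b x y ≠ 0 := by
      by_contra hcon
      push Not at hcon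
      exact hx0 (hU.eq_zero hx hcon)
    have d1 := finrank_span1 (F := F) y
    have d2 := finrank_sup_span (F ∙ y) x
    refine ⟨F ∙ y ⊔ F ∙ x, sup_span_le (span1_le hy) hx, ?_, ?_, by omega⟩
    · rw [Nd, eq_bot_iff]
      rintro z ⟨hz, hz'⟩
      obtain ⟨w, hw, c, rfl⟩ := mem_sup_span.1 hz
      obtain ⟨d, rfl⟩ := Submodule.mem_span_singleton.1 hw
      have h1 := hz' x (mem_sup_span_r _ _)
      have h2 := hz' y (Submodule.mem_sup_left (Submodule.mem_span_singleton_self y))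
      simp only [map_add, map_smul, hxx, smul_eq_mul, mul_zero, add_zero, mul_eq_zero, hxy,
        or_false] at h1
      subst h1
      have hyx : φ.b y x ≠ 0 := fun e => hxy (φ.b_symm_zero e)
      simp only [zero_smul, zero_add, map_smul, smul_eq_mul, mul_eq_zero, hyx, or_false] at h2
      simp [h2]
    · intro e
      have := mem_sup_span_r (F ∙ y) x
      rw [e, Submodule.mem_bot] at this
      exact hx0 this
  · have d1 := finrank_span1 (F := F) x
    refine ⟨F ∙ x, span1_le hx, ?_, by simpa using hx0, by omega⟩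
    rw [Nd, eq_bot_iff]
    rintro z ⟨hz, hz'⟩
    obtain ⟨d, rfl⟩ := Submodule.mem_span_singleton.1 hz
    have h1 := hz' x (Submodule.mem_span_singleton_self x)
    simp only [map_smul, smul_eq_mul, mul_eq_zero, hxx, or_false] at h1
    simp [h1]

lemma IW_of_fix {U : Submodule F V} {g : V ≃ₗ[F] V} (hg : g ∈ φ.IW W) (h : ∀ x ∈ U, g x = x) :
    g ∈ φ.IW (W ⊓ φ.perp U) := by
  refine ⟨hg.1, fun x hx => ?_⟩
  rw [perp_inf, perp_perp] at hx
  obtain ⟨y, hy, z, hz, rfl⟩ := Submodule.mem_sup.1 hx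
  rw [map_add, hg.2 y hy, h z hz]

/-- an isometry agrees on a nondegenerate subspace of codimension at least ten with an element of
`EW` -/
theorem split (hW : φ.Nd W) {U : Submodule F V} (hU : φ.Nd U) (hUW : U ≤ W)
    (hd : finrank F U + 10 ≤ finrank F W) {g : V ≃ₗ[F] V} (hg : g ∈ φ.IW W) :
    ∃ r ∈ φ.EW W, r⁻¹ * g ∈ φ.IW (W ⊓ φ.perp U) := by
  induction hn : finrank F U using Nat.strong_induction_on generalizing U W g with
  | _ n ih =>
  by_cases hne : U = ⊥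
  · subst hne
    exact ⟨1, one_mem _, by simpa using hg⟩
  obtain ⟨X, hXU, hX, hX0, hX2⟩ := hU.exists_small hne
  have hpos : 0 < finrank F X := by
    rw [Nat.pos_iff_ne_zero, Ne, Submodule.finrank_eq_zero]; exact hX0
  have hle := Submodule.finrank_mono hXU
  obtain ⟨r, hr, hr1⟩ := witt hW (hXU.trans hUW) (by omega) g.toLinearMap
    (fun x hx => IW.map_mem hg (hUW (hXU hx))) (fun x _ h => g.injective (by simpa using h))
    (fun x _ y _ => hg.1.1 x y) (fun x _ => hg.1.2 x)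
  have h1 : r⁻¹ * g ∈ φ.IW (W ⊓ φ.perp X) :=
    IW_of_fix (mul_mem (inv_mem (EW_le_IW W hr)) hg) fun x hx => by
      have : r x = g x := hr1 x hx
      simp only [LinearEquiv.mul_apply, ← this, inv_app]
  have d1 := hX.finrank_inf_perp hXU
  have d2 := hX.finrank_inf_perp (hXU.trans hUW)
  obtain ⟨s, hs, hs1⟩ := ih _ (by omega) (hW.inf_perp hX (hXU.trans hUW)) (hU.inf_perp hX hXU)
    (inf_le_inf_right _ hUW) (by omega) h1 rfl
  refine ⟨r * s, mul_mem hr (EW_mono inf_le_left hs), ?_⟩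
  rw [mul_inv_rev, mul_assoc]
  refine IW_mono ?_ hs1
  rw [inf_assoc, ← perp_sup]
  refine inf_le_inf_left _ (φ.perp_anti fun x hx => ?_)
  obtain ⟨y, hy, z, hz, rfl⟩ := hX.decomp x
  exact Submodule.add_mem_sup hy ⟨by simpa using U.sub_mem hx (hXU hy), hz⟩

omit [Finite F] in
/-- nondegenerate subspaces of about a given dimension -/
lemma Nd.exists_sub [Finite F] (hW : φ.Nd W) (k : ℕ) (hk : k ≤ finrank F W) :
    ∃ X ≤ W, φ.Nd X ∧ k ≤ finrank F X ∧ finrank F X ≤ k + 1 := by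
  induction hn : finrank F W using Nat.strong_induction_on generalizing W with
  | _ n ih =>
  by_cases h : finrank F W ≤ k + 1
  · exact ⟨W, le_rfl, hW, hk, h⟩
  have hne : W ≠ ⊥ := by
    rintro rfl
    simp at h
  obtain ⟨X, hXU, hX, hX0, hX2⟩ := hW.exists_small hne
  have hpos : 0 < finrank F X := by
    rw [Nat.pos_iff_ne_zero, Ne, Submodule.finrank_eq_zero]; exact hX0
  have d1 := hX.finrank_inf_perp hXU
  obtain ⟨Y, hY, h1⟩ := ih _ (by omega) (hW.inf_perp hX hXU) (by omega) rfl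
  exact ⟨Y, hY.trans inf_le_left, h1⟩

/-- the isometry group is abelian modulo `EW` -/
theorem commutator_mem_EW (hW : φ.Nd W) (hd : 21 ≤ finrank F W) {g k : V ≃ₗ[F] V}
    (hg : g ∈ φ.IW W) (hk : k ∈ φ.IW W) : g * k * g⁻¹ * k⁻¹ ∈ φ.EW W := by
  obtain ⟨X, hXW, hX, h1, h2⟩ := hW.exists_sub 10 (by omega)
  have d1 := hX.finrank_inf_perp hXW
  obtain ⟨r, hr, hr1⟩ := split hW hX hXW (by omega) hg
  obtain ⟨s, hs, hs1⟩ := split hW (hW.inf_perp hX hXW) inf_le_left (by omega) hk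
  rw [hW.finrank_rad hXW] at hs1
  have hc := IW.commute (inf_le_right : W ⊓ φ.perp X ≤ φ.perp X) hr1 hs1
  set a := r⁻¹ * g with ha
  set c := s⁻¹ * k with hc'
  have haW : a ∈ φ.IW W := IW_mono inf_le_left hr1
  have hcW : c ∈ φ.IW W := IW_mono hXW hs1
  have e1 : g = r * a := by rw [ha]; group
  have e2 : k = s * c := by rw [hc']; group
  have e3 : g * k * g⁻¹ * k⁻¹ = r * (a * s * a⁻¹) * (c * r⁻¹ * c⁻¹) * s⁻¹ := by
    rw [e1, e2]
    calc r * a * (s * c) * (r * a)⁻¹ * (s * c)⁻¹ = r * a * s * a⁻¹ * (a * c) * a⁻¹ * r⁻¹ * c⁻¹ * s⁻¹ := by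
          group
      _ = _ := by rw [hc]; group
  rw [e3]
  exact mul_mem (mul_mem (mul_mem hr (EW.conj haW hs)) (EW.conj hcW (inv_mem hr))) (inv_mem hs)

theorem commutator_le_EW (hW : φ.Nd W) (hd : 21 ≤ finrank F W) : ⁅φ.IW W, φ.IW W⁆ ≤ φ.EW W :=
  Subgroup.commutator_le.2 fun _ hg _ hk => commutator_mem_EW hW hd hg hk

end Form

end Vale.Agent.P183CF
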